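import Vale.Agent.P195.Model.Chains

/-!
P195: the cells have no homology in positive degrees, and in degree `0` the only cycles that are
not boundaries are seen by the augmentation.
-/

namespace P195.Model

open P195.Algebra
open P195.Orth (augF)

variable {k : Type} [Field k] (hsq : SqLam k)

/-- The differential on `Cell →₀ T`. -/
noncomputable def dC (x : Cell →₀ T k) : Cell →₀ T k := (cellsOf hsq).dQ x

theorem rowOf_dQ {n : ℤ} {x : Cell →₀ T k} (hx : (cellsOf hsq).IsChain n x) (v' : Vtx) :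
    ⇑(rowOf v' (dC hsq x)) = rowMap k (rowOf v' x) := by
  classical
  funext c'
  have h := (cellsOf hsq).dQ_apply x c'
  show T.entry k v' (vert c'.1) ((cellsOf hsq).dQ x c') = _
  rw [h, map_add, entry_d, rowMap_apply, rowOf_apply]
  congr 1
  refine (map_sum (T.entry k v' (vert c'.1)) _ _).trans ?_
  refine Eq.trans ?_ (Finsupp.sum_of_support_subset _ Finsupp.support_onFinset_subset _
    fun c _ => by rw [map_zero, zero_mul]).symm
  refine Finset.sum_congr rfl fun c _ => ?_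
  exact entry_J_mul (hx c).2 ((entry_cellD _ _ _ _).trans (if_pos ⟨rfl, rfl⟩)) v'

/-- A chain with given rows. -/
theorem exists_chain' {n : ℤ} (w : Vtx → Cell →₀ Tinf k) (hw : ∀ v', IsRow k v' n (w v')) :
    ∃ x : Cell →₀ T k, (cellsOf hsq).IsChain n x ∧ ∀ v', rowOf v' x = w v' :=
  let ⟨x, h1, h2⟩ := exists_chain w hw
  ⟨x, h2, h1⟩

theorem isRow_chain {n : ℤ} {x : Cell →₀ T k} (hx : (cellsOf hsq).IsChain n x) (v' : Vtx) :
    IsRow k v' n (rowOf v' x) :=
  isRow_rowOf (fun c => (hx c).1) v'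

theorem isChain_sub {n : ℤ} {x y : Cell →₀ T k} (hx : (cellsOf hsq).IsChain n x)
    (hy : (cellsOf hsq).IsChain n y) : (cellsOf hsq).IsChain n (x - y) := fun c =>
  ⟨(sub_mem (hx c).1 (hy c).1 : x c - y c ∈ _),
    show (x c - y c) * (cellsOf hsq).e c = x c - y c from
      (sub_mul _ _ _).trans (congrArg₂ (· - ·) (hx c).2 (hy c).2)⟩

theorem isChain_add {n : ℤ} {x y : Cell →₀ T k} (hx : (cellsOf hsq).IsChain n x)
    (hy : (cellsOf hsq).IsChain n y) : (cellsOf hsq).IsChain n (x + y) := fun c =>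
  ⟨(add_mem (hx c).1 (hy c).1 : x c + y c ∈ _),
    show (x c + y c) * (cellsOf hsq).e c = x c + y c from
      (add_mul _ _ _).trans (congrArg₂ (· + ·) (hx c).2 (hy c).2)⟩

theorem dQ_isChain' {n : ℤ} {x : Cell →₀ T k} (hx : (cellsOf hsq).IsChain (n + 1) x) :
    (cellsOf hsq).IsChain n (dC hsq x) := by
  simpa [dC] using (cellsOf hsq).dQ_isChain hx

/-- The cycles killed by the augmentation are boundaries. -/
theorem exists_boundary [CharZero k] {n : ℤ} {x : Cell →₀ T k}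
    (hx : (cellsOf hsq).IsChain n x) (hd : (cellsOf hsq).dQ x = 0)
    (hε : ∀ v', augF k (Lam.re k (Tinf.lam k (rowOf v' x (base 0 .c0)))) = 0) :
    ∃ y, (cellsOf hsq).IsChain (n + 1) y ∧ (cellsOf hsq).dQ y = x := by
  let Q := cellsOf hsq
  -- the rows over the link
  choose w₁ hw₁ hc₁ using fun v' => exists_killRows k (isRow_chain hsq hx v')
  obtain ⟨y₁, hy₁, hr₁⟩ := exists_chain' hsq w₁ hw₁
  have e₁ : ∀ v' c, rowOf v' (dC hsq y₁) c = rowMap k (w₁ v') c := fun v' c => by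
    rw [← hr₁ v', ← rowOf_dQ hsq hy₁ v']
  let x₁ := x - dC hsq y₁
  have hx₁ : Q.IsChain n x₁ := isChain_sub hsq hx (dQ_isChain' hsq hy₁)
  have r₁ : ∀ v' c, rowOf v' x₁ c = rowOf v' x c - rowMap k (w₁ v') c := fun v' c => by
    rw [← e₁, ← Finsupp.sub_apply, ← rowOf_sub]
  -- the part at `u`
  choose w₂ hw₂ hc₂ hi₂ using fun v' => exists_killIm (isRow_chain hsq hx₁ v')
  obtain ⟨y₂, hy₂, hr₂⟩ := exists_chain' hsq w₂ hw₂
  have e₂ : ∀ v' c, rowOf v' (dC hsq y₂) c = rowMap k (w₂ v') c := fun v' c => by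
    rw [← hr₂ v', ← rowOf_dQ hsq hy₂ v']
  let x₂ := x₁ - dC hsq y₂
  have hx₂ : Q.IsChain n x₂ := isChain_sub hsq hx₁ (dQ_isChain' hsq hy₂)
  have r₂ : ∀ v' c, rowOf v' x₂ c = rowOf v' x₁ c - rowMap k (w₂ v') c := fun v' c => by
    rw [← e₂, ← Finsupp.sub_apply, ← rowOf_sub]
  -- the cell `c0`
  have hε₂ : ∀ v', augF k (Lam.re k (Tinf.lam k (rowOf v' x₂ (base 0 .c0)))) = 0 := fun v' => by
    rw [r₂, r₁]
    simp only [map_sub, aug_rowMap, hε, sub_zero]
  choose w₃ hw₃ hc₃ hi₃ ht₃ using fun v' => exists_killTop (isRow_chain hsq hx₂ v') (hε₂ v')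
  obtain ⟨y₃, hy₃, hr₃⟩ := exists_chain' hsq w₃ hw₃
  have e₃ : ∀ v' c, rowOf v' (dC hsq y₃) c = rowMap k (w₃ v') c := fun v' c => by
    rw [← hr₃ v', ← rowOf_dQ hsq hy₃ v']
  let x₃ := x₂ - dC hsq y₃
  have hx₃ : Q.IsChain n x₃ := isChain_sub hsq hx₂ (dQ_isChain' hsq hy₃)
  have r₃ : ∀ v' c, rowOf v' x₃ c = rowOf v' x₂ c - rowMap k (w₃ v') c := fun v' c => by
    rw [← e₃, ← Finsupp.sub_apply, ← rowOf_sub]
  have hd₃ : dC hsq x₃ = 0 := by
    have hsub : ∀ a b, dC hsq (a - b) = dC hsq a - dC hsq b := Q.dQ_sub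
    have hsq' : ∀ a, dC hsq (dC hsq a) = 0 := Q.dQ_dQ
    have hd' : dC hsq x = 0 := hd
    simp only [x₃, x₂, x₁, hsub, hsq', hd']
    abel
  have hzero : x₃ = 0 := by
    refine eq_zero_of_rows (fun c => (hx₃ c).2) fun v' =>
      row_eq_zero (isRow_chain hsq hx₃ v') ?_ ?_ ?_ ?_
    · rw [← rowOf_dQ hsq hx₃ v', hd₃]
      funext c
      show T.entry k v' (vert c.1) 0 = 0
      exact map_zero _
    · intro c l
      rw [r₃, r₂, r₁]
      simp only [map_sub, hc₁, hc₂, hc₃, sub_self]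
    · intro i b
      rw [r₃, map_sub, map_sub, hi₃, r₂, map_sub, map_sub, hi₂]
      simp
    · rw [r₃, map_sub, map_sub, ht₃, sub_self]
  refine ⟨y₁ + y₂ + y₃, isChain_add hsq (isChain_add hsq hy₁ hy₂) hy₃, ?_⟩
  show dC hsq (y₁ + y₂ + y₃) = x
  have hadd : ∀ a b, dC hsq (a + b) = dC hsq a + dC hsq b := Q.dQ_add
  rw [hadd, hadd]
  have h := hzero
  simp only [x₃, x₂, x₁] at h
  refine (sub_eq_zero.1 (Eq.trans ?_ h)).symm
  abel

/-- No homology in positive degrees. -/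
theorem acyclic [CharZero k] : (cellsOf hsq).Acyclic := fun n hn x hx hd =>
  exists_boundary hsq hx hd fun v' =>
    augF_part k (n := n) hn.ne'
      (((base_hom (isRow_chain hsq hx v') 0 .c0).1).of_eq k (by simp [BC.deg]))

end P195.Model
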