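import Vale.Agent.P195.Model.Chains
import Vale.Agent.P195.Window.Defs

/-!
P195: the module `Y = k³` at the vertices `(0, b)`, on which `t` acts by one and the generators by
zero, as a target concentrated in degree `0`.
-/

namespace P195.Model

open P195.Algebra MonoidAlgebra
open P195.Orth (augF)

variable (k : Type) [Field k]

/-- The scalar of an entry. -/
noncomputable def eps : Tinf k →ₗ[k] k :=
  (augF k).toLinearMap ∘ₗ Lam.re k ∘ₗ Tinf.lam k

theorem eps_apply (x : Tinf k) : eps k x = augF k (Lam.re k (Tinf.lam k x)) := rfl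

theorem eps_one : eps k (1 : Tinf k) = 1 := by simp [eps_apply]

theorem eps_mul (x y : Tinf k) : eps k (x * y) = eps k x * eps k y := by simp [eps_apply]

theorem eps_dT (x : Tinf k) : eps k (dT k x) = 0 := by simp [eps_apply, augF_dF]

theorem eps_supT {v' v : Vtx} (h : v'.1 ≠ v.1) {x : Tinf k} (hx : x ∈ supT k v' v) :
    eps k x = 0 :=
  augF_supF_ne k h ((mem_supT k).1 hx).1.1

theorem eps_hom {n : ℤ} (hn : n ≠ 0) {x : Tinf k} (hx : HomT k n x) : eps k x = 0 :=
  augF_part k hn ((homL_iff k).1 ((homT_iff k).1 hx).1).1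

/-- The action on `Y` as a matrix. -/
noncomputable def rhoM : T k →ₐ[k] Matrix (Fin 3) (Fin 3) k :=
  AlgHom.ofLinearMap
    { toFun := fun x => Matrix.of fun b' b => eps k (T.entry k (0, b') (0, b) x)
      map_add' := fun x y => by ext b' b; simp
      map_smul' := fun c x => by ext b' b; simp }
    (by
      ext b' b
      show eps k ((1 : Matrix Vtx Vtx (Tinf k)) (0, b') (0, b)) = _
      rw [Matrix.one_apply, Matrix.one_apply, apply_ite (eps k), eps_one, map_zero]
      simp)
    (fun x y => by
      ext b' b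
      show eps k (T.entry k (0, b') (0, b) (x * y)) = ∑ w : Fin 3,
        eps k (T.entry k (0, b') (0, w) x) * eps k (T.entry k (0, w) (0, b) y)
      rw [entry_mul, map_sum, Fintype.sum_prod_type, Fin.sum_univ_two,
        Finset.sum_eq_zero (s := Finset.univ) (f := fun w : Fin 3 => eps k
          (T.entry k (0, b') (1, w) x * T.entry k (1, w) (0, b) y)), add_zero]
      · exact Finset.sum_congr rfl fun w _ => eps_mul k _ _
      · intro w _
        have h0 : eps k (T.entry k (0, b') (1, w) x) = 0 := eps_supT k (by simp) (x.2 (0, b') (1, w))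
        rw [eps_mul, h0, zero_mul])

theorem rhoM_apply (x : T k) (b' b : Fin 3) :
    rhoM k x b' b = eps k (T.entry k (0, b') (0, b) x) := rfl

/-- The module `Y`. -/
def Y : Type := Fin 3 → k

noncomputable instance : AddCommGroup (Y k) := inferInstanceAs (AddCommGroup (Fin 3 → k))
noncomputable instance : Module k (Y k) := inferInstanceAs (Module k (Fin 3 → k))

/-- A vector as an element of `Y`. -/
def Y.mk (u : Fin 3 → k) : Y k := u

/-- A coordinate. -/
def Y.val {k : Type} (u : Y k) : Fin 3 → k := u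

omit [Field k] in
variable {k} in
theorem Y.ext {u u' : Y k} (h : Y.val u = Y.val u') : u = u' := h

noncomputable instance : Module (T k) (Y k) where
  smul x u := Y.mk k (Matrix.mulVec (rhoM k x) (Y.val u))
  one_smul u := Y.ext (by show Matrix.mulVec (rhoM k 1) (Y.val u) = _; simp)
  mul_smul x y u := Y.ext (by
    show Matrix.mulVec (rhoM k (x * y)) (Y.val u)
      = Matrix.mulVec (rhoM k x) (Matrix.mulVec (rhoM k y) (Y.val u))
    rw [map_mul, Matrix.mulVec_mulVec])
  smul_zero x := Y.ext (by show Matrix.mulVec (rhoM k x) 0 = 0; simp)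
  smul_add x u u' := Y.ext (Matrix.mulVec_add (rhoM k x) (Y.val u) (Y.val u'))
  add_smul x y u := Y.ext (by
    show Matrix.mulVec (rhoM k (x + y)) (Y.val u) = _
    rw [map_add, Matrix.add_mulVec]; rfl)
  zero_smul u := Y.ext (by show Matrix.mulVec (rhoM k 0) (Y.val u) = 0; simp)

theorem Y.val_smul (x : T k) (u : Y k) : Y.val (x • u) = Matrix.mulVec (rhoM k x) (Y.val u) := rfl

theorem Y.smul_apply (x : T k) (u : Y k) (b' : Fin 3) :
    Y.val (x • u) b' = ∑ b, eps k (T.entry k (0, b') (0, b) x) * Y.val u b := rfl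

instance : IsScalarTower k (T k) (Y k) :=
  ⟨fun c x u => Y.ext (by
    show Matrix.mulVec (rhoM k (c • x)) (Y.val u) = c • Matrix.mulVec (rhoM k x) (Y.val u)
    rw [map_smul, Matrix.smul_mulVec])⟩

instance : FiniteDimensional k (Y k) := inferInstanceAs (FiniteDimensional k (Fin 3 → k))

theorem rhoM_deg {n : ℤ} (hn : n ≠ 0) {x : T k} (hx : x ∈ (dga k).G n) : rhoM k x = 0 := by
  ext b' b
  rw [rhoM_apply, eps_hom k hn (mem_G_iff.1 hx _ _)]
  rfl

open scoped Classical in
/-- `Y` in degree `0`. -/
noncomputable def SY : Window.Target (dga k) (Y k) where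
  G n := if n = 0 then ⊤ else ⊥
  smul_mem m n a u ha hu := by
    by_cases h : m + n = 0
    · rw [if_pos h]; trivial
    · rw [if_neg h, Submodule.mem_bot]
      by_cases hn : n = 0
      · subst hn
        refine Y.ext ?_
        rw [Y.val_smul, rhoM_deg k (by omega) ha, Matrix.zero_mulVec]
        rfl
      · rw [if_neg hn, Submodule.mem_bot] at hu
        rw [hu, smul_zero]
  d := 0
  d_mem _ _ _ := zero_mem _
  d_smul a u := by
    refine Y.ext (funext fun b' => ?_)
    simp only [LinearMap.zero_apply, smul_zero, add_zero, Y.smul_apply, entry_d, eps_dT, zero_mul,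
      Finset.sum_const_zero]
    rfl

theorem SY_concentrated (n : ℤ) (hn : n ≠ 0) : (SY k).G n = ⊥ := by simp [SY, hn]

theorem SY_top : (SY k).G 0 = ⊤ := by simp [SY]

/-- A power of `t` as an entry. -/
noncomputable def tEntry (v' v : Vtx) (c : k) : Tinf k :=
  Tinf.mk k (Lam.of k (c • tF k ^ (v'.2.val - v.2.val))) 0

theorem tEntry_sup {b : Fin 3} (c : k) : tEntry k (0, b) (0, 0) c ∈ supT k (0, b) (0, 0) := by
  refine supT_lamOnly k (supL_of k (Submodule.smul_mem _ _ ?_))
  show tF k ^ (b.val - 0) ∈ supF k 0 0 ((b.val : ℤ) - (0 : ℕ))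
  simp only [Nat.sub_zero, Nat.cast_zero, sub_zero]
  induction b.val with
  | zero => simpa using supF_one k 0
  | succ j ih =>
    rw [pow_succ, Nat.cast_succ]
    exact supF_mul k ih (supF_tF k 0)

theorem tEntry_hom (v' v : Vtx) (c : k) : HomT k 0 (tEntry k v' v c) := by
  refine homT_lamOnly k (homL_of k (HomF.smul k c ?_))
  induction v'.2.val - v.2.val with
  | zero => simpa using homF_one k
  | succ j ih => rw [pow_succ]; simpa using ih.mul k (homF_tF k)

theorem eps_tEntry (v' v : Vtx) (c : k) : eps k (tEntry k v' v c) = c := by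
  rw [eps_apply, tEntry, Tinf.lam_mk, Lam.re_of, map_smul, map_pow, augF_tF, one_pow, smul_eq_mul,
    mul_one]

end P195.Model
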