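import Vale.Agent.P195.Model.Acyclic
import Vale.Agent.P195.Model.Target

/-!
P195: the cells resolve `Y`, by the cell `c0` of the bottom layer.
-/

namespace P195.Window.Cells

variable {k T : Type} [Field k] [Ring T] [Algebra k T] {R : DGA k T} (Q : Cells R)

theorem dQ_eq_zero {x : Q.Cell →₀ T} (hx : Q.IsChain 0 x) : Q.dQ x = 0 := by
  refine Finsupp.ext fun c => ?_
  rw [Finsupp.zero_apply]
  exact R.G_eq_bot (Or.inl (by omega)) (Q.dQ_isChain hx c).1

end P195.Window.Cells

namespace P195.Model

open P195.Algebra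
open P195.Orth (augF)

variable {k : Type} [Field k]

open scoped Classical in
/-- The augmentation: the bottom cell goes to the first vector. -/
noncomputable def eta (c : Cell) : Y k :=
  if c = base 0 .c0 then Y.mk k (Pi.single 0 1) else 0

theorem val_smul_eta (t : T k) (b' : Fin 3) :
    Y.val (t • eta (k := k) (base 0 .c0)) b' = eps k (T.entry k (0, b') (0, 0) t) := by
  rw [eta, if_pos rfl, Y.smul_apply, Finset.sum_eq_single 0]
  · show _ * (Pi.single (0 : Fin 3) (1 : k) : Fin 3 → k) 0 = _
    simp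
  · intro b _ hb
    show _ * (Pi.single (0 : Fin 3) (1 : k) : Fin 3 → k) b = 0
    rw [Pi.single_eq_of_ne hb, mul_zero]
  · simp

theorem sum_eta (x : Cell →₀ T k) :
    (x.sum fun c t => t • eta (k := k) c) = x (base 0 .c0) • eta (base 0 .c0) := by
  classical
  refine (Finsupp.sum_of_support_subset x (Finset.subset_union_left (s₂ := {base 0 .c0})) _
    fun c _ => zero_smul (T k) (eta c)).trans ?_
  refine Finset.sum_eq_single (base 0 .c0) (fun c _ hc => ?_) fun h => ?_
  · rw [eta, if_neg hc, smul_zero]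
  · exact absurd (Finset.mem_union_right _ (Finset.mem_singleton_self _)) h

theorem val_eta (b' : Fin 3) :
    Y.val (eta (k := k) (base 0 .c0)) b' = if (0 : Fin 3) = b' then 1 else 0 := by
  rw [eta, if_pos rfl]
  show (Pi.single (0 : Fin 3) (1 : k) : Fin 3 → k) b' = _
  rw [Pi.single_apply]
  exact if_congr eq_comm rfl rfl

theorem idem_smul_eta :
    T.idem k ((0, 0) : Vtx) • eta (k := k) (base 0 .c0) = eta (base 0 .c0) := by
  refine Y.ext (funext fun b' => ?_)
  rw [val_smul_eta, entry_idem, val_eta, apply_ite (eps k), eps_one, map_zero]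
  refine if_congr ?_ rfl rfl
  simp [Prod.ext_iff]

theorem eta_mem (c : Cell) :
    eta (k := k) c ∈ (SY k).G ((pdeg c.1 : ℤ) - 0) ∧
      T.idem k (vert c.1) • eta (k := k) c = eta c := by
  by_cases hc : c = base 0 .c0
  · subst hc
    refine ⟨?_, idem_smul_eta⟩
    rw [show ((pdeg (base 0 BC.c0).1 : ℤ) - 0) = 0 by simp [base, pdeg, BC.deg], SY_top]
    trivial
  · rw [eta, if_neg hc]
    exact ⟨zero_mem _, smul_zero _⟩

theorem eta_cocycle (c : Cell) :
    ((cellD k c).sum fun c' t => t • eta (k := k) c') = 0 := by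
  refine (sum_eta (cellD k c)).trans (Y.ext (funext fun b' => ?_))
  rw [val_smul_eta, entry_cellD, apply_ite (eps k), map_zero]
  show _ = (0 : k)
  split_ifs
  · rw [eps_apply, lam_coef]
    exact aug_DL k c.1
  · rfl

/-- The chain that hits a vector. -/
noncomputable def lift (u : Y k) (v' : Vtx) : Cell →₀ Tinf k :=
  Finsupp.single (base 0 .c0) (if v'.1 = 0 then tEntry k v' (0, 0) (Y.val u v'.2) else 0)

theorem isRow_lift (u : Y k) (v' : Vtx) : IsRow k v' 0 (lift u v') := by
  rcases v' with ⟨a, b⟩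
  refine IsRow.single k ?_ ?_
  · by_cases ha : a = 0
    · subst ha; rw [if_pos rfl]; exact tEntry_sup k _
    · rw [if_neg ha]; exact zero_mem _
  · rw [show ((0 : ℤ) - (pdeg (base 0 BC.c0).1 : ℤ)) = 0 by simp [base, pdeg, BC.deg]]
    by_cases ha : a = 0
    · rw [if_pos ha]; exact tEntry_hom k _ _ _
    · rw [if_neg ha]; exact map_zero _

theorem val_lift (u : Y k) (x : Cell →₀ T k) (hr : ∀ v', rowOf v' x = lift u v') :
    (x.sum fun c t => t • eta (k := k) c) = u := by
  refine (sum_eta x).trans (Y.ext (funext fun b' => ?_))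
  rw [val_smul_eta]
  show eps k (rowOf (0, b') x (base 0 .c0)) = _
  rw [hr, lift, Finsupp.single_eq_same, if_pos rfl, eps_tEntry]

theorem eps_of_sum (x : Cell →₀ T k) (h : (x.sum fun c t => t • eta (k := k) c) = 0) (b' : Fin 3) :
    augF k (Lam.re k (Tinf.lam k (rowOf ((0 : Fin 2), b') x (base 0 .c0)))) = 0 := by
  have h' := congrArg (fun u => Y.val u b') ((sum_eta x).symm.trans h)
  rw [val_smul_eta] at h'
  exact h'

variable (hsq : SqLam k) [CharZero k]

theorem eta_exact {x : Cell →₀ T k} (hx : (cellsOf hsq).IsChain 0 x)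
    (h : (x.sum fun c t => t • eta (k := k) c) = 0) :
    ∃ y, (cellsOf hsq).IsChain 1 y ∧ (cellsOf hsq).dQ y = x := by
  have hd : (cellsOf hsq).dQ x = 0 := (cellsOf hsq).dQ_eq_zero hx
  obtain ⟨y, hy, hy'⟩ := exists_boundary hsq (n := 0) hx hd fun v' => (by
    obtain ⟨a, b'⟩ := v'
    by_cases ha : a = 0
    · subst ha
      exact eps_of_sum x h b'
    · exact augF_supF_ne k ha (base_sup (isRow_chain hsq hx (a, b')) 0 .c0).1)
  rw [zero_add] at hy
  exact ⟨y, hy, hy'⟩

/-- The resolution of `Y` by the cells. -/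
noncomputable def augmentation : Window.Augmentation (cellsOf hsq) (SY k) where
  η := eta
  isCochain c := eta_mem c
  isCocycle c := (LinearMap.zero_apply _).trans (eta_cocycle c).symm
  concentrated := SY_concentrated k
  top := SY_top k
  surj u :=
    let ⟨x, hx, hr⟩ := exists_chain' hsq (lift u) (isRow_lift u)
    ⟨x, hx, val_lift u x hr⟩
  exact _ hx h := eta_exact hsq hx h

end P195.Model
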