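import Vale.Agent.P195.Algebra.Model

/-!
P195: the cells of the semifree resolution and their differential.

A cell is a chain of bimodule cells over a cell of the tower on the six cells of `Y`.
`DL` is the part of the differential with coefficients in `Λ`; a chain `l :: p` has in addition
the coefficient `ℓ_l` at `p`.
-/

namespace P195.Model

open P195.Algebra

/-- The six cells of `Y`. -/
inductive BC
  | c0
  | cx (i : Fin 2)
  | cr (i : Fin 2)
  | cz
  deriving DecidableEq, Fintype

namespace BC

/-- Degree. -/
def deg : BC → ℕ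
  | c0 => 0
  | cx _ => 1
  | cr _ => 2
  | cz => 3

/-- The vertex. -/
def vtx : BC → Vtx
  | c0 => (0, 0)
  | cx _ => (1, 0)
  | cr _ => (1, 1)
  | cz => (0, 2)

end BC

/-- A chain, the layer of the tower, and a base cell. -/
abbrev Pre := List LC × ℕ × BC

/-- The outer vertex. -/
def vA : Pre → Fin 2
  | ([], _, b) => b.vtx.1
  | (l :: _, _, _) => l.lv

/-- Composability of a chain. -/
def Ok : List LC → ℕ → BC → Prop
  | [], _, _ => True
  | l :: ls, j, b => l.rv = vA (ls, j, b) ∧ Ok ls j b

/-- The vertex of a chain. -/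
def vert (p : Pre) : Vtx := (vA p, p.2.2.vtx.2)

/-- The degree of a chain. -/
def pdeg (p : Pre) : ℕ := (p.1.map fun l => l.deg + 5).sum + 2 * p.2.1 + p.2.2.deg

/-- The cells. -/
def Cell := {p : Pre // Ok p.1 p.2.1 p.2.2}

variable (k : Type) [Field k]

/-- The differential of the standard resolution of `Y`, layer `j`. -/
noncomputable def dBase (j : ℕ) : BC → (Pre →₀ Lam k)
  | .c0 => 0
  | .cx i => Finsupp.single ([], j, .c0) (Lam.of k (gX k i))
  | .cr i =>
      Finsupp.single ([], j, .c0) (Lam.of k (gR k i))
      - Finsupp.single ([], j, .cx 1) (Lam.of k (gX k 0 * gP k i))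
      + Finsupp.single ([], j, .cx 0) (Lam.of k (gX k 1 * gP k i))
      + (if i = 0 then -Finsupp.single ([], j, .cx 1) (Lam.of k (tF k))
          else Finsupp.single ([], j, .cx 0) (Lam.of k (tF k)))
  | .cz =>
      Finsupp.single ([], j, .c0) (Lam.of k (gZ k 0))
      - Finsupp.single ([], j, .cr 1) (Lam.of k (gP k 0))
      + Finsupp.single ([], j, .cr 0) (Lam.of k (gP k 1))
      - Finsupp.single ([], j, .cx 1) (Lam.of k (gQ k 0))
      + Finsupp.single ([], j, .cx 0) (Lam.of k (gQ k 1))

/-- The tower over `Λ`: `u` goes down one layer with coefficient `j`, the class goes up. -/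
noncomputable def dTower (j : ℕ) (b : BC) : Pre →₀ Lam k :=
  dBase k j b + Finsupp.single ([], j - 1, b) ((j : k) • Lam.u k)
    + if b = .cz then Finsupp.single ([], j + 1, .c0) (Lam.of k (tF k * tF k)) else 0

/-- The coefficients in `Λ` of the differential. -/
noncomputable def DL : List LC → ℕ → BC → (Pre →₀ Lam k)
  | [], j, b => dTower k j b
  | l :: ls, j, b =>
      -(∑ l' : LC, Finsupp.single (l' :: ls, j, b) (Nm k l l'))
      - (DL ls j b).sum fun p a => ∑ l' : LC,
          Finsupp.single (l' :: p.1, p.2) (LC.sgn k l • sgL k (phiL k a l l'))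

/-- The coefficient in `T∞` of the differential between two chains. -/
noncomputable def coef (c c' : Pre) : Tinf k :=
  Tinf.mk k (DL k c.1 c.2.1 c.2.2 c') fun l =>
    if c.1 = l :: c'.1 ∧ c.2 = c'.2 then 1 else 0

open scoped Classical in
/-- An element of `T∞` as an entry of `T`, if it is allowed there. -/
noncomputable def toT (v' v : Vtx) (x : Tinf k) : T k :=
  if h : x ∈ supT k v' v then T.single k v' v ⟨x, h⟩ else 0

end P195.Model
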