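import Vale.Agent.P195.Model.Diff

/-!
P195: the cells as a twisted complex over the dg algebra `T`.
-/

namespace P195.Model

open P195.Algebra

variable {k : Type} [Field k]

theorem toT_entry {v' v : Vtx} {x : Tinf k} (hx : x ∈ supT k v' v) (w' w : Vtx) :
    T.entry k w' w (toT k v' v x) = if v' = w' ∧ v = w then x else 0 := by
  rw [toT, dif_pos hx, entry_single]

theorem toT_zero (v' v : Vtx) : toT k v' v (0 : Tinf k) = 0 := by
  refine ext_entry fun w' w => ?_
  rw [toT_entry (zero_mem _)]
  simp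

theorem finite_pdeg_lt (n : ℕ) : {c : Cell | pdeg c.1 < n}.Finite := by
  refine Set.Finite.of_finite_image (f := Subtype.val) ?_ Subtype.val_injective.injOn
  refine ((List.finite_length_le LC n).prod
    ((Set.finite_Iic n).prod (Set.finite_univ (α := BC)))).subset ?_
  rintro _ ⟨⟨⟨ls, j, b⟩, hok⟩, hc, rfl⟩
  have h2 : ls.length ≤ (ls.map fun l => l.deg + 5).sum := by
    clear hok hc
    induction ls with
    | nil => simp
    | cons l ls ih => simp; omega
  have h3 : pdeg (ls, j, b) < n := hc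
  simp only [pdeg] at h3
  exact ⟨show ls.length ≤ n by omega, show j ≤ n by omega, trivial⟩

/-- The cells of degree less than `n`. -/
noncomputable def low (n : ℕ) : Finset Cell := (finite_pdeg_lt n).toFinset

/-- Their underlying chains. -/
noncomputable def lowP (n : ℕ) : Finset Pre := (low n).map (Function.Embedding.subtype _)

@[simp] theorem mem_low {n : ℕ} {c : Cell} : c ∈ low n ↔ pdeg c.1 < n :=
  (finite_pdeg_lt n).mem_toFinset

theorem mem_lowP {n : ℕ} {p : Pre} : p ∈ lowP n ↔ Ok p.1 p.2.1 p.2.2 ∧ pdeg p < n := by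
  constructor
  · intro h
    obtain ⟨c, hc, rfl⟩ := Finset.mem_map.1 h
    exact ⟨c.2, mem_low.1 hc⟩
  · rintro ⟨h1, h2⟩
    exact Finset.mem_map.2 ⟨⟨p, h1⟩, mem_low.2 h2, rfl⟩

theorem sum_low {M : Type*} [AddCommMonoid M] (n : ℕ) (g : Pre → M) :
    ∑ q ∈ low n, g q.1 = ∑ p ∈ lowP n, g p := by
  exact (Finset.sum_map (low n) (Function.Embedding.subtype _) g).symm

/-- The differential of the cells. -/
noncomputable def cellD (k : Type) [Field k] (c : Cell) : Cell →₀ T k :=
  Finsupp.onFinset (low (pdeg c.1))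
    (fun c' => toT k (vert c.1) (vert c'.1) (coef k c.1 c'.1)) fun c' h => by
      refine mem_low.2 (coef_ne_zero (k := k) c.2 fun h0 => h ?_).2.1
      show toT k (vert c.1) (vert c'.1) (coef k c.1 c'.1) = 0
      rw [h0, toT_zero]

theorem cellD_apply (c c' : Cell) :
    cellD k c c' = toT k (vert c.1) (vert c'.1) (coef k c.1 c'.1) := rfl

theorem entry_cellD (c c' : Cell) (w' w : Vtx) :
    T.entry k w' w (cellD k c c') =
      if vert c.1 = w' ∧ vert c'.1 = w then coef k c.1 c'.1 else 0 :=
  toT_entry (coef_mem c.2) w' w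

theorem sum_cellD {M : Type*} [AddCommMonoid M] (c : Cell) (f : Cell → T k → M)
    (h0 : ∀ q, f q 0 = 0) :
    (cellD k c).sum f = ∑ q ∈ low (pdeg c.1), f q (cellD k c q) :=
  Finsupp.sum_of_support_subset _ Finsupp.support_onFinset_subset _ fun q _ => h0 q

theorem sum_lowP_DL {M : Type*} [AddCommMonoid M] {p : Pre} (hp : Ok p.1 p.2.1 p.2.2)
    (f : Pre → Lam k → M) (h0 : ∀ q, f q 0 = 0) :
    ∑ q ∈ lowP (pdeg p), f q (DL k p.1 p.2.1 p.2.2 q) = (DL k p.1 p.2.1 p.2.2).sum f := by
  refine (Finsupp.sum_of_support_subset _ (fun q hq => ?_) _ fun q _ => h0 q).symm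
  have h := Finsupp.mem_support_iff.1 hq
  have hc : coef k p q ≠ 0 := fun e => h (by simpa [coef] using congrArg (Tinf.lam k) e)
  exact mem_lowP.2 ⟨(coef_ne_zero hp hc).1, (coef_ne_zero hp hc).2.1⟩

theorem DL_nil_cons (j : ℕ) (b : BC) (c : LC) (r : Pre) :
    DL k [] j b (c :: r.1, r.2) = 0 := by
  have e : ∀ (pj : ℕ × BC), (([], pj) : Pre) ≠ (c :: r.1, r.2) := by
    intro pj h; exact absurd (congrArg Prod.fst h) (by simp)
  have e' : ∀ (pj : ℕ × BC), ((c :: r.1, r.2) : Pre) ≠ ([], pj) := fun pj => (e pj).symm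
  cases b <;> simp [DL, dTower, dBase, e'] <;> split_ifs <;> simp [e']

theorem DL_cons_cons (l : LC) (ls : List LC) (j : ℕ) (b : BC) (c : LC) (r : Pre) :
    DL k (l :: ls) j b (c :: r.1, r.2) =
      -(if r = (ls, j, b) then Nm k l c else 0)
        - LC.sgn k l • sgL k (phiL k (DL k ls j b r) l c) := by
  classical
  have e : ∀ (x : LC) (q : Pre), ((x :: q.1, q.2) : Pre) = (c :: r.1, r.2) ↔ q = r ∧ x = c := by
    intro x q; constructor
    · intro h
      obtain ⟨h1, h2⟩ := Prod.ext_iff.1 h
      obtain ⟨h3, h4⟩ := List.cons.inj h1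
      exact ⟨Prod.ext h4 h2, h3⟩
    · rintro ⟨rfl, rfl⟩; rfl
  rw [DL]
  simp only [Finsupp.sub_apply, Finsupp.neg_apply, Finsupp.finsetSum_apply, Finsupp.sum_apply,
    Finsupp.single_apply]
  congr 2
  · rw [Finset.sum_eq_single c]
    · exact if_congr ((e c (ls, j, b)).trans ⟨fun h => h.1.symm, fun h => ⟨h.symm, rfl⟩⟩) rfl rfl
    · intro x _ hx; rw [if_neg fun h => hx ((e x (ls, j, b)).1 h).2]
    · simp
  · rw [Finsupp.sum, Finset.sum_eq_single r]
    · rw [Finset.sum_eq_single c]
      · rw [if_pos ((e c r).2 ⟨rfl, rfl⟩)]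
      · intro x _ hx; rw [if_neg fun h => hx ((e x r).1 h).2]
      · simp
    · intro q _ hq
      exact Finset.sum_eq_zero fun x _ => if_neg fun h => hq ((e x q).1 h).1
    · intro h
      rw [Finsupp.notMem_support_iff.1 h]
      refine Finset.sum_eq_zero fun x _ => ?_
      simp

/-- The part in `Λ` of the square of the differential. -/
def SqLam (k : Type) [Field k] : Prop :=
  ∀ p r : Pre, Ok p.1 p.2.1 p.2.2 → dL k (DL k p.1 p.2.1 p.2.2 r)
    + (DL k p.1 p.2.1 p.2.2).sum (fun q a => sgL k a * DL k q.1 q.2.1 q.2.2 r) = 0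

/-- The square of the differential, entry by entry. -/
theorem coef_sq (hsq : SqLam k) {p : Pre} (hp : Ok p.1 p.2.1 p.2.2) (r : Pre) :
    dT k (coef k p r) + ∑ q ∈ lowP (pdeg p), sgT k (coef k p q) * coef k q r = 0 := by
  classical
  refine ext_cell ?_ fun c => ?_
  · have := sum_lowP_DL hp (fun q a => sgL k a * DL k q.1 q.2.1 q.2.2 r) (by simp)
    simp only [map_add, map_sum, map_zero, dT_lam, Tinf.lam_mul, sgT_lam, coef, Tinf.lam_mk]
    rw [this]
    exact hsq p r hp
  simp only [map_add, map_sum, map_zero, cell_mul, cell_dT, cell_sgT, sgT_lam, coef, Tinf.lam_mk,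
    Tinf.cell_mk, Finset.sum_add_distrib]
  have hA : ∑ q ∈ lowP (pdeg p), sgL k (DL k p.1 p.2.1 p.2.2 q) *
        (if q.1 = c :: r.1 ∧ q.2 = r.2 then (1 : Lam k) else 0)
      = sgL k (DL k p.1 p.2.1 p.2.2 (c :: r.1, r.2)) := by
    rw [sum_lowP_DL hp (fun q a => sgL k a *
      (if q.1 = c :: r.1 ∧ q.2 = r.2 then (1 : Lam k) else 0)) (by simp), Finsupp.sum,
      Finset.sum_eq_single (c :: r.1, r.2)]
    · simp
    · intro q _ hq
      rw [if_neg fun h => hq (Prod.ext h.1 h.2), mul_zero]
    · intro h; simp [Finsupp.notMem_support_iff.1 h]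
  rw [hA]
  obtain ⟨ps, j, b⟩ := p
  cases ps with
  | nil => simp [DL_nil_cons]
  | cons l ls =>
    have hB : ∑ q ∈ lowP (pdeg (l :: ls, j, b)), ∑ m,
          LC.sgn k m • sgL k (if (l :: ls = m :: q.1 ∧ ((j, b) : ℕ × BC) = q.2) then (1 : Lam k)
            else 0) * phiL k (DL k q.1 q.2.1 q.2.2 r) m c
        = LC.sgn k l • phiL k (DL k ls j b r) l c := by
      rw [Finset.sum_eq_single (ls, j, b)]
      · rw [Finset.sum_eq_single l]
        · simp
        · intro m _ hm; simp [Ne.symm hm]
        · simp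
      · intro q _ hq
        refine Finset.sum_eq_zero fun m _ => ?_
        rw [if_neg fun h => hq (Prod.ext (List.cons.inj h.1).2.symm h.2.symm)]
        simp
      · intro h
        exact absurd (mem_lowP.2 ⟨hp.2, by simp [pdeg]⟩) h
    rw [hB, DL_cons_cons, map_sub, map_neg, map_smul, sgL_sgL]
    have hN : ∑ m, sgL k (if (l :: ls = m :: r.1 ∧ ((j, b) : ℕ × BC) = r.2) then (1 : Lam k)
          else 0) * Nm k m c = if r = (ls, j, b) then Nm k l c else 0 := by
      rw [Finset.sum_eq_single l]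
      · by_cases h : r = (ls, j, b)
        · subst h; simp
        · rw [if_neg h, if_neg fun h' => h (Prod.ext (List.cons.inj h'.1).2.symm h'.2.symm)]
          simp
      · intro m _ hm
        rw [if_neg fun h' => hm (List.cons.inj h'.1).1.symm]
        simp
      · simp
    rw [hN, apply_ite (dL k), dL_one, map_zero, ite_self, apply_ite (sgL k), Nm_sg, map_zero]
    abel

theorem entry_eq_zero_of_idem_mul {v : Vtx} {x : T k} (h : T.idem k v * x = x) {w' : Vtx}
    (hw : v ≠ w') (w : Vtx) : T.entry k w' w x = 0 := by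
  rw [← h, entry_idem_mul, if_neg hw]

theorem entry_eq_zero_of_mul_idem {v : Vtx} {x : T k} (h : x * T.idem k v = x) (w' : Vtx) {w : Vtx}
    (hw : v ≠ w) : T.entry k w' w x = 0 := by
  rw [← h, entry_mul_idem, if_neg hw]

theorem mem_G_iff {n : ℤ} {x : T k} :
    x ∈ (dga k).G n ↔ ∀ w' w, HomT k n (T.entry k w' w x) := by
  simp only [Window.DGA.G, LinearMap.mem_ker, LinearMap.sub_apply, LinearMap.id_coe, id_eq,
    sub_eq_zero]
  constructor
  · intro h w' w; exact congrArg (T.entry k w' w) h
  · intro h; exact ext_entry fun w' w => h w' w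

/-- The semifree complex of the cells. -/
noncomputable def cellsOf (hsq : SqLam k) : Window.Cells (dga k) where
  Cell := Cell
  deg c := pdeg c.1
  finite_fiber n := by
    have : {c : Cell | pdeg c.1 = n}.Finite := (finite_pdeg_lt (n + 1)).subset
      fun c hc => by simp only [Set.mem_ofPred_eq] at hc ⊢; omega
    exact this.to_subtype
  e c := T.idem k (vert c.1)
  e_mem c := mem_G_iff.2 fun w' w => by
    rw [entry_idem]; split_ifs
    · exact homT_one k
    · exact map_zero _
  e_idem c := ext_entry fun w' w => by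
    rw [entry_idem_mul, entry_idem, entry_idem]
    by_cases h1 : vert c.1 = w'
    · rw [if_pos h1]; simp [h1]
    · rw [if_neg h1, if_neg fun h => h1 h.1]
  d_e c := ext_entry fun w' w => by
    rw [entry_d, entry_idem, map_zero]
    split_ifs
    · refine ext_cell (by simp [dL_one]) fun c => by simp [cell_dT]
    · exact map_zero _
  D := cellD k
  D_lt c c' h := by
    refine (coef_ne_zero (k := k) c.2 fun h0 => h ?_).2.1
    rw [cellD_apply, h0, toT_zero]
  D_mem c c' := mem_G_iff.2 fun w' w => by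
    rw [entry_cellD]; split_ifs
    · by_cases h : coef k c.1 c'.1 = 0
      · rw [h]; exact map_zero _
      · exact (coef_ne_zero c.2 h).2.2
    · exact map_zero _
  e_D c c' := ext_entry fun w' w => by
    rw [entry_idem_mul, entry_cellD, entry_cellD]; split_ifs <;> simp_all
  D_e c c' := ext_entry fun w' w => by
    rw [entry_mul_idem, entry_cellD, entry_cellD]; split_ifs <;> simp_all
  D_sq c c'' := ext_entry fun w' w => by
    rw [map_add, entry_d, sum_cellD c _ (by simp), map_sum, entry_cellD, map_zero]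
    by_cases h : vert c.1 = w' ∧ vert c''.1 = w
    · obtain ⟨rfl, rfl⟩ := h
      rw [if_pos ⟨rfl, rfl⟩, ← coef_sq hsq c.2 c''.1,
        ← sum_low _ (fun q => sgT k (coef k c.1 q) * coef k q c''.1)]
      congr 1
      refine Finset.sum_congr rfl fun q _ => ?_
      rw [entry_mul, Finset.sum_eq_single (vert q.1)]
      · simp [entry_cellD]
      · intro u _ hu; simp [entry_cellD, Ne.symm hu]
      · simp
    · rw [if_neg h, map_zero, zero_add]
      refine Finset.sum_eq_zero fun q _ => ?_
      rw [entry_mul]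
      refine Finset.sum_eq_zero fun u _ => ?_
      rw [entry_J, entry_cellD, entry_cellD]
      rcases not_and_or.1 h with h' | h' <;> simp [h']

end P195.Model
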