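import Vale.Agent.P195.Model.Std

/-!
P195, acyclicity on one row of a chain: the three corrections (the rows over the link, the part at
`u` along the tower, the cell `c0`) and the uniqueness of what is left.
-/

namespace P195.Model

open P195.Algebra
open P195.Orth (augF)

variable (k : Type) [Field k]

/-- A base cell in layer `j`. -/
def base (j : ℕ) (b : BC) : Cell := ⟨([], j, b), trivial⟩

theorem base_injective {i j : ℕ} {b b' : BC} : base i b = base j b' ↔ i = j ∧ b = b' := by
  constructor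
  · intro h
    have := congrArg Subtype.val h
    simpa [base] using this
  · rintro ⟨rfl, rfl⟩; rfl

open scoped Classical in
/-- The differential of a row evaluated at a cell, as a linear map. -/
noncomputable def rowMap : (Cell →₀ Tinf k) →ₗ[k] (Cell → Tinf k) :=
  Finsupp.lsum k fun c => LinearMap.pi fun c' =>
    (if c = c' then dT k else 0) + LinearMap.mulRight k (coef k c.1 c'.1) ∘ₗ sgT k

open scoped Classical in
theorem rowMap_single (c c' : Cell) (t : Tinf k) :
    rowMap k (Finsupp.single c t) c'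
      = (if c = c' then dT k t else 0) + sgT k t * coef k c.1 c'.1 := by
  simp [rowMap]
  split_ifs <;> simp

open scoped Classical in
theorem rowMap_apply (z : Cell →₀ Tinf k) (c' : Cell) :
    rowMap k z c' = dT k (z c') + z.sum fun c t => sgT k t * coef k c.1 c'.1 := by
  induction z using Finsupp.induction_linear with
  | zero => simp
  | add a b ha hb =>
    rw [map_add, Pi.add_apply, ha, hb, Finsupp.add_apply, map_add,
      Finsupp.sum_add_index (by simp) (by simp [add_mul])]
    abel
  | single c t =>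
    rw [rowMap_single, Finsupp.sum_single_index (by simp), Finsupp.single_apply]
    split_ifs <;> simp

/-- A row of a chain of degree `n`. -/
def IsRow (v' : Vtx) (n : ℤ) (z : Cell →₀ Tinf k) : Prop :=
  ∀ c, z c ∈ supT k v' (vert c.1) ∧ HomT k (n - pdeg c.1) (z c)

theorem IsRow.zero (v' : Vtx) (n : ℤ) : IsRow k v' n (0 : Cell →₀ Tinf k) :=
  fun _ => ⟨zero_mem _, by simp [HomT]⟩

theorem IsRow.add {v' : Vtx} {n : ℤ} {z z' : Cell →₀ Tinf k} (h : IsRow k v' n z)
    (h' : IsRow k v' n z') : IsRow k v' n (z + z') := fun c =>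
  ⟨add_mem (h c).1 (h' c).1, by
    have e1 : filtT k _ (z c) = z c := (h c).2
    have e2 : filtT k _ (z' c) = z' c := (h' c).2
    show filtT k _ ((z + z') c) = _
    rw [Finsupp.add_apply, map_add, e1, e2]⟩

theorem IsRow.sum {v' : Vtx} {n : ℤ} {ι : Type} (s : Finset ι) (f : ι → Cell →₀ Tinf k)
    (h : ∀ i ∈ s, IsRow k v' n (f i)) : IsRow k v' n (∑ i ∈ s, f i) :=
  Finset.sum_induction _ (IsRow k v' n) (fun _ _ => IsRow.add k) (IsRow.zero k v' n) h

theorem IsRow.single {v' : Vtx} {n : ℤ} {c : Cell} {t : Tinf k} (h1 : t ∈ supT k v' (vert c.1))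
    (h2 : HomT k (n - pdeg c.1) t) : IsRow k v' n (Finsupp.single c t) := fun c' => by
  classical
  rw [Finsupp.single_apply]
  split_ifs with h
  · subst h; exact ⟨h1, h2⟩
  · exact IsRow.zero k v' n c'

theorem supT_lamOnly {v' v : Vtx} {x : Lam k}
    (h : x ∈ supL k v'.1 v.1 ((v'.2.val : ℤ) - v.2.val)) : Tinf.mk k x 0 ∈ supT k v' v := by
  rw [mem_supT]
  refine ⟨by simpa using h, (mem_supRow k).2 fun c => ?_⟩
  simp

theorem homT_lamOnly {n : ℤ} {x : Lam k} (h : HomL k n x) : HomT k n (Tinf.mk k x 0) :=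
  (homT_iff k).2 ⟨by simpa using h, fun c => by simpa using HomL.zero k _⟩

theorem Tinf.mk_zero : Tinf.mk k (0 : Lam k) 0 = 0 := Tinf.ext (by simp) (funext fun c => by simp)

theorem rowAt_vert {v' : Vtx} {n : ℤ} {z : Cell →₀ Tinf k} (hz : IsRow k v' n z) (c : Cell)
    (l : LC) (hl : l.rv ≠ vA c.1) : Tinf.cell k l (z c) = 0 :=
  rowAt_of_supT k (hz c).1 l hl

/-! ### The two components of `rowMap` on rows without cell part -/

theorem cell_coef (c c' : Pre) (l : LC) :
    Tinf.cell k l (coef k c c') = if c.1 = l :: c'.1 ∧ c.2 = c'.2 then 1 else 0 := by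
  simp [coef]

theorem lam_coef (c c' : Pre) : Tinf.lam k (coef k c c') = DL k c.1 c.2.1 c.2.2 c' := by
  simp [coef]

open scoped Classical in
theorem rowMap_single_cell {c c' : Cell} {t : Tinf k} (ht : Tinf.cells k t = 0) (l : LC) :
    Tinf.cell k l (rowMap k (Finsupp.single c t) c')
      = if c.1.1 = l :: c'.1.1 ∧ c.1.2 = c'.1.2 then sgL k (Tinf.lam k t) else 0 := by
  have hd : Tinf.cells k (dT k t) = 0 := by
    rw [dT_cells, ht, map_zero, map_zero, Matrix.zero_vecMul, add_zero]
  have h1 : Tinf.cells k (sgT k t * coef k c.1 c'.1)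
      = sgL k (Tinf.lam k t) • Tinf.cells k (coef k c.1 c'.1) := by
    rw [Tinf.cells_mul, sgT_cells, ht, map_zero, Matrix.zero_vecMul, Matrix.zero_vecMul, add_zero,
      sgT_lam]
  rw [rowMap_single, map_add, ← Tinf.cells_apply k (sgT k t * _), h1, Pi.smul_apply,
    Tinf.cells_apply, cell_coef]
  have h2 : Tinf.cell k l (if c = c' then dT k t else 0) = 0 := by
    split_ifs
    · exact congrFun hd l
    · simp
  rw [h2, zero_add, smul_eq_mul, mul_ite, mul_one, mul_zero]

theorem lam_rowMap_single (c c' : Cell) (t : Tinf k) [Decidable (c = c')] :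
    Tinf.lam k (rowMap k (Finsupp.single c t) c')
      = (if c = c' then dL k (Tinf.lam k t) else 0)
        + sgL k (Tinf.lam k t) * DL k c.1.1 c.1.2.1 c.1.2.2 c'.1 := by
  rw [rowMap_single, map_add, Tinf.lam_mul, sgT_lam, lam_coef]
  congr 1
  split_ifs <;> simp

/-! ### The coefficients between base cells -/

theorem dBase_apply (j i : ℕ) (b' b : BC) :
    dBase k j b' ([], i, b) = if i = j then Lam.of k (bas k b' b) else 0 := by
  by_cases h : i = j
  · subst h
    rcases b' with _ | a | a | _ <;> rcases b with _ | l | l | _ <;>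
      (try fin_cases a) <;> (try fin_cases l) <;>
      simp [dBase, bas] <;> abel
  · rw [if_neg h]
    rcases b' with _ | a | a | _ <;> simp [dBase, Ne.symm h]
    split_ifs <;> simp [Ne.symm h]

theorem dBase_chain (j : ℕ) (b' : BC) {p : Pre} (hp : p.1 ≠ []) : dBase k j b' p = 0 := by
  classical
  obtain ⟨ls, i, b⟩ := p
  rcases b' with _ | a | a | _ <;> simp [dBase, Ne.symm hp]
  split_ifs <;> simp [Ne.symm hp]

theorem dTower_apply (j i : ℕ) (b' b : BC) :
    DL k [] j b' ([], i, b) = (if i = j then Lam.of k (bas k b' b) else 0)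
      + (if i + 1 = j ∧ b = b' then (j : k) • Lam.u k else 0)
      + (if b' = .cz ∧ b = .c0 ∧ i = j + 1 then Lam.of k (tF k * tF k) else 0) := by
  classical
  rw [DL, dTower, Finsupp.add_apply, Finsupp.add_apply, dBase_apply]
  congr 1
  · congr 1
    rcases Nat.eq_zero_or_pos j with rfl | hj
    · simp
    · rw [Finsupp.single_apply]
      refine if_congr ?_ rfl rfl
      simp only [Prod.mk.injEq, true_and]
      constructor <;> rintro ⟨h1, h2⟩ <;> exact ⟨by omega, h2.symm⟩
  · by_cases hb : b' = .cz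
    · subst hb
      rw [if_pos rfl, Finsupp.single_apply]
      refine if_congr ?_ rfl rfl
      simp [eq_comm, and_comm]
    · simp [hb]

theorem dTower_chain (j : ℕ) (b' : BC) {p : Pre} (hp : p.1 ≠ []) : DL k [] j b' p = 0 := by
  classical
  obtain ⟨ls, i, b⟩ := p
  rw [DL, dTower, Finsupp.add_apply, Finsupp.add_apply, dBase_chain k j b' hp]
  by_cases hb : b' = .cz <;> simp [Ne.symm hp, hb]

theorem DL_cons_base (l : LC) (ls : List LC) (j : ℕ) (b : BC) (i : ℕ) (b' : BC) :
    DL k (l :: ls) j b ([], i, b') = 0 := by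
  classical
  rw [DL, Finsupp.sub_apply, Finsupp.neg_apply, Finsupp.finsetSum_apply, Finsupp.sum_apply]
  simp [Finsupp.sum]

theorem aug_DL (c : Pre) : augF k (Lam.re k (DL k c.1 c.2.1 c.2.2 ([], 0, .c0))) = 0 := by
  obtain ⟨ls, j, b⟩ := c
  cases ls with
  | cons l ls => simp [DL_cons_base]
  | nil =>
    rw [dTower_apply]
    rcases b with _ | i | i | _ <;> split_ifs <;> simp_all [bas, augF_gen, Lam.u]

/-- The augmentation of a boundary vanishes. -/
theorem aug_rowMap (w : Cell →₀ Tinf k) :
    augF k (Lam.re k (Tinf.lam k (rowMap k w (base 0 .c0)))) = 0 := by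
  classical
  induction w using Finsupp.induction_linear with
  | zero => simp
  | add a b ha hb => simp [ha, hb]
  | single c t =>
    rw [lam_rowMap_single, map_add, map_add, Lam.re_mul, map_mul]
    show _ + _ * augF k (Lam.re k (DL k c.1.1 c.1.2.1 c.1.2.2 ([], 0, .c0))) = 0
    rw [aug_DL, mul_zero, add_zero]
    split_ifs <;> simp [augF_dF]

/-! ### First correction: the rows over the link -/

/-- A chain with one more link. -/
def cons (m : LC) (p : Cell) (h : m.rv = vA p.1) : Cell := ⟨(m :: p.1.1, p.1.2), h, p.2⟩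

theorem cons_val (m : LC) (p : Cell) (h : m.rv = vA p.1) :
    (cons m p h).1 = (m :: p.1.1, p.1.2) := rfl

/-- The chain with one more link, if composable. -/
noncomputable def pushLink (m : LC) (p : Cell) (x : Lam k) : Cell →₀ Tinf k :=
  if h : m.rv = vA p.1 then Finsupp.single (cons m p h) (Tinf.mk k x 0) else 0

theorem exists_killRows {v' : Vtx} {n : ℤ} {z : Cell →₀ Tinf k} (hz : IsRow k v' n z) :
    ∃ w, IsRow k v' (n + 1) w ∧
      ∀ c' l, Tinf.cell k l (rowMap k w c') = Tinf.cell k l (z c') := by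
  classical
  refine ⟨∑ p ∈ z.support, ∑ m : LC, pushLink k m p (sgL k (Tinf.cell k m (z p))), ?_, ?_⟩
  · refine IsRow.sum k _ _ fun p _ => IsRow.sum k _ _ fun m _ => ?_
    unfold pushLink
    split_ifs with h
    swap; · exact IsRow.zero k v' _
    obtain ⟨h1, h2⟩ := hz p
    have h3 := (mem_supRow k).1 ((mem_supT k).1 h1).2 m
    rw [if_pos (show m.rv = (vert p.1).1 from h)] at h3
    refine IsRow.single k (supT_lamOnly k ?_) (homT_lamOnly k ?_)
    · exact supL_sgL k h3
    · have h4 := ((homT_iff k).1 h2).2 m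
      have e : HomL k (n - pdeg p.1 - 4 - m.deg) (sgL k (Tinf.cell k m (z p))) := by
        rw [h4.sgL]; exact h4.smul k _
      refine e.of_eq k ?_
      simp only [cons_val, pdeg, List.map_cons, List.sum_cons]
      push_cast
      ring
  · intro c' l
    simp only [map_sum, Finset.sum_apply]
    have key : ∀ p m, Tinf.cell k l (rowMap k (pushLink k m p (sgL k (Tinf.cell k m (z p)))) c')
        = if p = c' ∧ m = l then Tinf.cell k m (z p) else 0 := by
      intro p m
      unfold pushLink
      split_ifs with h h'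
      · obtain ⟨rfl, rfl⟩ := h'
        rw [rowMap_single_cell k (funext fun c => by simp)]
        simp [cons_val]
      · rw [rowMap_single_cell k (funext fun c => by simp), if_neg]
        simp only [cons_val, List.cons.injEq]
        rintro ⟨⟨rfl, e1⟩, e2⟩
        exact h' ⟨Subtype.ext (Prod.ext e1 e2), rfl⟩
      · simp [rowAt_vert k hz p m h]
      · simp
    simp only [key, ite_and, Finset.sum_ite_eq', Finset.mem_univ, if_true, Finset.sum_ite_irrel,
      Finset.sum_const_zero]
    by_cases hc : c' ∈ z.support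
    · rw [if_pos hc]
    · rw [if_neg hc, Finsupp.notMem_support_iff.1 hc, map_zero]

/-! ### The tower -/

/-- A family on the base cells of the layers below `N`. -/
noncomputable def tw (N : ℕ) (w : ℕ → BC → F k) : Cell →₀ Tinf k :=
  ∑ j ∈ Finset.range N, ∑ b : BC, Finsupp.single (base j b) (Tinf.mk k (Lam.of k (w j b)) 0)

variable {k}

theorem isRow_tw {v' : Vtx} {n : ℤ} (N : ℕ) {w : ℕ → BC → F k}
    (h1 : ∀ (j : ℕ) b, w j b ∈ supF k v'.1 b.vtx.1 ((v'.2.val : ℤ) - b.vtx.2.val))
    (h2 : ∀ (j : ℕ) b, HomF k (n - 2 * j - b.deg) (w j b)) : IsRow k v' n (tw k N w) := by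
  refine IsRow.sum k _ _ fun j _ => IsRow.sum k _ _ fun b _ =>
    IsRow.single k (supT_lamOnly k (supL_of k (h1 j b))) (homT_lamOnly k (homL_of k ?_))
  refine (h2 j b).of_eq k ?_
  simp [base, pdeg]
  ring

theorem cell_rowMap_tw (N : ℕ) (w : ℕ → BC → F k) (c' : Cell) (l : LC) :
    Tinf.cell k l (rowMap k (tw k N w) c') = 0 := by
  simp only [tw, map_sum, Finset.sum_apply]
  refine Finset.sum_eq_zero fun j _ => Finset.sum_eq_zero fun b _ => ?_
  rw [rowMap_single_cell k (funext fun c => by simp)]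
  simp [base]

theorem lam_rowMap_tw {N : ℕ} {w : ℕ → BC → F k} (hN : ∀ j, N ≤ j → ∀ b, w j b = 0) (i : ℕ)
    (b : BC) :
    Tinf.lam k (rowMap k (tw k N w) (base i b))
      = Lam.mk k (stdD k (w i) b
            + if b = .c0 ∧ 0 < i then sg k (w (i - 1) .cz) * (tF k * tF k) else 0)
          (sg k (DF k (w i b)) + ((i + 1 : ℕ) : k) • sg k (w (i + 1) b)) := by
  classical
  have key : ∀ j b', Tinf.lam k (rowMap k
      (Finsupp.single (base j b') (Tinf.mk k (Lam.of k (w j b')) 0)) (base i b))
      = (if j = i then (if b' = b then dL k (Lam.of k (w j b')) else 0)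
            + Lam.of k (sg k (w j b') * bas k b' b) else 0)
        + ((if j = i + 1 then (if b' = b then (j : k) • (Lam.of k (sg k (w j b')) * Lam.u k)
              else 0) else 0)
          + (if b' = .cz then (if b = .c0 ∧ i = j + 1 then
              Lam.of k (sg k (w j b') * (tF k * tF k)) else 0) else 0)) := by
    intro j b'
    rw [lam_rowMap_single]
    simp only [base_injective, Tinf.lam_mk, sgL_of]
    show _ + Lam.of k (sg k (w j b')) * DL k [] j b' ([], i, b) = _
    rw [dTower_apply, mul_add, mul_add, map_mul, map_mul]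
    simp only [add_assoc]
    rw [← add_assoc]
    refine congrArg₂ (· + ·) ?_ (congrArg₂ (· + ·) ?_ ?_)
    · by_cases h : j = i
      · subst h; simp
      · simp [h, Ne.symm h]
    · by_cases h : i + 1 = j
      · subst h
        by_cases h' : b = b'
        · subst h'; simp
        · simp [h', Ne.symm h']
      · simp [h, Ne.symm h]
    · by_cases h : b' = .cz <;> simp [h, ite_and]
  simp only [tw, map_sum, Finset.sum_apply, key, Finset.sum_add_distrib]
  simp only [Finset.sum_ite_irrel, Finset.sum_const_zero, Finset.sum_ite_eq', Finset.mem_univ,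
    if_true, Finset.mem_range]
  have hi : ∀ (j : ℕ) (X : Lam k), (N ≤ j → X = 0) → (if j < N then X else 0) = X := by
    intro j X hX
    split_ifs with h
    · rfl
    · exact (hX (Nat.le_of_not_lt h)).symm
  rw [hi i _ (fun h => by simp [hN i h]), hi (i + 1) _ (fun h => by simp [hN (i + 1) h])]
  have h3 : ∑ j ∈ Finset.range N, (if b = .c0 ∧ i = j + 1 then
      Lam.of k (sg k (w j .cz) * (tF k * tF k)) else 0)
      = if b = .c0 ∧ 0 < i then Lam.of k (sg k (w (i - 1) .cz) * (tF k * tF k)) else 0 := by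
    by_cases h : b = .c0 ∧ 0 < i
    · rw [if_pos h, Finset.sum_eq_single (i - 1)]
      · rw [if_pos ⟨h.1, by omega⟩]
      · intro j _ hj; rw [if_neg]; rintro ⟨-, e⟩; omega
      · intro hm
        rw [hN (i - 1) (Nat.le_of_not_lt (by simpa using hm))]
        simp
    · rw [if_neg h]
      refine Finset.sum_eq_zero fun j _ => if_neg ?_
      rintro ⟨e1, e2⟩
      exact h ⟨e1, by omega⟩
  rw [h3]
  simp only [Finset.sum_add_distrib, Finset.sum_ite_eq', Finset.mem_univ, if_true]
  refine Lam.ext ?_ ?_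
  · have hu : Lam.re k (Lam.u k) = 0 := Lam.re_mk k 0 1
    simp only [map_add, apply_ite (Lam.re k), map_zero, map_sum, Lam.re_of, map_smul, Lam.re_mul,
      Lam.re_mk, dL_re, hu, mul_zero, smul_zero, zero_add, ite_self]
    rw [stdD]
  · have hu : Lam.im k (Lam.u k) = 1 := Lam.im_mk k 0 1
    have hu' : Lam.re k (Lam.u k) = 0 := Lam.re_mk k 0 1
    simp only [map_add, apply_ite (Lam.im k), map_zero, map_sum, Lam.im_of, map_smul, Lam.im_mul,
      Lam.im_mk, dL_im, Lam.re_of, hu, hu', mul_one, mul_zero, ite_self, Finset.sum_const_zero,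
      zero_mul, add_zero]

/-- The layers above, forced by the vanishing at `u`. -/
noncomputable def climb (a : ℕ → F k) (a0 : F k) : ℕ → F k
  | 0 => a0
  | j + 1 => ((j + 1 : ℕ) : k)⁻¹ • sg k (a j - sg k (DF k (climb a a0 j)))

theorem climb_eq [CharZero k] (a : ℕ → F k) (a0 : F k) (j : ℕ) :
    sg k (DF k (climb a a0 j)) + ((j + 1 : ℕ) : k) • sg k (climb a a0 (j + 1)) = a j := by
  rw [climb, map_smul, sg_sg, smul_smul, mul_inv_cancel₀ (Nat.cast_ne_zero.2 (by omega)), one_smul]
  abel

theorem climb_supF {a' c : Fin 2} {D : ℤ} {a : ℕ → F k} {a0 : F k}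
    (h : ∀ j, a j ∈ supF k a' c D) (h0 : a0 ∈ supF k a' c D) :
    ∀ j, climb a a0 j ∈ supF k a' c D
  | 0 => h0
  | j + 1 => Submodule.smul_mem _ _ (supF_sg k (sub_mem (h j)
      (supF_sg k (supF_DF k (climb_supF h h0 j)))))

theorem climb_hom {m : ℤ} {a : ℕ → F k} {a0 : F k}
    (h : ∀ j : ℕ, HomF k (m - 2 * j - 2) (a j)) (h0 : HomF k m a0) :
    ∀ j : ℕ, HomF k (m - 2 * j) (climb a a0 j)
  | 0 => h0.of_eq k (by simp)
  | j + 1 => (((h j).sub k (((DF_hom k (climb_hom h h0 j)).sg_mem k))).sg_mem k).smul k _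
      |>.of_eq k (by push_cast; ring)

/-- The layers are zero beyond this bound. -/
def bound (n : ℤ) : ℕ := (n + 2).toNat + 2

theorem eq_zero_of_bound {n : ℤ} {w : ℕ → BC → F k}
    (h : ∀ (j : ℕ) b, HomF k (n + 1 - 2 * j - b.deg) (w j b)) : ∀ j, bound n ≤ j → ∀ b, w j b = 0 :=
  fun j hj b => part_neg k (n := n + 1 - 2 * j - b.deg) (by simp only [bound] at hj; omega) (h j b)

theorem base_sup {v' : Vtx} {n : ℤ} {z : Cell →₀ Tinf k} (hz : IsRow k v' n z) (i : ℕ) (b : BC) :
    Tinf.lam k (z (base i b)) ∈ supL k v'.1 b.vtx.1 ((v'.2.val : ℤ) - b.vtx.2.val) :=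
  ((mem_supT k).1 (hz (base i b)).1).1

theorem base_hom {v' : Vtx} {n : ℤ} {z : Cell →₀ Tinf k} (hz : IsRow k v' n z) (i : ℕ) (b : BC) :
    HomF k (n - 2 * i - b.deg) (Lam.re k (Tinf.lam k (z (base i b)))) ∧
      HomF k (n - 1 - 2 * i - b.deg) (Lam.im k (Tinf.lam k (z (base i b)))) := by
  obtain ⟨h1, h2⟩ := (homL_iff k).1 ((homT_iff k).1 (hz (base i b)).2).1
  refine ⟨h1.of_eq k ?_, h2.of_eq k ?_⟩ <;> simp [base, pdeg] <;> ring

theorem exists_killIm [CharZero k] {v' : Vtx} {n : ℤ} {z : Cell →₀ Tinf k}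
    (hz : IsRow k v' n z) : ∃ w, IsRow k v' (n + 1) w ∧
      (∀ c' l, Tinf.cell k l (rowMap k w c') = 0) ∧
      ∀ i b, Lam.im k (Tinf.lam k (rowMap k w (base i b)))
        = Lam.im k (Tinf.lam k (z (base i b))) := by
  let a : BC → ℕ → F k := fun b j => Lam.im k (Tinf.lam k (z (base j b)))
  let w : ℕ → BC → F k := fun j b => climb (a b) 0 j
  have h2 : ∀ (j : ℕ) b, HomF k (n + 1 - 2 * j - b.deg) (w j b) := fun j b =>
    (climb_hom (m := n + 1 - b.deg) (fun i => (base_hom hz i b).2.of_eq k (by ring))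
      (HomF.zero k _) j).of_eq k (by ring)
  refine ⟨tw k (bound n) w, isRow_tw _ (fun j b => ?_) h2, cell_rowMap_tw _ _, fun i b => ?_⟩
  · exact climb_supF (fun i => (base_sup hz i b).2) (zero_mem _) j
  · rw [lam_rowMap_tw (eq_zero_of_bound h2), Lam.im_mk]
    exact climb_eq (a b) 0 i

theorem exists_killTop [CharZero k] {v' : Vtx} {n : ℤ} {z : Cell →₀ Tinf k}
    (hz : IsRow k v' n z) (hε : augF k (Lam.re k (Tinf.lam k (z (base 0 .c0)))) = 0) :
    ∃ w, IsRow k v' (n + 1) w ∧
      (∀ c' l, Tinf.cell k l (rowMap k w c') = 0) ∧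
      (∀ i b, Lam.im k (Tinf.lam k (rowMap k w (base i b))) = 0) ∧
      Lam.re k (Tinf.lam k (rowMap k w (base 0 .c0)))
        = Lam.re k (Tinf.lam k (z (base 0 .c0))) := by
  let x := Lam.re k (Tinf.lam k (z (base 0 .c0)))
  have hx : x ∈ supF k v'.1 0 ((v'.2.val : ℤ) - 0) := by
    simpa [BC.vtx] using (base_sup hz 0 .c0).1
  have hxh : HomF k n x := (base_hom hz 0 .c0).1.of_eq k (by simp [BC.deg])
  let w : ℕ → BC → F k := fun j b => climb (fun _ => 0) (lift0 k x b) j
  have h2 : ∀ (j : ℕ) b, HomF k (n + 1 - 2 * j - b.deg) (w j b) := fun j b =>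
    (climb_hom (m := n + 1 - b.deg) (fun i => HomF.zero k _)
      (lift0_part k hxh b) j).of_eq k (by ring)
  refine ⟨tw k (bound n) w, isRow_tw _ (fun j b => ?_) h2, cell_rowMap_tw _ _, fun i b => ?_, ?_⟩
  · exact climb_supF (fun i => zero_mem _) (by simpa using lift0_supF k hx b) j
  · rw [lam_rowMap_tw (eq_zero_of_bound h2), Lam.im_mk]
    exact climb_eq _ _ i
  · rw [lam_rowMap_tw (eq_zero_of_bound h2), Lam.re_mk, if_neg (by omega), add_zero]
    exact stdD_lift0 k hx hε

/-- What is left after the corrections is zero. -/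
theorem row_eq_zero [CharZero k] {v' : Vtx} {n : ℤ} {z : Cell →₀ Tinf k} (hz : IsRow k v' n z)
    (hd : rowMap k z = 0) (hcell : ∀ c l, Tinf.cell k l (z c) = 0)
    (him : ∀ i b, Lam.im k (Tinf.lam k (z (base i b))) = 0)
    (hre : Lam.re k (Tinf.lam k (z (base 0 .c0))) = 0) : z = 0 := by
  classical
  have hchain : ∀ c : Cell, c.1.1 ≠ [] → z c = 0 := by
    intro c hc
    obtain ⟨⟨ls, j, b⟩, hok⟩ := c
    obtain ⟨l, ls, rfl⟩ := List.exists_cons_of_ne_nil hc
    refine Tinf.ext ?_ (funext fun m => by simpa using hcell _ m)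
    let c : Cell := ⟨(l :: ls, j, b), hok⟩
    let c' : Cell := ⟨(ls, j, b), hok.2⟩
    have h := congrArg (fun f => Tinf.cell k l (f c')) hd
    conv at h => lhs; rw [← Finsupp.sum_single z]
    simp only [Pi.zero_apply, map_zero, Finsupp.sum, Finset.sum_apply,
      map_sum] at h
    rw [Finset.sum_congr rfl fun p _ =>
      rowMap_single_cell k (funext fun m => by simpa using hcell p m) l,
      Finset.sum_eq_single c] at h
    · rw [if_pos ⟨rfl, rfl⟩] at h
      show Tinf.lam k (z c) = Tinf.lam k 0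
      rw [map_zero, ← sgL_sgL k (Tinf.lam k (z c)), h, map_zero]
    · intro p _ hp
      rw [if_neg]
      rintro ⟨e1, e2⟩
      exact hp (Subtype.ext (Prod.ext e1 e2))
    · intro hc; simp [Finsupp.notMem_support_iff.1 hc]
  let w : ℕ → BC → F k := fun j b => Lam.re k (Tinf.lam k (z (base j b)))
  have hN : ∀ j, bound n ≤ j → ∀ b, w j b = 0 := fun j hj b =>
    part_neg k (n := n - 2 * j - b.deg) (by simp only [bound] at hj; omega) (base_hom hz j b).1
  have hz' : z = tw k (bound n) w := by
    refine Finsupp.ext fun c => ?_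
    by_cases hc : c.1.1 = []
    · obtain ⟨⟨ls, i, b⟩, hok⟩ := c
      simp only at hc
      subst hc
      show z (base i b) = tw k (bound n) w (base i b)
      simp only [tw, Finsupp.finsetSum_apply, Finsupp.single_apply, base_injective, ite_and,
        Finset.sum_ite_irrel, Finset.sum_ite_eq', Finset.mem_univ, if_true, Finset.sum_const_zero,
        Finset.mem_range]
      have hof : z (base i b) = Tinf.mk k (Lam.of k (w i b)) 0 :=
        Tinf.ext (by simp only [Tinf.lam_mk]; exact Lam.ext (by simp [w]) (by simp [him]))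
          (funext fun m => by simp [hcell])
      split_ifs with hi
      · exact hof
      · rw [hof, hN i (Nat.le_of_not_lt hi), map_zero, Tinf.mk_zero]
    · rw [hchain c hc]
      simp only [tw, Finsupp.finsetSum_apply]
      refine (Finset.sum_eq_zero fun j _ => Finset.sum_eq_zero fun b _ => ?_).symm
      rw [Finsupp.single_apply, if_neg]
      rintro rfl
      exact hc rfl
  have heq : ∀ i b, Lam.mk k (stdD k (w i) b
      + if b = .c0 ∧ 0 < i then sg k (w (i - 1) .cz) * (tF k * tF k) else 0)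
      (sg k (DF k (w i b)) + ((i + 1 : ℕ) : k) • sg k (w (i + 1) b)) = 0 := fun i b => by
    rw [← lam_rowMap_tw hN, ← hz', hd, Pi.zero_apply, map_zero]
  have h0 : ∀ b, w 0 b = 0 := by
    refine std_unique k hre ?_
    have := congrArg (Lam.re k) (heq 0 .c0)
    simpa using this
  have hall : ∀ i b, w i b = 0 := by
    intro i
    induction i with
    | zero => exact h0
    | succ i ih =>
      intro b
      have := congrArg (Lam.im k) (heq i b)
      rw [Lam.im_mk, ih b, map_zero, map_zero, map_zero, zero_add, smul_eq_zero] at this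
      rw [← sg_sg k (w (i + 1) b), this.resolve_left (Nat.cast_ne_zero.2 (by omega)), map_zero]
  rw [hz']
  refine Finset.sum_eq_zero fun j _ => Finset.sum_eq_zero fun b _ => ?_
  rw [hall, map_zero, Tinf.mk_zero, Finsupp.single_zero]

end P195.Model
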