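import Vale.Agent.P195.Window.Syz
import Vale.Agent.P195.Model.Rows
import Vale.Agent.P195.Model.Complex

/-!
P195: chains over the window `T` and their rows. A chain `x` has, for every vertex `v'`, the row
`c ↦ x c (v', vert c)`; the differential acts row by row through `rowMap`.
-/

namespace P195.Window.Cells

variable {k T : Type} [Field k] [Ring T] [Algebra k T] {R : DGA k T} (Q : Cells R)

theorem dQ_single (c : Q.Cell) (t : T) :
    Q.dQ (Finsupp.single c t)
      = Finsupp.single c (R.d t) + (Q.D c).mapRange (R.J t * ·) (mul_zero _) := by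
  rw [dQ, Finsupp.mapRange_single, Finsupp.sum_single_index (Finsupp.ext fun _ => by simp)]

theorem dQ_zero : Q.dQ 0 = 0 := by simp [dQ]

theorem dQ_sum {ι : Type} (s : Finset ι) (f : ι → Q.Cell →₀ T) :
    Q.dQ (∑ i ∈ s, f i) = ∑ i ∈ s, Q.dQ (f i) := by
  classical
  induction s using Finset.induction_on with
  | empty => simp [Q.dQ_zero]
  | insert a s ha ih => rw [Finset.sum_insert ha, Finset.sum_insert ha, Q.dQ_add, ih]

theorem dQ_sub (x y : Q.Cell →₀ T) : Q.dQ (x - y) = Q.dQ x - Q.dQ y := by
  have h := Q.dQ_add (x - y) y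
  rw [sub_add_cancel] at h
  rw [h, add_sub_cancel_right]

theorem dQ_dQ (x : Q.Cell →₀ T) : Q.dQ (Q.dQ x) = 0 := by
  classical
  induction x using Finsupp.induction_linear with
  | zero => simp [Q.dQ_zero]
  | add a b ha hb => rw [Q.dQ_add, Q.dQ_add, ha, hb, add_zero]
  | single c t =>
    refine Finsupp.ext fun c'' => ?_
    rw [Q.dQ_single, Q.dQ_apply, Finsupp.zero_apply, Finsupp.sum_add_index (by simp)
      (by simp [add_mul]), Finsupp.sum_single_index (by simp),
      Finsupp.sum_mapRange_index (by simp), Finsupp.add_apply, Finsupp.mapRange_apply, map_add,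
      Finsupp.single_apply, R.d_mul, R.d_J, R.J_J, apply_ite R.d, map_zero, R.d_d, ite_self,
      zero_add]
    have hsum : ((Q.D c).sum fun b a => R.J (R.J t * a) * Q.D b c'')
        = t * ((Q.D c).sum fun b a => R.J a * Q.D b c'') := by
      rw [Finsupp.mul_sum]
      exact Finsupp.sum_congr fun b _ => by rw [map_mul, R.J_J, mul_assoc]
    have hsq := congrArg (t * ·) (Q.D_sq c c'')
    simp only [mul_zero, mul_add] at hsq
    rw [hsum, ← hsq]
    noncomm_ring

end P195.Window.Cells

namespace P195.Model

open P195.Algebra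

variable {k : Type} [Field k]

/-- The row `v'` of a chain. -/
noncomputable def rowOf (v' : Vtx) (x : Cell →₀ T k) : Cell →₀ Tinf k :=
  Finsupp.onFinset x.support (fun c => T.entry k v' (vert c.1) (x c)) fun c hc => by
    rw [Finsupp.mem_support_iff]
    intro h
    exact hc (by rw [h, map_zero])

@[simp] theorem rowOf_apply (v' : Vtx) (x : Cell →₀ T k) (c : Cell) :
    rowOf v' x c = T.entry k v' (vert c.1) (x c) := rfl

theorem rowOf_add (v' : Vtx) (x y : Cell →₀ T k) :
    rowOf v' (x + y) = rowOf v' x + rowOf v' y := Finsupp.ext fun c => by simp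

theorem rowOf_sub (v' : Vtx) (x y : Cell →₀ T k) :
    rowOf v' (x - y) = rowOf v' x - rowOf v' y := Finsupp.ext fun c => by simp

/-- Chains whose entries in the column of their cell are the given rows. -/
theorem exists_chain (z : Vtx → (Cell →₀ Tinf k))
    {n : ℤ} (hz : ∀ v', IsRow k v' n (z v')) :
    ∃ x : Cell →₀ T k, (∀ v', rowOf v' x = z v') ∧
      ∀ c, x c ∈ (dga k).G (n - pdeg c.1) ∧ x c * T.idem k (vert c.1) = x c := by
  classical
  let f : Cell → T k := fun c =>
    ∑ v' : Vtx, T.single k v' (vert c.1) ⟨z v' c, (hz v' c).1⟩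
  have hf : ∀ c v' v, T.entry k v' v (f c) = if vert c.1 = v then z v' c else 0 := by
    intro c v' v
    simp [f, map_sum, entry_single, ite_and]
  let x : Cell →₀ T k := Finsupp.onFinset (Finset.univ.biUnion fun v' => (z v').support) f
    fun c hc => by
      by_contra h
      simp only [Finset.mem_biUnion, Finset.mem_univ, true_and, Finsupp.mem_support_iff, not_exists,
        not_not] at h
      exact hc (ext_entry fun v' v => by rw [hf, h]; simp)
  refine ⟨x, fun v' => Finsupp.ext fun c => ?_, fun c => ⟨?_, ?_⟩⟩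
  · show T.entry k v' (vert c.1) (f c) = _
    simp [hf]
  · refine mem_G_iff.2 fun v' v => ?_
    show HomT k _ (T.entry k v' v (f c))
    rw [hf]
    split_ifs
    · exact (hz v' c).2
    · simp [HomT]
  · refine ext_entry fun v' v => ?_
    show T.entry k v' v (f c * _) = T.entry k v' v (f c)
    rw [entry_mul_idem]
    simp only [hf]
    split_ifs <;> simp_all

theorem isRow_rowOf {n : ℤ} {x : Cell →₀ T k} (hx : ∀ c, x c ∈ (dga k).G (n - pdeg c.1))
    (v' : Vtx) : IsRow k v' n (rowOf v' x) :=
  fun c => ⟨(x c).2 v' (vert c.1), (mem_G_iff.1 (hx c)) v' (vert c.1)⟩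

theorem eq_zero_of_rows {x : Cell →₀ T k} (hx : ∀ c, x c * T.idem k (vert c.1) = x c)
    (h : ∀ v', rowOf v' x = 0) : x = 0 := by
  refine Finsupp.ext fun c => ext_entry fun v' v => ?_
  rw [← hx c, entry_mul_idem, Finsupp.zero_apply, map_zero]
  split_ifs with hv
  · subst hv; exact DFunLike.congr_fun (h v') c
  · rfl

/-- One summand of the differential, row by row. -/
theorem entry_J_mul {c c' : Cell} {t a : T k} (ht : t * T.idem k (vert c.1) = t)
    (ha : T.entry k (vert c.1) (vert c'.1) a = coef k c.1 c'.1) (v' : Vtx) :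
    T.entry k v' (vert c'.1) ((dga k).J t * a)
      = sgT k (T.entry k v' (vert c.1) t) * coef k c.1 c'.1 := by
  rw [entry_mul, Finset.sum_eq_single (vert c.1)]
  · rw [entry_J, ha]
  · intro w _ hw
    rw [entry_J, ← ht, entry_mul_idem, if_neg (Ne.symm hw), map_zero, zero_mul]
  · simp

end P195.Model
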