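import Vale.Agent.P195.Cert.Exact
import Vale.Agent.P195.Algebra.Dga

/-!
P195, bridge: the cones of `Φ` over `Λ` are exact (lift of the certificates from `F`).
-/

namespace P195.Model

open P195.Algebra P195.Cert

variable (k : Type) [Field k]

/-- Supported from `a` to `a'` in window degree `Δ` and degree `n`. -/
def InL (a' a : Fin 2) (Δ n : ℤ) (x : Lam k) : Prop := x ∈ supL k a' a Δ ∧ HomL k n x

/-- A matrix between the cells at `a` and at `a'`. -/
def InB (a' a : Fin 2) (Δ n : ℤ) (B : Matrix LC LC (Lam k)) : Prop :=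
  ∀ c c', (c.rv = a' ∧ c'.rv = a → InL k c.lv c'.lv Δ (n + c.deg - c'.deg) (B c c')) ∧
    (¬(c.rv = a' ∧ c'.rv = a) → B c c' = 0)

/-- The block of `Φ` on the rows at `a'` and the columns at `a`. -/
noncomputable def phiLB (a' a : Fin 2) : Lam k →ₗ[k] Matrix LC LC (Lam k) where
  toFun x := Matrix.of fun c c' => if c.rv = a' ∧ c'.rv = a then phiL k x c c' else 0
  map_add' x y := by
    ext c c' : 1
    simp only [Matrix.add_apply, Matrix.of_apply, map_add]
    split_ifs <;> simp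
  map_smul' r x := by
    ext c c' : 1
    simp only [Matrix.smul_apply, Matrix.of_apply, map_smul, RingHom.id_apply]
    split_ifs <;> simp

theorem phiLB_apply (a' a : Fin 2) (x : Lam k) (c c' : LC) :
    phiLB k a' a x c c' = if c.rv = a' ∧ c'.rv = a then phiL k x c c' else 0 := rfl

/-- The differential of the matrices over `Λ`. -/
noncomputable def KL : Matrix LC LC (Lam k) →ₗ[k] Matrix LC LC (Lam k) :=
  dMx k + (LinearMap.mulRight k (Nm k)).comp (sgMx k).toLinearMap + LinearMap.mulLeft k (Nm k)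

theorem KL_apply (B : Matrix LC LC (Lam k)) :
    KL k B = dMx k B + sgMx k B * Nm k + Nm k * B := rfl

theorem KL_entry (B : Matrix LC LC (Lam k)) (c c' : LC) :
    KL k B c c' = dL k (B c c') + ∑ m, sgL k (B c m) * Nm k m c' + ∑ m, Nm k c m * B m c' := by
  rw [KL_apply]
  simp [Matrix.mul_apply]

/-- A matrix over `F` as one over `Λ`. -/
noncomputable def oM (B : Matrix LC LC (F k)) : Matrix LC LC (Lam k) := B.map (Lam.of k)

/-- A matrix over `F`, times `u`. -/
noncomputable def uM (B : Matrix LC LC (F k)) : Matrix LC LC (Lam k) := B.map (Lam.mk k 0)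

/-- Signs on the columns. -/
noncomputable def colS (B : Matrix LC LC (F k)) : Matrix LC LC (F k) :=
  Matrix.of fun i j => LC.sgn k j • B i j

@[simp] theorem oM_apply (B : Matrix LC LC (F k)) (c c' : LC) :
    oM k B c c' = Lam.of k (B c c') := rfl

@[simp] theorem uM_apply (B : Matrix LC LC (F k)) (c c' : LC) :
    uM k B c c' = Lam.mk k 0 (B c c') := rfl

@[simp] theorem colS_apply (B : Matrix LC LC (F k)) (c c' : LC) :
    colS k B c c' = LC.sgn k c' • B c c' := rfl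

theorem Nm_rv {c c' : LC} (h : c.rv ≠ c'.rv) : Nm k c c' = 0 := by
  cases c <;> cases c' <;> simp [Nm, LC.rv] at h ⊢

theorem Nm_sgn {c c' : LC} (h : Nm k c c' ≠ 0) : LC.sgn k c = -LC.sgn k c' := by
  cases c <;> cases c' <;> simp [Nm] at h <;> simp [LC.sgn, LC.deg]

theorem Nm_Jm_anti : Nm k * Jm k = -(Jm k * Nm k) := by
  ext c c' : 1
  simp only [Jm, Matrix.neg_apply, Matrix.diagonal_mul, Matrix.mul_diagonal, mul_smul_comm,
    smul_mul_assoc, mul_one, one_mul]
  by_cases h : Nm k c c' = 0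
  · simp [h]
  · rw [Nm_sgn k h, neg_smul, neg_neg]

theorem dMx_JmC : dMx k (Jm k) = 0 := by
  ext c c' : 1
  have h1 : dL k (1 : Lam k) = 0 := Lam.ext (by simp) (by simp)
  simp [Jm, Matrix.diagonal_apply]
  split_ifs <;> simp [h1]

theorem sgMx_JmC : sgMx k (Jm k) = Jm k := by
  ext c c' : 1
  simp [Jm, Matrix.diagonal_apply]
  split_ifs <;> simp

theorem KL_Jm (X : Matrix LC LC (Lam k)) :
    KL k (Jm k * X) = Jm k * (dMx k X + sgMx k X * Nm k - Nm k * X) := by
  rw [KL_apply, dMx_mul, dMx_JmC, map_mul, sgMx_JmC, ← mul_assoc (Nm k), Nm_Jm_anti]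
  noncomm_ring

theorem KL_KL (B : Matrix LC LC (Lam k)) : KL k (Jm k * KL k B) = 0 := by
  have h1 : dMx k (sgMx k B) = -sgMx k (dMx k B) := by
    ext c c' : 1
    simp [dL_sgL]
  have h2 : sgMx k (sgMx k B) = B := by
    ext c c' : 1
    simp
  have h3 : dMx k (dMx k B) = 0 := by
    ext c c' : 1
    simp [dL_dL]
  have hN : ∀ X : Matrix LC LC (Lam k), X * Nm k * Nm k = 0 := fun X => by
    rw [mul_assoc, Nm_sq, mul_zero]
  have hN' : ∀ X : Matrix LC LC (Lam k), Nm k * (Nm k * X) = 0 := fun X => by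
    rw [← mul_assoc, Nm_sq, zero_mul]
  rw [KL_Jm, KL_apply, map_add, map_add, dMx_mul, dMx_mul, dMx_Nm, h3, h1, sgMx_Nm, map_add,
    map_add, map_mul, map_mul, h2, sgMx_Nm]
  simp only [mul_add, add_mul, hN, hN']
  noncomm_ring

theorem phi_key {a' a : Fin 2} {Δ : ℤ} {x : Lam k} (hx : x ∈ supL k a' a Δ) {c c' : LC}
    (hc : c.rv = a') :
    dL k (phiL k x c c') + (sgMx k (phiL k x) * Nm k) c c' - (Nm k * phiL k x) c c'
      = LC.sgn k c • phiL k (dL k x) c c' := by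
  have hl : RowAt k a' (Pi.single c (1 : Lam k)) := fun m hm => by
    rw [Pi.single_apply, if_neg (fun e => hm (by rw [e]; exact hc))]
  have h := congrFun (err_supL k hx hl) c'
  rw [Matrix.single_one_vecMul] at h
  simp only [Matrix.row, err, Pi.zero_apply, Matrix.sub_apply, Matrix.add_apply, dMx_apply,
    sub_eq_zero] at h
  rw [h]
  simp [Jm, Matrix.diagonal_mul]

theorem phiLB_mul_Nm {a' a : Fin 2} (x : Lam k) (c c' : LC) :
    (sgMx k (phiLB k a' a x) * Nm k) c c'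
      = if c.rv = a' ∧ c'.rv = a then (sgMx k (phiL k x) * Nm k) c c' else 0 := by
  simp only [Matrix.mul_apply, sgMx_apply, phiLB_apply]
  by_cases hb : c.rv = a' ∧ c'.rv = a
  · rw [if_pos hb]
    refine Finset.sum_congr rfl fun m _ => ?_
    by_cases hm : m.rv = c'.rv
    · rw [hm, if_pos hb]
    · rw [Nm_rv k hm, mul_zero, mul_zero]
  · rw [if_neg hb]
    refine Finset.sum_eq_zero fun m _ => ?_
    by_cases hm : m.rv = c'.rv
    · rw [hm, if_neg hb, map_zero, zero_mul]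
    · rw [Nm_rv k hm, mul_zero]

theorem Nm_mul_phiLB {a' a : Fin 2} (x : Lam k) (c c' : LC) :
    (Nm k * phiLB k a' a x) c c'
      = if c.rv = a' ∧ c'.rv = a then (Nm k * phiL k x) c c' else 0 := by
  simp only [Matrix.mul_apply, phiLB_apply]
  by_cases hb : c.rv = a' ∧ c'.rv = a
  · rw [if_pos hb]
    refine Finset.sum_congr rfl fun m _ => ?_
    by_cases hm : c.rv = m.rv
    · rw [← hm, if_pos hb]
    · rw [Nm_rv k hm, zero_mul, zero_mul]
  · rw [if_neg hb]
    refine Finset.sum_eq_zero fun m _ => ?_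
    by_cases hm : c.rv = m.rv
    · rw [← hm, if_neg hb, mul_zero]
    · rw [Nm_rv k hm, zero_mul]

theorem KL_phiLB {a' a : Fin 2} {Δ : ℤ} {x : Lam k} (hx : x ∈ supL k a' a Δ) :
    KL k (Jm k * phiLB k a' a x) = phiLB k a' a (dL k x) := by
  have key : dMx k (phiLB k a' a x) + sgMx k (phiLB k a' a x) * Nm k - Nm k * phiLB k a' a x
      = Jm k * phiLB k a' a (dL k x) := by
    ext c c' : 1
    rw [Matrix.sub_apply, Matrix.add_apply, dMx_apply, phiLB_mul_Nm, Nm_mul_phiLB, Jm,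
      Matrix.diagonal_mul, phiLB_apply, phiLB_apply, smul_mul_assoc, one_mul]
    by_cases hb : c.rv = a' ∧ c'.rv = a
    · simp only [if_pos hb]
      exact phi_key k hx hb.1
    · simp [if_neg hb]
  rw [KL_Jm, key, ← mul_assoc, Jm_sq, one_mul]

theorem im_Nm (c c' : LC) : Lam.im k (Nm k c c') = 0 := by
  cases c <;> cases c' <;> simp [Nm]
  split_ifs <;> simp

theorem sg_n0 (c c' : LC) : sg k (n0 k c c') = n0 k c c' := by
  rw [n0, ← sgL_re, Nm_sg]

theorem re_phiLB (a' a : Fin 2) (x : Lam k) (c c' : LC) :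
    Lam.re k (phiLB k a' a x c c') = phiB k a' a (Lam.re k x) c c' := by
  simp only [phiLB_apply, phiB]
  split_ifs with h
  · simp [phiL_apply, phiFun, phi0, phiU, Matrix.mul_diagonal, Lam.u]
  · simp

theorem im_phiLB_u (a' a : Fin 2) (b : F k) (c c' : LC) :
    Lam.im k (phiLB k a' a (Lam.mk k 0 b) c c') = LC.sgn k c' • phiB k a' a b c c' := by
  simp only [phiLB_apply, phiB]
  split_ifs with h
  · simp [phiL_apply, phiFun, phi0, phiU, Matrix.mul_diagonal, Lam.u]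
  · simp

theorem re_KL (B : Matrix LC LC (Lam k)) (c c' : LC) :
    Lam.re k (KL k B c c') = K0 k (B.map (Lam.re k)) c c' := by
  simp [KL_entry, K0, n0]

theorem im_KL_of (B : Matrix LC LC (F k)) (c c' : LC) :
    Lam.im k (KL k (oM k B) c c') = sg k (DF k (B c c')) := by
  simp [KL_entry, im_Nm]

theorem im_KL_u (β : Matrix LC LC (F k)) (c c' : LC) :
    Lam.im k (KL k (uM k β) c c') = LC.sgn k c' • K0 k (colS k β) c c' := by
  have h1 : ∀ m, LC.sgn k c' • (sg k (LC.sgn k m • β c m) * n0 k m c')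
      = -(sg k (β c m) * n0 k m c') := by
    intro m
    by_cases hn : Nm k m c' = 0
    · simp [n0, hn]
    · rw [map_smul, smul_mul_assoc, smul_smul, Nm_sgn k hn, mul_neg, LC.sgn_mul_self, neg_smul,
        one_smul]
  have h2 : ∀ m, LC.sgn k c' • (n0 k c m * (LC.sgn k c' • β m c')) = n0 k c m * β m c' := by
    intro m
    rw [mul_smul_comm, smul_smul, LC.sgn_mul_self, one_smul]
  have h3 : ∀ m, sg k (Lam.re k (Nm k m c')) = n0 k m c' := sg_n0 k (c' := c')
  simp only [K0, colS_apply, smul_add, Finset.smul_sum, h1, h2]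
  simp [KL_entry, im_Nm, h3, n0, smul_smul, LC.sgn_mul_self]

variable {k}

theorem InL.re {a' a : Fin 2} {Δ n : ℤ} {x : Lam k} (h : InL k a' a Δ n x) :
    InF k a' a Δ n (Lam.re k x) :=
  ⟨((mem_supL k).1 h.1).1, ((homL_iff k).1 h.2).1⟩

theorem InL.im {a' a : Fin 2} {Δ n : ℤ} {x : Lam k} (h : InL k a' a Δ n x) :
    InF k a' a Δ (n - 1) (Lam.im k x) :=
  ⟨((mem_supL k).1 h.1).2, ((homL_iff k).1 h.2).2⟩

theorem InL.mk' {a' a : Fin 2} {Δ n : ℤ} {x y : F k} (hx : InF k a' a Δ n x)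
    (hy : InF k a' a Δ (n - 1) y) : InL k a' a Δ n (Lam.mk k x y) :=
  ⟨(mem_supL k).2 ⟨by simpa using hx.1, by simpa using hy.1⟩,
    (homL_iff k).2 ⟨by rw [Lam.re_mk]; exact hx.2, by rw [Lam.im_mk]; exact hy.2⟩⟩

theorem InF.dD {a' a : Fin 2} {Δ n : ℤ} {x : F k} (hx : InF k a' a Δ (n + 1) x) :
    InF k a' a Δ (n - 1) (sg k (DF k x)) :=
  ⟨supF_sg k (supF_DF k hx.1),
    ((DF_hom k hx.2).sg_mem k).of_eq k (by ring)⟩

theorem InF.sub' {a' a : Fin 2} {Δ n : ℤ} {x y : F k} (hx : InF k a' a Δ n x)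
    (hy : InF k a' a Δ n y) : InF k a' a Δ n (x - y) :=
  ⟨sub_mem hx.1 hy.1, HomF.sub k hx.2 hy.2⟩

theorem InF.smul' {a' a : Fin 2} {Δ n : ℤ} {x : F k} (r : k) (hx : InF k a' a Δ n x) :
    InF k a' a Δ n (r • x) :=
  ⟨Submodule.smul_mem _ r hx.1, HomF.smul k r hx.2⟩

theorem supF_neg_eq {a' a : Fin 2} {Δ : ℤ} (hΔ : Δ < 0) {x : F k}
    (hx : x ∈ supF k a' a Δ) : x = 0 := by
  refine MonoidAlgebra.coeff_injective (Finsupp.ext fun m => ?_)
  by_contra hm
  have h := (MonoidAlgebra.mem_supported.1 hx) (Finsupp.mem_support_iff.2 hm)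
  have h1 : (mwt m : ℤ) = Δ := h.2
  omega

theorem InL.eq_zero {a' a : Fin 2} {Δ n : ℤ} (hΔ : Δ < 0) {x : Lam k}
    (h : InL k a' a Δ n x) : x = 0 :=
  Lam.ext (supF_neg_eq hΔ h.re.1) (supF_neg_eq hΔ h.im.1)

theorem InL.phi {a' a : Fin 2} {Δ n : ℤ} {x : Lam k} (hx : InL k a' a Δ n x) {c c' : LC}
    (hc : c.rv = a') (hc' : c'.rv = a) :
    InL k c.lv c'.lv Δ (n + c.deg - c'.deg) (phiL k x c c') := by
  refine ⟨?_, (phiL_hom k hx.2 c c').of_eq k (by ring)⟩
  have hrow : Pi.single c (1 : Lam k) ∈ supRow k c.lv a' 0 := by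
    refine (mem_supRow k).2 fun m => ?_
    rcases eq_or_ne m c with rfl | hm
    · rw [if_pos hc, Pi.single_eq_same]
      exact (mem_supL k).2 ⟨supF_one k _, zero_mem _⟩
    · rw [Pi.single_eq_of_ne hm]
      exact zero_mem _
  have hs := (mem_supRow k).1 (phiL_row_sup k hrow hx.1) c'
  rw [if_pos hc', Matrix.single_one_vecMul, zero_add] at hs
  exact hs

theorem Jm_mul_apply (X : Matrix LC LC (Lam k)) (c c' : LC) :
    (Jm k * X) c c' = LC.sgn k c • X c c' := by
  simp [Jm, Matrix.diagonal_mul]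

/-- The cones over `Λ` are exact, for elements divisible by `u`. -/
theorem coneU (a' a : Fin 2) (D : ℕ) (hD : D ≤ 2) (n : ℤ) {b : F k} {γ : Matrix LC LC (F k)}
    (hb : InF k a' a D (n - 1) b) (hγ : InM k a' a D n γ) (hdb : dF k b = 0)
    (hK : KL k (uM k γ) = phiLB k a' a (Lam.mk k 0 b)) :
    ∃ b' β', InF k a' a D n b' ∧ InM k a' a D (n + 1) β' ∧ dF k b' = b ∧
      ∀ c c', Lam.mk k 0 (γ c c') = LC.sgn k c • (phiLB k a' a (Lam.mk k 0 b') c c'
        - KL k (uM k β') c c') := by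
  have hγ' : InM k a' a D (n - 1 + 1) (colS k γ) := by
    rw [sub_add_cancel]
    exact fun c c' => ⟨fun h => InF.smul' _ ((hγ c c').1 h),
      fun h => by simp [(hγ c c').2 h]⟩
  have hKγ : K0 k (colS k γ) = phiB k a' a b := by
    ext c c' : 1
    have h2 := congrArg (fun X => LC.sgn k c' • Lam.im k (X c c')) hK
    simpa [im_KL_u, im_phiLB_u, smul_smul, LC.sgn_mul_self] using h2
  obtain ⟨b', β', hb', hβ', hdb', hβeq⟩ := coneExact k a' a D hD (n - 1) b _ hb hγ' hdb hKγ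
  refine ⟨b', colS k β', by rwa [sub_add_cancel] at hb', ?_, hdb',
    fun c c' => ?_⟩
  · rw [show n - 1 + 2 = n + 1 by ring] at hβ'
    exact fun c c' => ⟨fun h => InF.smul' _ ((hβ' c c').1 h),
      fun h => by simp [(hβ' c c').2 h]⟩
  · refine Lam.ext ?_ ?_
    · simp [re_phiLB, re_KL, phiB, phi0, K0]
    · have h := congrArg (fun z => LC.sgn k c' • z) (hβeq c c')
      simp only [colS_apply, smul_smul, LC.sgn_mul_self, one_smul] at h
      have e : colS k (colS k β') = β' := by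
        ext i j : 1
        simp [smul_smul, LC.sgn_mul_self]
      rw [Lam.im_mk, h]
      simp [im_phiLB_u, im_KL_u, e, smul_smul, smul_sub, mul_comm]

/-- Subtracting a boundary modulo `u`. -/
theorem cone_reduce (a' a : Fin 2) (D : ℕ) (hD : D ≤ 2) (n : ℤ) {α : Lam k}
    {B : Matrix LC LC (Lam k)} (hα : InL k a' a D n α) (hB : InB k a' a D (n + 1) B)
    (hd : dL k α = 0) (hK : KL k B = phiLB k a' a α) :
    ∃ (α0 b : F k) (B0 γ : Matrix LC LC (F k)), InF k a' a D (n + 1) α0 ∧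
      InM k a' a D (n + 2) B0 ∧ InF k a' a D (n - 1) b ∧ InM k a' a D n γ ∧ dF k b = 0 ∧
      KL k (uM k γ) = phiLB k a' a (Lam.mk k 0 b) ∧
      α = dL k (Lam.of k α0) + Lam.mk k 0 b ∧
      ∀ c c', B c c' = LC.sgn k c • (phiLB k a' a (Lam.of k α0) c c'
        - KL k (oM k B0) c c') + Lam.mk k 0 (γ c c') := by
  have hB0 : InM k a' a D (n + 1) (B.map (Lam.re k)) := fun c c' =>
    ⟨fun hb => ((hB c c').1 hb).re, fun hb => by simp [(hB c c').2 hb]⟩
  have hK0 : K0 k (B.map (Lam.re k)) = phiB k a' a (Lam.re k α) := by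
    ext c c' : 1
    rw [← re_KL, hK, re_phiLB]
  obtain ⟨α0, B0, hα0, hB0', hdα0, hB0eq⟩ :=
    coneExact k a' a D hD n _ _ hα.re hB0 (by rw [← dL_re, hd, map_zero]) hK0
  have hsα0 : Lam.of k α0 ∈ supL k a' a (D : ℤ) := supL_of k hα0.1
  have hLα0 : InL k a' a D (n + 1) (Lam.of k α0) := ⟨hsα0, homL_of k hα0.2⟩
  let X : Matrix LC LC (Lam k) := oM k B0
  let B1 := B - Jm k * (phiLB k a' a (Lam.of k α0) - KL k X)
  let b := Lam.im k α - sg k (DF k α0)
  let γ : Matrix LC LC (F k) := B1.map (Lam.im k)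
  have hα1 : α - dL k (Lam.of k α0) = Lam.mk k 0 b :=
    Lam.ext (by simp [hdα0]) (by simp [b])
  have hB1e : ∀ c c', B1 c c' = Lam.mk k 0 (γ c c') := by
    intro c c'
    refine Lam.ext ?_ (by simp [γ])
    simp only [B1, X, Matrix.sub_apply, Jm_mul_apply, map_sub, map_smul, re_phiLB, re_KL,
      Lam.re_of, Lam.re_mk, sub_eq_zero]
    exact hB0eq c c'
  refine ⟨α0, b, B0, γ, hα0, hB0', InF.sub' hα.im (InF.dD hα0), fun c c' => ⟨fun hbk => ?_,
    fun hbk => ?_⟩, ?_, ?_, by rw [← hα1]; abel, fun c c' => ?_⟩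
  · simp only [γ, B1, X, Matrix.map_apply, Matrix.sub_apply, Jm_mul_apply, map_sub, map_smul, im_KL_of]
    rw [show n + (c.deg : ℤ) - c'.deg = n + 1 + c.deg - c'.deg - 1 by ring]
    refine InF.sub' ((hB c c').1 hbk).im (InF.smul' _ (InF.sub' ?_ (InF.dD ?_)))
    · rw [phiLB_apply, if_pos hbk]
      exact (hLα0.phi hbk.1 hbk.2).im
    · have := (hB0' c c').1 hbk
      rwa [show n + 1 + (c.deg : ℤ) - c'.deg + 1 = n + 2 + c.deg - c'.deg by ring]
  · simp [γ, B1, X, Jm_mul_apply, im_KL_of, (hB c c').2 hbk, phiLB_apply, hbk,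
      (hB0' c c').2 hbk]
  · have h := congrArg (Lam.im k) (show dL k (α - dL k (Lam.of k α0)) = 0 by
      rw [map_sub, hd, dL_dL, sub_zero])
    rw [hα1] at h
    simpa using h
  · rw [← hα1, show uM k γ = B1 from
      Matrix.ext fun i j => by rw [uM_apply, hB1e]]
    simp only [B1, map_sub, mul_sub, KL_KL k X, KL_phiLB k hsα0, hK, sub_zero]
  · rw [← hB1e c c']
    simp only [B1, X, Matrix.sub_apply, Jm_mul_apply]
    abel

/-- The cones over `Λ` are exact. -/
theorem coneL (a' a : Fin 2) (Δ : ℤ) (hΔ : Δ ≤ 2) (n : ℤ) {α : Lam k}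
    {B : Matrix LC LC (Lam k)} (hα : InL k a' a Δ n α) (hB : InB k a' a Δ (n + 1) B)
    (hd : dL k α = 0) (hK : KL k B = phiLB k a' a α) :
    ∃ α' B', InL k a' a Δ (n + 1) α' ∧ InB k a' a Δ (n + 2) B' ∧ dL k α' = α ∧
      ∀ c c', B c c' = LC.sgn k c • (phiLB k a' a α' c c' - KL k B' c c') := by
  by_cases hneg : Δ < 0
  · refine ⟨0, 0, ⟨zero_mem _, HomL.zero k _⟩,
      fun c c' => ⟨fun _ => ⟨zero_mem _, HomL.zero k _⟩, fun _ => rfl⟩,
      by rw [map_zero, hα.eq_zero hneg], fun c c' => ?_⟩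
    by_cases hb : c.rv = a' ∧ c'.rv = a
    · simp [((hB c c').1 hb).eq_zero hneg]
    · simp [(hB c c').2 hb]
  obtain ⟨D, rfl⟩ := Int.eq_ofNat_of_zero_le (not_lt.1 hneg)
  obtain ⟨α0, b, B0, γ, hα0, hB0, hb, hγ, hdb, hKu, hαe, hBe⟩ :=
    cone_reduce a' a D (by omega) n hα hB hd hK
  obtain ⟨b', β', hb', hβ', hdb', hγe⟩ := coneU a' a D (by omega) n hb hγ hdb hKu
  refine ⟨Lam.of k α0 + Lam.mk k 0 b',
    (oM k B0) + uM k β', ?_, ?_, ?_, ?_⟩
  · have e : Lam.of k α0 + Lam.mk k 0 b' = Lam.mk k α0 b' := Lam.ext (by simp) (by simp)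
    rw [e]
    exact InL.mk' hα0 (by rwa [add_sub_cancel_right])
  · intro c c'
    have e : Lam.of k (B0 c c') + Lam.mk k 0 (β' c c') = Lam.mk k (B0 c c') (β' c c') :=
      Lam.ext (by simp) (by simp)
    refine ⟨fun hbk => ?_, fun hbk => ?_⟩
    · rw [Matrix.add_apply, oM_apply, uM_apply, e]
      refine InL.mk' ((hB0 c c').1 hbk) ?_
      have := (hβ' c c').1 hbk
      rwa [show n + 2 + (c.deg : ℤ) - c'.deg - 1 = n + 1 + c.deg - c'.deg by ring]
    · rw [Matrix.add_apply, oM_apply, uM_apply, e, (hB0 c c').2 hbk, (hβ' c c').2 hbk]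
      exact Lam.ext (by simp) (by simp)
  · have e : dL k (Lam.mk k 0 b') = Lam.mk k 0 b := Lam.ext (by simp) (by simp [hdb'])
    rw [map_add, e, hαe]
  · intro c c'
    rw [hBe, hγe, map_add, map_add, Matrix.add_apply, Matrix.add_apply, ← smul_add]
    congr 1
    abel

end P195.Model
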