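import Vale.Agent.P195.Model.Facts

/-!
P195: the differential of the cells squares to zero; the cell complex over `T`.
-/

namespace P195.Model

open P195.Algebra

variable {k : Type} [Field k]

/-- The window offset between two chains. -/
def dlt (p q : Pre) : ℤ := ((vert p).2.val : ℤ) - (vert q).2.val

/-- The expected place of a coefficient from `p` to `q`. -/
def Good (p q : Pre) (x : Lam k) : Prop :=
  x ∈ supL k (vA p) (vA q) (dlt p q) ∧ Ok q.1 q.2.1 q.2.2 ∧
    filtL k ((pdeg p : ℤ) - 1 - pdeg q) x = x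

theorem supL_cast {a' a : Fin 2} {Δ Δ' : ℤ} {x : Lam k} (hx : x ∈ supL k a' a Δ) (h : Δ = Δ') :
    x ∈ supL k a' a Δ' := h ▸ hx

theorem filtF_of_mem (n : ℤ) (x : F k) (hx : ∀ m, x.coeff m ≠ 0 → (mdeg m : ℤ) = n) :
    filtF k n x = x := by
  refine MonoidAlgebra.ext (Finsupp.ext fun m => ?_)
  rw [filtF, part_apply, degOf_eq]
  split_ifs with h
  · rfl
  · by_contra h'
    exact h (hx m (Ne.symm h'))

theorem filtF_gen (g : Gen) : filtF k g.deg (gen k g) = gen k g := by
  show part degHom _ (Algebra.X g) = _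
  rw [Algebra.X, part_single]
  refine (if_pos ?_).trans rfl
  rw [degOf_eq]; simp [mdeg, wdeg]

theorem filtF_tF : filtF k 0 (tF k) = tF k := by
  show part degHom _ (tt : F k) = _
  rw [tt, part_single]
  refine (if_pos ?_).trans rfl
  rw [degOf_eq]; simp [mdeg, wdeg]

theorem filtF_mul {m n i : ℤ} {x y : F k} (hx : filtF k m x = x) (hy : filtF k n y = y)
    (h : m + n = i) : filtF k i (x * y) = x * y := h ▸ part_mul_mem degHom hx hy

theorem filtL_of {n : ℤ} {x : F k} (hx : filtF k n x = x) :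
    filtL k n (Lam.of k x) = Lam.of k x :=
  Lam.ext (by simp [filtL, hx]) (by simp [filtL])

theorem filtL_u : filtL k 1 (Lam.u k) = Lam.u k := by
  refine Lam.ext (by simp [filtL, Lam.u]) ?_
  simp [filtL, Lam.u, filtF, part_one]

theorem filtF_sg {n : ℤ} {x : F k} (hx : filtF k n x = x) : filtF k n (sg k x) = sg k x := by
  have h := signJ_apply degHom n x hx
  show filtF k n (signJ degHom x) = signJ degHom x
  rw [h, map_smul, hx]

theorem filtL_re {n : ℤ} {x : Lam k} (hx : filtL k n x = x) :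
    filtF k n (Lam.re k x) = Lam.re k x := by
  conv_rhs => rw [← hx]
  simp [filtL]

theorem filtL_im {n : ℤ} {x : Lam k} (hx : filtL k n x = x) :
    filtF k (n - 1) (Lam.im k x) = Lam.im k x := by
  conv_rhs => rw [← hx]
  simp [filtL]

theorem filtL_sgL {n : ℤ} {x : Lam k} (hx : filtL k n x = x) :
    filtL k n (sgL k x) = sgL k x := by
  refine Lam.ext ?_ ?_
  · simp [filtL, sgL_re, filtF_sg (filtL_re hx)]
  · simp [filtL, sgL_im, filtF_sg (filtL_im hx)]

theorem Good.zero {p q : Pre} (hq : Ok q.1 q.2.1 q.2.2) : Good p q (0 : Lam k) :=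
  ⟨zero_mem _, hq, map_zero _⟩

theorem Good.smul {p q : Pre} {x : Lam k} (h : Good p q x) (c : k) : Good p q (c • x) :=
  ⟨Submodule.smul_mem _ c h.1, h.2.1, by rw [map_smul, h.2.2]⟩

theorem Good.neg {p q : Pre} {x : Lam k} (h : Good p q x) : Good p q (-x) :=
  ⟨neg_mem h.1, h.2.1, by rw [map_neg, h.2.2]⟩

/-- A finitely supported vector of well placed coefficients. -/
def GoodVec (p : Pre) (v : Pre →₀ Lam k) : Prop := ∀ q, v q ≠ 0 → Good p q (v q)

theorem GoodVec.zero (p : Pre) : GoodVec (k := k) p 0 := fun q h => absurd rfl h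

theorem GoodVec.add {p : Pre} {v w : Pre →₀ Lam k} (hv : GoodVec p v) (hw : GoodVec p w) :
    GoodVec p (v + w) := by
  intro q h
  rw [Finsupp.add_apply] at h ⊢
  by_cases h1 : v q = 0
  · rw [h1, zero_add] at h ⊢; exact hw q h
  by_cases h2 : w q = 0
  · rw [h2, add_zero]; exact hv q h1
  · exact ⟨add_mem (hv q h1).1 (hw q h2).1, (hv q h1).2.1,
      by rw [map_add, (hv q h1).2.2, (hw q h2).2.2]⟩

theorem GoodVec.neg {p : Pre} {v : Pre →₀ Lam k} (hv : GoodVec p v) : GoodVec p (-v) := by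
  intro q h
  rw [Finsupp.neg_apply] at h ⊢
  exact (hv q (by simpa using h)).neg

theorem GoodVec.sub {p : Pre} {v w : Pre →₀ Lam k} (hv : GoodVec p v) (hw : GoodVec p w) :
    GoodVec p (v - w) := sub_eq_add_neg v w ▸ hv.add hw.neg

theorem GoodVec.single {p q : Pre} {x : Lam k} (h : x ≠ 0 → Good p q x) :
    GoodVec p (Finsupp.single q x) := by
  classical
  intro r hr
  rw [Finsupp.single_apply] at hr ⊢
  split_ifs at hr ⊢ with e
  · subst e; exact h hr
  · exact absurd rfl hr

theorem GoodVec.sum {ι : Type*} {p : Pre} (s : Finset ι) (f : ι → Pre →₀ Lam k)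
    (h : ∀ i ∈ s, GoodVec p (f i)) : GoodVec p (∑ i ∈ s, f i) :=
  Finset.sum_induction f (GoodVec p) (fun _ _ => GoodVec.add) (GoodVec.zero p) h

theorem goodVec_dBase (j : ℕ) (b : BC) : GoodVec ([], j, b) (dBase k j b) := by
  have one : ∀ (g : Gen) (q : BC) (Δ : ℤ), g.src = q.vtx.1 → g.tgt = b.vtx.1 →
      (g.wt : ℤ) = Δ → dlt ([], j, b) ([], j, q) = Δ → (g.deg : ℤ) + q.deg + 1 = b.deg →
      Good ([], j, b) ([], j, q) (Lam.of k (gen k g)) := fun g q Δ hs ht hw hd he =>
    ⟨supL_cast (supL_of k (by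
        show _ ∈ supF k b.vtx.1 q.vtx.1 _
        rw [← hs, ← ht]; exact supF_gen k g)) (hw.trans hd.symm), trivial,
      by
        rw [show ((pdeg ([], j, b) : ℤ) - 1 - pdeg ([], j, q)) = g.deg by simp [pdeg]; omega]
        exact filtL_of (filtF_gen (k := k) g)⟩
  have two : ∀ (g g' : Gen) (q : BC), g'.src = q.vtx.1 → g'.tgt = g.src → g.tgt = b.vtx.1 →
      ((g.wt : ℤ) + g'.wt) = dlt ([], j, b) ([], j, q) →
      (g.deg : ℤ) + g'.deg + q.deg + 1 = b.deg →
      Good ([], j, b) ([], j, q) (Lam.of k (gen k g * gen k g')) := fun g g' q hs hm ht hw he =>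
    ⟨supL_cast (supL_of k (supF_mul k
        (show gen k g ∈ supF k b.vtx.1 g.src _ by rw [← ht]; exact supF_gen k g)
        (show gen k g' ∈ supF k g.src q.vtx.1 _ by rw [← hs, ← hm]; exact supF_gen k g'))) hw,
      trivial, by
      rw [show ((pdeg ([], j, b) : ℤ) - 1 - pdeg ([], j, q)) = g.deg + g'.deg by
        simp [pdeg]; omega]
      exact filtL_of (filtF_mul (filtF_gen (k := k) g) (filtF_gen (k := k) g') rfl)⟩
  cases b with
  | c0 => exact GoodVec.zero _
  | cx i =>
    exact GoodVec.single fun _ => one (.x i) .c0 0 rfl rfl rfl (by simp [dlt, vert, BC.vtx]) rfl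
  | cr i =>
    simp only [dBase]
    refine GoodVec.add (GoodVec.add (GoodVec.sub ?_ ?_) ?_) ?_
    · exact GoodVec.single fun _ =>
        one (.r i) .c0 1 rfl rfl rfl (by simp [dlt, vert, BC.vtx]) rfl
    · exact GoodVec.single fun _ => two (.x 0) (.p i) (.cx 1) rfl rfl rfl
        (by simp [dlt, vert, BC.vtx, Gen.wt]) rfl
    · exact GoodVec.single fun _ => two (.x 1) (.p i) (.cx 0) rfl rfl rfl
        (by simp [dlt, vert, BC.vtx, Gen.wt]) rfl
    · have ht : ∀ l : Fin 2, Good ([], j, .cr i) ([], j, .cx l) (Lam.of k (tF k)) := fun l =>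
        ⟨supL_cast (supL_of k (supF_tF k 1)) (by simp [dlt, vert, BC.vtx]), trivial, by
          rw [show ((pdeg ([], j, .cr i) : ℤ) - 1 - pdeg ([], j, .cx l)) = 0 by
            simp [pdeg, BC.deg]; omega]
          exact filtL_of (filtF_tF (k := k))⟩
      split_ifs
      · exact (GoodVec.single fun _ => ht 1).neg
      · exact GoodVec.single fun _ => ht 0
  | cz =>
    simp only [dBase]
    refine GoodVec.add (GoodVec.sub (GoodVec.add (GoodVec.sub ?_ ?_) ?_) ?_) ?_
    · exact GoodVec.single fun _ => one (.z 0) .c0 2 rfl rfl rfl (by simp [dlt, vert, BC.vtx]) rfl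
    · exact GoodVec.single fun _ =>
        one (.p 0) (.cr 1) 1 rfl rfl rfl (by simp [dlt, vert, BC.vtx]) rfl
    · exact GoodVec.single fun _ =>
        one (.p 1) (.cr 0) 1 rfl rfl rfl (by simp [dlt, vert, BC.vtx]) rfl
    · exact GoodVec.single fun _ =>
        one (.q 0) (.cx 1) 2 rfl rfl rfl (by simp [dlt, vert, BC.vtx]) rfl
    · exact GoodVec.single fun _ =>
        one (.q 1) (.cx 0) 2 rfl rfl rfl (by simp [dlt, vert, BC.vtx]) rfl

theorem goodVec_dTower (j : ℕ) (b : BC) : GoodVec ([], j, b) (dTower k j b) := by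
  rw [dTower]
  refine GoodVec.add (GoodVec.add (goodVec_dBase j b) ?_) ?_
  · refine GoodVec.single fun h => ?_
    rcases j with _ | j
    · simp at h
    have g : Good ([], j + 1, b) ([], j + 1 - 1, b) (Lam.u k) := by
      refine ⟨?_, trivial, ?_⟩
      · exact supL_cast (supL_u k b.vtx.1) (by simp [dlt, vert])
      · rw [show ((pdeg ([], j + 1, b) : ℤ) - 1 - pdeg ([], j + 1 - 1, b)) = 1 by
          simp [pdeg]; omega]
        exact filtL_u (k := k)
    exact g.smul _
  · split_ifs with hb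
    · subst hb
      refine GoodVec.single fun _ => ⟨supL_cast (supL_of k (supF_mul k (supF_tF k 0) (supF_tF k 0)))
        (by simp [dlt, vert, BC.vtx]), trivial, ?_⟩
      rw [show ((pdeg ([], j, .cz) : ℤ) - 1 - pdeg ([], j + 1, .c0)) = 0 + 0 by
        simp [pdeg, BC.deg]; omega]
      exact filtL_of (filtF_mul (filtF_tF (k := k)) (filtF_tF (k := k)) rfl)
    · exact GoodVec.zero _

theorem single_supRow (l : LC) :
    (Pi.single l 1 : LC → Lam k) ∈ supRow k l.lv l.rv 0 := by
  rw [mem_supRow]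
  intro c
  by_cases h : c = l
  · subst h; rw [if_pos rfl, Pi.single_eq_same]
    exact ⟨supF_one k _, by simp⟩
  · rw [Pi.single_eq_of_ne h]; exact zero_mem _

theorem ell_mem {l : LC} (b : Fin 3) : ell (k := k) l ∈ supT k (l.lv, b) (l.rv, b) := by
  rw [mem_supT]
  refine ⟨by simp, ?_⟩
  rw [sub_self]
  have : (fun c => Tinf.cell k c (ell (k := k) l)) = Pi.single l 1 := by
    funext c; simp [Pi.single_apply]
  rw [this]
  exact single_supRow l

theorem Li_mem {v' v : Vtx} {x : Lam k}
    (hx : x ∈ supL k v'.1 v.1 ((v'.2.val : ℤ) - v.2.val)) : Li x ∈ supT k v' v := by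
  rw [mem_supT]
  refine ⟨by simpa using hx, ?_⟩
  rw [mem_supRow]
  intro c
  simp

theorem filtT_Li {n : ℤ} {x : Lam k} (hx : filtL k n x = x) : filtT k n (Li x) = Li x :=
  ext_cell (by simp [filtT, hx]) fun c => by simp [filtT]

theorem filtT_ell (l : LC) : filtT k (4 + l.deg) (ell (k := k) l) = ell l := by
  refine ext_cell (by simp [filtT]) fun c => ?_
  simp only [filtT, LinearMap.coe_mk, AddHom.coe_mk, Tinf.cell_mk, cell_ell]
  split_ifs with h
  · subst h
    refine Lam.ext ?_ ?_ <;> simp [filtL, filtF, part_one]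
  · simp

/-- The entries of a row of `Φ` are well placed. -/
theorem phiL_row {l : LC} {p q : Pre} (hl : l.rv = vA p) {a : Lam k} (h : Good p q a) (l' : LC) :
    (l'.rv ≠ vA q → phiL k a l l' = 0) ∧
      phiL k a l l' ∈ supL k l.lv l'.lv (dlt p q) ∧
      filtL k (l.deg + ((pdeg p : ℤ) - 1 - pdeg q) - l'.deg) (phiL k a l l') = phiL k a l l' := by
  have h1 := phiL_row_sup k (single_supRow (k := k) l) (hl ▸ h.1)
  rw [zero_add, mem_supRow] at h1
  have h2 := h1 l'
  simp only [Matrix.single_vecMul, one_smul, Matrix.row_apply] at h2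
  have h3 : phiL k a l l' ∈ supL k l.lv l'.lv (dlt p q) := by
    split_ifs at h2
    · exact h2
    · rw [Submodule.mem_bot] at h2; rw [h2]; exact zero_mem _
  refine ⟨fun hne => by rw [if_neg hne, Submodule.mem_bot] at h2; exact h2, h3, ?_⟩
  have hy : Li a ∈ supT k (l.rv, (vert p).2) (vert q) :=
    Li_mem (by show a ∈ supL k l.rv (vA q) _; rw [hl]; exact h.1)
  have h4 := congrArg (Tinf.cell k l')
    (HomT.mul k (filtT_ell l) (filtT_Li h.2.2))
  have e : Tinf.cell k l' (ell (k := k) l * Li a) = phiL k a l l' := by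
    rw [cell_mul, lam_ell, zero_mul, zero_add, Finset.sum_eq_single l]
    · rw [cell_ell, if_pos rfl, one_mul, lam_Li]
    · intro c _ hc; rw [cell_ell, if_neg hc, zero_mul]
    · intro h; exact absurd (Finset.mem_univ l) h
  simp only [filtT, LinearMap.coe_mk, AddHom.coe_mk, Tinf.cell_mk, e] at h4
  convert h4 using 3
  ring

/-- The differential in `Λ` does not shorten chains. -/
theorem DL_cons_len (l : LC) : ∀ (ls : List LC) (j : ℕ) (b : BC) (q : Pre),
    q.1.length ≤ ls.length → DL k (l :: ls) j b q = 0 := by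
  intro ls
  induction ls generalizing l with
  | nil =>
    intro j b q hq
    have e : ∀ (x : LC) (p : List LC) (pj : ℕ × BC), ((x :: p, pj) : Pre) ≠ q := by
      intro x p pj h; rw [← h] at hq; simp at hq
    simp [DL, Finsupp.sum, e]
  | cons m ls ih =>
    intro j b q hq
    rw [DL]
    simp only [Finsupp.sub_apply, Finsupp.neg_apply, Finsupp.sum, Finsupp.finsetSum_apply]
    rw [Finset.sum_eq_zero, Finset.sum_eq_zero]
    · simp
    · intro p hp
      refine Finset.sum_eq_zero fun x _ => Finsupp.single_eq_of_ne fun e => ?_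
      refine Finsupp.mem_support_iff.1 hp (ih m j b p ?_)
      rw [e] at hq; simpa using hq
    · intro x _
      refine Finsupp.single_eq_of_ne fun e => ?_
      rw [e] at hq; simp at hq

/-- The coefficients of the differential are well placed. -/
theorem goodVec_DL : ∀ (ls : List LC) (j : ℕ) (b : BC), Ok ls j b →
    GoodVec (ls, j, b) (DL k ls j b) := by
  intro ls
  induction ls with
  | nil => exact fun j b _ => goodVec_dTower j b
  | cons l ls ih =>
    intro j b hok
    refine (GoodVec.sum _ _ fun l' _ => GoodVec.single fun h => ?_).neg.sub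
      (GoodVec.sum _ _ fun q hq => GoodVec.sum _ _ fun l' _ => GoodVec.single fun h => ?_)
    · rcases l with _ | i | _ <;> rcases l' with _ | i' | _ <;> simp [Nm] at h
      have hX : ∀ i, Lam.of k (gX k i) ∈ supL k 1 0 0 := fun i => supL_of k (supF_gen k (.x i))
      refine ⟨supL_cast (?_ : _ ∈ supL k 1 0 0) (by simp [dlt, vert]), hok, ?_⟩
      · rw [Nm]; split_ifs
        · exact hX 1
        · exact neg_mem (hX 0)
      · have hd : ((pdeg (LC.H :: ls, j, b) : ℤ) - 1 - pdeg (LC.F i' :: ls, j, b)) = 0 := by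
          simp [pdeg, LC.deg]; omega
        rw [hd, Nm]
        split_ifs
        · exact filtL_of (filtF_gen (k := k) (.x 1))
        · rw [map_neg]; exact congrArg Neg.neg (filtL_of (filtF_gen (k := k) (.x 0)))
    · have hg := ih j b hok.2 q (Finsupp.mem_support_iff.1 hq)
      obtain ⟨h1, h2, h3⟩ := phiL_row (l := l) (p := (ls, j, b)) hok.1 hg l'
      have g : Good (l :: ls, j, b) (l' :: q.1, q.2)
          (sgL k (phiL k (DL k ls j b q) l l')) := by
        refine ⟨supL_sgL k h2, ⟨?_, hg.2.1⟩, ?_⟩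
        · by_contra hne
          exact h (by rw [h1 hne, map_zero, smul_zero])
        · have hd : ((pdeg (l :: ls, j, b) : ℤ) - 1 - pdeg (l' :: q.1, q.2))
              = l.deg + ((pdeg (ls, j, b) : ℤ) - 1 - pdeg q) - l'.deg := by
            simp [pdeg]; omega
          rw [hd]
          exact filtL_sgL h3
      exact g.smul _

theorem coef_mem {p q : Pre} (hp : Ok p.1 p.2.1 p.2.2) :
    coef k p q ∈ supT k (vert p) (vert q) := by
  rw [mem_supT]
  refine ⟨?_, ?_⟩
  · rw [coef, Tinf.lam_mk]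
    by_cases h : DL k p.1 p.2.1 p.2.2 q = 0
    · rw [h]; exact zero_mem _
    · exact (goodVec_DL _ _ _ hp q h).1
  · rw [mem_supRow]
    intro c
    simp only [coef, Tinf.cell_mk]
    by_cases h : p.1 = c :: q.1 ∧ p.2 = q.2
    · obtain ⟨ps, pj⟩ := p
      obtain ⟨qs, qj⟩ := q
      obtain ⟨h1, h2⟩ := h
      dsimp only at h1 h2
      subst h1 h2
      have hc : c.rv = (vert (qs, pj)).1 := hp.1
      simp only [hc, if_true, and_self]
      refine supL_cast (Δ := 0) ?_ (by simp [vert])
      exact ⟨supF_one k _, by simp⟩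
    · rw [if_neg h]; exact zero_mem _

theorem coef_ne_zero {p q : Pre} (hp : Ok p.1 p.2.1 p.2.2) (h : coef k p q ≠ 0) :
    Ok q.1 q.2.1 q.2.2 ∧ pdeg q < pdeg p ∧
      filtT k ((pdeg p : ℤ) - 1 - pdeg q) (coef k p q) = coef k p q := by
  by_cases hlink : ∃ l, p.1 = l :: q.1 ∧ p.2 = q.2
  · obtain ⟨l, h1, h2⟩ := hlink
    obtain ⟨ps, pj⟩ := p
    obtain ⟨qs, qj⟩ := q
    dsimp only at h1 h2 hp ⊢
    subst h1 h2
    have hd : ((pdeg (l :: qs, pj) : ℤ) - 1 - pdeg (qs, pj)) = 4 + l.deg := by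
      simp [pdeg]; omega
    refine ⟨hp.2, by simp [pdeg], ?_⟩
    have hz : DL k (l :: qs) pj.1 pj.2 (qs, pj) = 0 := DL_cons_len _ _ _ _ _ (le_refl _)
    rw [hd]
    refine ext_cell (by simp [coef, filtT, hz]) fun c => ?_
    have := congrArg (Tinf.cell k c) (filtT_ell (k := k) l)
    simp only [coef, filtT, LinearMap.coe_mk, AddHom.coe_mk, Tinf.cell_mk, cell_ell] at this ⊢
    by_cases e : c = l
    · subst e; simpa using this
    · simp [Ne.symm e]
  · have hcell : ∀ c, ¬(p.1 = c :: q.1 ∧ p.2 = q.2) := fun c hc => hlink ⟨c, hc⟩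
    have hne : DL k p.1 p.2.1 p.2.2 q ≠ 0 := fun hz =>
      h (ext_cell (by simp [coef, hz]) fun c => by simp [coef, hcell c])
    obtain ⟨-, h2, h3⟩ := goodVec_DL _ _ _ hp q hne
    refine ⟨h2, ?_, ext_cell (by simp [coef, filtT, h3]) fun c => by simp [coef, filtT, hcell c]⟩
    by_contra hle
    refine hne ?_
    rw [← h3]
    refine Lam.ext ?_ ?_ <;> simp [filtL, filtF] <;>
      refine MonoidAlgebra.ext (Finsupp.ext fun m => ?_) <;>
      rw [part_apply, degOf_eq] <;> simp <;> omega

end P195.Model
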