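import Vale.Agent.P195.Algebra.Dga
import Vale.Agent.P195.Model.Cells

/-!
P195: elements and entries of the window algebra `T`.
-/

namespace P195.Model

open P195.Algebra

variable {k : Type} [Field k]

/-- `λ` inside `T∞`. -/
noncomputable def Li : Lam k →ₐ[k] Tinf k := TrivSqZeroExt.inlAlgHom k (Lam k) _

/-- A row inside `T∞`. -/
noncomputable def Lr (l : LC → Lam k) : Tinf k := Tinf.mk k 0 l

/-- The element `ℓ_l`. -/
noncomputable def ell (l : LC) : Tinf k := Lr (Pi.single l 1)

theorem ext_cell {x y : Tinf k} (h1 : Tinf.lam k x = Tinf.lam k y)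
    (h2 : ∀ c, Tinf.cell k c x = Tinf.cell k c y) : x = y :=
  P195.Algebra.Tinf.ext h1 (funext h2)

section Comp

variable (x y : Tinf k) (c : LC)

@[simp] theorem lam_Li (a : Lam k) : Tinf.lam k (Li a) = a := rfl
@[simp] theorem cell_Li (a : Lam k) : Tinf.cell k c (Li a) = 0 := rfl
@[simp] theorem lam_Lr (l : LC → Lam k) : Tinf.lam k (Lr l) = 0 := Tinf.lam_mk k _ _
@[simp] theorem cell_Lr (l : LC → Lam k) : Tinf.cell k c (Lr l) = l c := Tinf.cell_mk k _ _ _

theorem cell_mul : Tinf.cell k c (x * y) =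
    Tinf.lam k x * Tinf.cell k c y + ∑ m, Tinf.cell k m x * phiL k (Tinf.lam k y) m c :=
  congrFun (Ext1.row_mul (φ := phiL k) x y) c

theorem cell_dT : Tinf.cell k c (dT k x) =
    dL k (Tinf.cell k c x) + ∑ m, sgL k (Tinf.cell k m x) * Nm k m c :=
  Tinf.cell_mk k _ _ _

theorem cell_sgT :
    Tinf.cell k c (sgT k x) = LC.sgn k c • sgL k (Tinf.cell k c x) :=
  Tinf.cell_mk k _ _ _

end Comp

theorem dL_one : dL k (1 : Lam k) = 0 := Lam.ext (by simp) (by simp)

@[simp] theorem cell_ell (l c : LC) :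
    Tinf.cell k c (ell (k := k) l) = if c = l then 1 else 0 := by
  simp [ell, Pi.single_apply]

@[simp] theorem lam_ell (l : LC) : Tinf.lam k (ell (k := k) l) = 0 := lam_Lr _

theorem ext_entry {x y : T k} (h : ∀ v' v, T.entry k v' v x = T.entry k v' v y) : x = y :=
  Subtype.ext (Matrix.ext h)

theorem entry_mem (x : T k) (v' v : Vtx) : T.entry k v' v x ∈ supT k v' v := x.2 v' v

@[simp] theorem entry_single (v' v w' w : Vtx) (x : supT k v' v) :
    T.entry k w' w (T.single k v' v x) = if v' = w' ∧ v = w then x.1 else 0 :=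
  Matrix.single_apply ..

theorem entry_mul (x y : T k) (v' v : Vtx) :
    T.entry k v' v (x * y) = ∑ w, T.entry k v' w x * T.entry k w v y := by
  show (x.1 * y.1) v' v = _
  rw [Matrix.mul_apply]
  rfl

theorem entry_idem (v w' w : Vtx) :
    T.entry k w' w (T.idem k v) = if v = w' ∧ v = w then 1 else 0 :=
  entry_single _ _ _ _ _

theorem entry_idem_mul (v : Vtx) (x : T k) (v' w : Vtx) :
    T.entry k v' w (T.idem k v * x) = if v = v' then T.entry k v w x else 0 := by
  rw [entry_mul, Finset.sum_eq_single v]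
  · rw [entry_idem]; split_ifs <;> simp_all
  · intro u _ hu; simp [entry_idem, Ne.symm hu]
  · simp

theorem entry_mul_idem (v : Vtx) (x : T k) (v' w : Vtx) :
    T.entry k v' w (x * T.idem k v) = if v = w then T.entry k v' v x else 0 := by
  rw [entry_mul, Finset.sum_eq_single v]
  · rw [entry_idem]; split_ifs <;> simp_all
  · intro u _ hu; simp [entry_idem, Ne.symm hu]
  · simp

end P195.Model
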