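import Vale.Agent.P195.Model.SelfCol
import Vale.Agent.P195.Model.Rows

/-!
P195, bridge: the rows on the cells without links die (kill the coefficient of `u` in layer `j`
by the part without `u` in layer `j - 1`; what is left then vanishes by degrees).
-/

namespace P195.Model

open P195.Algebra

variable {k : Type} [Field k]

theorem mwt_bound {a' a : Fin 2} {Δ n : ℤ} {x : F k} (hΔ : Δ ≤ 2) (hx : x ∈ supF k a' a Δ)
    (hh : HomF k n x) (hn : n < 0 ∨ 2 < n) : x = 0 := by
  refine MonoidAlgebra.coeff_injective (Finsupp.ext fun m => ?_)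
  by_contra hm
  have hm' : x.coeff m ≠ 0 := hm
  have h : (mwt m : ℤ) = Δ := ((MonoidAlgebra.mem_supported.1 hx) (Finsupp.mem_support_iff.2 hm')).2
  have h2 := mdeg_le m
  have h3 : (mdeg m : ℤ) = n := by
    by_contra h3
    have h4 := congrArg (fun y : F k => y.coeff m) hh
    simp only [filtF, part_apply, degOf_eq, if_neg h3] at h4
    exact hm' h4.symm
  omega

theorem dlt_le (c : Cell) (v : Vtx) : ((vert c.1).2.val : ℤ) - v.2.val ≤ 2 := by
  have := (vert c.1).2.isLt
  omega

theorem im_DL_base (j : ℕ) (b : BC) (q : Cell) :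
    Lam.im k (DL k [] j b q.1) = if q.1 = ([], j - 1, b) then (j : k) • (1 : F k) else 0 := by
  obtain ⟨⟨ls, i, b'⟩, hq⟩ := q
  cases ls with
  | cons l ls =>
    rw [dTower_chain k j b (by simp), map_zero, if_neg (by simp)]
  | nil =>
    rw [dTower_apply, map_add, map_add, apply_ite (Lam.im k), apply_ite (Lam.im k),
      apply_ite (Lam.im k)]
    simp only [Lam.im_of, map_zero, ite_self, add_zero, zero_add, map_smul, Lam.u, Lam.im_mk,
      Prod.mk.injEq, true_and]
    rcases j with _ | j
    · simp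
    · exact if_congr ⟨fun h => ⟨by omega, h.2⟩, fun h => ⟨by omega, h.2⟩⟩ rfl rfl

/-- The coefficient of `u` in `colD` on a base cell, for a column without such coefficients. -/
theorem im_colD_base {x : Cell → Tinf k}
    (him : ∀ (i : ℕ) (b' : BC) (l : LC), Lam.im k (Tinf.cell k l (x (base i b'))) = 0)
    (j : ℕ) (b : BC) (l : LC) :
    Lam.im k (Tinf.cell k l (colD x (base j b)))
      = sg k (DF k (Lam.re k (Tinf.cell k l (x (base j b)))))
        - (j : k) • sg k (Lam.re k (Tinf.cell k l (x (base (j - 1) b)))) := by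
  have hq : ∀ q : Cell, Lam.re k (DL k [] j b q.1) * Lam.im k (Tinf.cell k l (x q)) = 0 := by
    intro q
    obtain ⟨⟨ls, i, b'⟩, hq⟩ := q
    cases ls with
    | cons m ls => rw [dTower_chain k j b (by simp), map_zero, zero_mul]
    | nil => exact (congrArg _ (him i b' l)).trans (mul_zero _)
  rw [cell_colD, map_sub, map_add, dL_im, him, map_zero, add_zero, map_sum, map_sum,
    Finset.sum_eq_zero (fun m _ => show Lam.im k
      (sgL k (Tinf.cell k m (x (base j b))) * Nm k m l) = 0 by
        rw [Lam.im_mul, sgL_im, him, map_zero, neg_zero, zero_mul, add_zero, im_Nm', mul_zero]),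
    add_zero]
  congr 1
  have hterm : ∀ q : Cell,
      Lam.im k (DL k [] j b q.1 * Tinf.cell k l (x q)
        + ∑ m, if ([] : List LC) = m :: q.1.1 ∧ ((j, b) : ℕ × BC) = q.1.2 then
            phiL k (Tinf.lam k (x q)) m l else 0)
      = (if q.1 = ([], j - 1, b) then (j : k) • (1 : F k) else 0)
        * sg k (Lam.re k (Tinf.cell k l (x q))) := by
    intro q
    rw [Finset.sum_eq_zero (fun m _ => if_neg (fun h => List.cons_ne_nil _ _ h.1.symm)), add_zero,
      Lam.im_mul, hq, zero_add, im_DL_base]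
  refine (Finset.sum_congr rfl fun q _ => hterm q).trans ?_
  rw [Finset.sum_eq_single (base (j - 1) b)]
  · simp [base]
  · intro q _ hne
    rw [if_neg (fun h : q.1 = ([], j - 1, b) => hne (Subtype.ext h)), zero_mul]
  · intro h
    rcases j with _ | j
    · simp
    · exact absurd (mem_low.2 (by simp [base, pdeg])) h
where
  im_Nm' {c c' : LC} : Lam.im k (Nm k c c') = 0 := by
    cases c <;> cases c' <;> simp [Nm]
    split_ifs <;> simp

/-- Solve downwards from a bound. -/
noncomputable def desc (a : ℕ → F k) : ℕ → ℕ → F k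
  | 0, _ => 0
  | f + 1, j => ((j + 1 : ℕ) : k)⁻¹ • sg k (sg k (DF k (desc a f (j + 1))) - a (j + 1))

theorem desc_eq [CharZero k] (a : ℕ → F k) (N : ℕ) (hN : ∀ j, N ≤ j → a j = 0) (j : ℕ) :
    sg k (DF k (desc a (N - (j + 1)) (j + 1))) - ((j + 1 : ℕ) : k) • sg k (desc a (N - j) j)
      = a (j + 1) := by
  by_cases h : j < N
  · rw [show N - j = (N - (j + 1)) + 1 by omega, desc, map_smul, sg_sg, smul_smul,
      mul_inv_cancel₀ (Nat.cast_ne_zero.2 (by omega)), one_smul, sub_sub_cancel]
  · rw [show N - (j + 1) = 0 by omega, show N - j = 0 by omega, hN (j + 1) (by omega)]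
    simp [desc]

theorem desc_zero {a : ℕ → F k} (ha : ∀ j, a j = 0) : ∀ f j, desc a f j = 0
  | 0, _ => rfl
  | f + 1, j => by simp [desc, desc_zero ha f, ha]

theorem desc_mem {a' a0 : Fin 2} {Δ n : ℤ} {a : ℕ → F k}
    (h : ∀ j : ℕ, a (j + 1) ∈ supF k a' a0 Δ ∧ HomF k (n + 2 * j) (a (j + 1))) :
    ∀ f j : ℕ, desc a f j ∈ supF k a' a0 Δ ∧ HomF k (n + 2 * j) (desc a f j)
  | 0, j => ⟨zero_mem _, HomF.zero k _⟩
  | f + 1, j => by
    obtain ⟨h1, h2⟩ := desc_mem h f (j + 1)
    exact ⟨Submodule.smul_mem _ _ (supF_sg k (sub_mem (supF_sg k (supF_DF k h1)) (h j).1)),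
      HomF.smul k _ ((HomF.sub k (((DF_hom k h2).sg_mem k).of_eq k (by push_cast; ring))
        (h j).2).sg_mem k)⟩

/-- The rows on the base cells are coboundaries. -/
theorem exists_killBase [CharZero k] (hsq : SqLam k) {v : Vtx} {E : ℤ} (hE : 0 < E)
    {x : Cell → Tinf k} (hx : IsCol v E x) (hd : ∀ c, colD x c = 0) :
    ∃ y : Cell → Tinf k, IsCol v (E - 1) y ∧ ∀ (j : ℕ) (b : BC) (l : LC),
      Tinf.cell k l ((x - colDelta y) (base j b)) = 0 := by
  classical
  let s : BC → k := fun b => (-1 : k) ^ b.deg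
  let a : BC → LC → ℕ → F k := fun b l j => s b • Lam.im k (Tinf.cell k l (x (base j b)))
  let N : ℕ := (E + 9).toNat
  let R : ℕ → BC → LC → F k := fun j b l => desc (a b l) (N - j) j
  have hpd : ∀ (j : ℕ) (b : BC), (pdeg (base j b).1 : ℤ) = 2 * j + b.deg := by
    intro j b
    simp [base, pdeg]
  have hN : ∀ b l j, N ≤ j → a b l j = 0 := by
    intro b l j hj
    by_cases hl : l.rv = v.1
    · obtain ⟨h1, h2⟩ := hx.cell (base j b) hl
      rw [mem_supL] at h1
      refine smul_eq_zero_of_right _ (mwt_bound (dlt_le _ v) h1.2 ((homL_iff k).1 h2).2 (.inr ?_))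
      have : l.deg ≤ 1 := by cases l <;> simp [LC.deg]
      rw [hpd]
      simp only [N] at hj
      omega
    · simp [a, cell_off hx (base j b) hl]
  let y : Cell → Tinf k := fun c => Tinf.mk k 0 fun l =>
    if c.1.1 = [] then Lam.of k (R c.1.2.1 c.1.2.2 l) else 0
  have hy : IsCol v (E - 1) y := by
    refine isCol_mk (fun c => ⟨zero_mem _, HomL.zero k _⟩) fun c l => ⟨fun hl => ?_, fun hl => ?_⟩
    · obtain ⟨⟨ls, j, b⟩, hc⟩ := c
      cases ls with
      | cons m ls => rw [if_neg (by simp)]; exact ⟨zero_mem _, HomL.zero k _⟩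
      | nil =>
        rw [if_pos rfl]
        have h := desc_mem (a := a b l) (a' := b.vtx.1) (a0 := l.lv)
          (Δ := (b.vtx.2.val : ℤ) - v.2.val) (n := (b.deg : ℤ) - E + 1 - 4 - l.deg)
          (fun i => by
            obtain ⟨h1, h2⟩ := hx.cell (base (i + 1) b) hl
            rw [mem_supL] at h1
            exact ⟨Submodule.smul_mem _ _ h1.2, HomF.smul k _ (((homL_iff k).1 h2).2.of_eq k (by
              rw [hpd]; push_cast; ring))⟩) (N - j) j
        refine ⟨supL_of k h.1, homL_of k (h.2.of_eq k ?_)⟩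
        simp [pdeg]
        ring
    · split_ifs
      · have e : R c.1.2.1 c.1.2.2 l = 0 :=
          desc_zero (fun i => by simp [a, cell_off hx (base i c.1.2.2) hl]) _ _
        rw [e, map_zero]
      · rfl
  refine ⟨y, hy, ?_⟩
  set z := x - colDelta y with hz
  have hzc : IsCol v E z := hx.sub (by simpa using hy.colDelta)
  have hzd : ∀ c, colD z c = 0 := fun c => by
    rw [hz, colD_sub, hd, colD_colDelta hsq hy, sub_zero]
  -- no coefficient of `u` is left
  have him : ∀ (j : ℕ) (b : BC) (l : LC), Lam.im k (Tinf.cell k l (z (base j b))) = 0 := by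
    intro j b l
    rcases j with _ | j
    · by_cases hl : l.rv = v.1
      · obtain ⟨h1, h2⟩ := hzc.cell (base 0 b) hl
        rw [mem_supL] at h1
        refine mwt_bound (dlt_le _ v) h1.2 ((homL_iff k).1 h2).2 (.inl ?_)
        have : b.deg ≤ 3 := by cases b <;> simp [BC.deg]
        rw [hpd]
        omega
      · simp [cell_off hzc (base 0 b) hl]
    · have hyR : ∀ (i : ℕ) (b' : BC) (m : LC),
          Tinf.cell k m (y (base i b')) = Lam.of k (R i b' m) := by
        intro i b' m
        simp [y, base]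
      have hs : ((-1 : k) ^ pdeg (base (j + 1) b).1) = s b := by
        simp [s, base, pdeg, pow_add, pow_mul]
      rw [hz, Pi.sub_apply, map_sub, map_sub, colDelta, map_smul, map_smul, hs,
        im_colD_base (fun i b' m => by simp [hyR]) (j + 1) b l, hyR, hyR, Lam.re_of, Lam.re_of,
        Nat.add_sub_cancel]
      simp only [R, desc_eq (a b l) N (hN b l) j, a, smul_smul]
      simp [s, ← pow_add, ← two_mul]
  intro j b l
  refine Lam.ext ?_ (by rw [map_zero]; exact him j b l)
  by_cases hl : l.rv = v.1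
  swap; · rw [cell_off hzc (base j b) hl, map_zero]
  -- the layers die from the top
  have hbig : ∀ i : ℕ, N ≤ i → Lam.re k (Tinf.cell k l (z (base i b))) = 0 := by
    intro i hi
    obtain ⟨h1, h2⟩ := hzc.cell (base i b) hl
    rw [mem_supL] at h1
    refine mwt_bound (dlt_le _ v) h1.1 ((homL_iff k).1 h2).1 (.inr ?_)
    have : l.deg ≤ 1 := by cases l <;> simp [LC.deg]
    rw [hpd]
    simp only [N] at hi
    omega
  have hstep : ∀ f i : ℕ, N ≤ i + f → Lam.re k (Tinf.cell k l (z (base i b))) = 0 := by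
    intro f
    induction f with
    | zero => exact fun i hi => hbig i hi
    | succ f ih =>
      intro i hi
      have h := congrArg (fun t => Lam.im k (Tinf.cell k l t)) (hzd (base (i + 1) b))
      simp only [map_zero] at h
      rw [im_colD_base him, ih (i + 1) (by omega), map_zero, map_zero, zero_sub, neg_eq_zero,
        smul_eq_zero, Nat.add_sub_cancel] at h
      rw [← sg_sg k (Lam.re k (Tinf.cell k l (z (base i b)))),
        h.resolve_left (Nat.cast_ne_zero.2 (by omega)), map_zero]
  rw [map_zero]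
  exact hstep N j (by omega)

end P195.Model
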