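import Vale.Agent.P195.Model.Complex

/-!
P195, bridge: cochains with values in `T`, column by column.
-/

namespace P195.Model

open P195.Algebra

variable {k : Type} [Field k]

/-- A column of a cochain of degree `m` with values in `T`. -/
def IsCol (v : Vtx) (m : ℤ) (x : Cell → Tinf k) : Prop :=
  ∀ c : Cell, x c ∈ supT k (vert c.1) v ∧ HomT k ((pdeg c.1 : ℤ) - m) (x c)

theorem IsCol.zero (v : Vtx) (m : ℤ) : IsCol v m (0 : Cell → Tinf k) :=
  fun _ => ⟨zero_mem _, map_zero _⟩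

theorem IsCol.add {v : Vtx} {m : ℤ} {x y : Cell → Tinf k} (hx : IsCol v m x) (hy : IsCol v m y) :
    IsCol v m (x + y) := fun c =>
  ⟨add_mem (hx c).1 (hy c).1, by
    show filtT k _ (x c + y c) = x c + y c
    rw [map_add, (hx c).2, (hy c).2]⟩

theorem IsCol.sub {v : Vtx} {m : ℤ} {x y : Cell → Tinf k} (hx : IsCol v m x) (hy : IsCol v m y) :
    IsCol v m (x - y) := fun c =>
  ⟨sub_mem (hx c).1 (hy c).1, by
    show filtT k _ (x c - y c) = x c - y c
    rw [map_sub, (hx c).2, (hy c).2]⟩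

/-- The difference of the two differentials on a column. -/
noncomputable def colD (x : Cell → Tinf k) (c : Cell) : Tinf k :=
  dT k (x c) - ∑ q ∈ low (pdeg c.1), coef k c.1 q.1 * x q

/-- The coboundary of a column. -/
noncomputable def colDelta (x : Cell → Tinf k) (c : Cell) : Tinf k :=
  ((-1 : k) ^ pdeg c.1) • colD x c

theorem colD_add (x y : Cell → Tinf k) (c : Cell) : colD (x + y) c = colD x c + colD y c := by
  simp only [colD, Pi.add_apply, map_add, mul_add, Finset.sum_add_distrib]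
  abel

theorem colD_sub (x y : Cell → Tinf k) (c : Cell) : colD (x - y) c = colD x c - colD y c := by
  simp only [colD, Pi.sub_apply, map_sub, mul_sub, Finset.sum_sub_distrib]
  abel

theorem colDelta_zero (c : Cell) : colDelta (0 : Cell → Tinf k) c = 0 := by
  simp [colDelta, colD]

theorem colDelta_add (x y : Cell → Tinf k) : colDelta (x + y) = colDelta x + colDelta y :=
  funext fun c => by simp [colDelta, colD_add, smul_add]

theorem colDelta_congr {x y : Cell → Tinf k} (c : Cell) (h : ∀ q : Cell, pdeg q.1 ≤ pdeg c.1 → x q = y q) :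
    colDelta x c = colDelta y c := by
  simp only [colDelta, colD, h c le_rfl]
  congr 2
  exact Finset.sum_congr rfl fun q hq => by rw [h q (mem_low.1 hq).le]

theorem coef_zero_of_le {c q : Cell} (h : pdeg c.1 ≤ pdeg q.1) : coef k c.1 q.1 = 0 := by
  by_contra h0
  have := (coef_ne_zero (k := k) c.2 h0).2.1
  omega

theorem IsCol.colDelta {v : Vtx} {m : ℤ} {x : Cell → Tinf k} (hx : IsCol v m x) :
    IsCol v (m + 1) (colDelta x) := fun c => by
  have h1 : colD x c ∈ supT k (vert c.1) v :=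
    sub_mem (supT_dT k (hx c).1) (Submodule.sum_mem _ fun q _ =>
      supT_mul k (coef_mem c.2) (hx q).1)
  have h2 : HomT k ((pdeg c.1 : ℤ) - (m + 1)) (colD x c) := by
    show filtT k _ (colD x c) = colD x c
    rw [colD, map_sub, map_sum]
    congr 1
    · have := dT_hom k (hx c).2
      rwa [show (pdeg c.1 : ℤ) - (m + 1) = pdeg c.1 - m - 1 by ring]
    · refine Finset.sum_congr rfl fun q _ => ?_
      by_cases h : coef k c.1 q.1 = 0
      · simp [h]
      · have := HomT.mul k (coef_ne_zero c.2 h).2.2 (hx q).2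
        rwa [show (pdeg c.1 : ℤ) - (m + 1) = pdeg c.1 - 1 - pdeg q.1 + (pdeg q.1 - m) by ring]
  refine ⟨Submodule.smul_mem _ _ h1, ?_⟩
  show filtT k _ (_ • colD x c) = _ • colD x c
  rw [map_smul, h2]

theorem sgT_coef (c : Cell) (q : Pre) :
    ((-1 : k) ^ pdeg q) • coef k c.1 q = -(((-1 : k) ^ pdeg c.1) • sgT k (coef k c.1 q)) := by
  by_cases h : coef k c.1 q = 0
  · simp [h]
  obtain ⟨-, hlt, hhom⟩ := coef_ne_zero (k := k) c.2 h
  have e : sgT k (coef k c.1 q) = ((-1 : k) ^ (pdeg c.1 - 1 - pdeg q)) • coef k c.1 q := by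
    rw [HomT.sgT k hhom]
    congr 2
    omega
  rw [e, smul_smul, ← pow_add, ← neg_smul]
  congr 1
  have : pdeg c.1 + (pdeg c.1 - 1 - pdeg q) + (1 + pdeg q) = 2 * pdeg c.1 := by omega
  rcases Nat.even_or_odd (pdeg q) with h' | h' <;>
  rcases Nat.even_or_odd (pdeg c.1 + (pdeg c.1 - 1 - pdeg q)) with h'' | h'' <;>
    simp [h'.neg_one_pow, h''.neg_one_pow] <;>
    simp [Nat.even_iff, Nat.odd_iff] at h' h'' <;> omega

theorem tele {ι G : Type} [Ring G] (s : Finset ι) (a b : ι → G) (f : ι → ι → G)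
    (h : ∀ r, ∑ q ∈ s, f q r = -a r) :
    -(∑ r ∈ s, (a r + b r)) + ∑ q ∈ s, (b q - ∑ r ∈ s, f q r) = 0 := by
  rw [Finset.sum_add_distrib, Finset.sum_sub_distrib, Finset.sum_comm (f := f),
    Finset.sum_congr rfl fun r _ => h r, Finset.sum_neg_distrib]
  abel

theorem colD_colDelta_eq (x : Cell → Tinf k) (c : Cell) :
    colD (colDelta x) c = ((-1 : k) ^ pdeg c.1) •
      (dT k (colD x c) + ∑ q ∈ low (pdeg c.1), sgT k (coef k c.1 q.1) * colD x q) := by
  rw [colD, smul_add, Finset.smul_sum, sub_eq_add_neg, ← Finset.sum_neg_distrib]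
  congr 1
  · simp [colDelta]
  · refine Finset.sum_congr rfl fun q _ => ?_
    rw [colDelta, mul_smul_comm, ← smul_mul_assoc, sgT_coef, neg_mul, neg_neg, smul_mul_assoc]

theorem sgT_coef_colD (x : Cell → Tinf k) {c q : Cell} (hq : q ∈ low (pdeg c.1)) :
    sgT k (coef k c.1 q.1) * colD x q = sgT k (coef k c.1 q.1) * dT k (x q)
      - ∑ r ∈ low (pdeg c.1), sgT k (coef k c.1 q.1) * coef k q.1 r.1 * x r := by
  rw [colD, mul_sub, Finset.mul_sum]
  refine congrArg (fun z => sgT k (coef k c.1 q.1) * dT k (x q) - z) ?_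
  simp only [mul_assoc]
  refine Finset.sum_subset (fun r hr => mem_low.2 ?_) fun r _ hr => ?_
  · have := mem_low.1 hr; have := mem_low.1 hq; omega
  · rw [coef_zero_of_le (le_of_not_gt fun h => hr (mem_low.2 h)), zero_mul, mul_zero]

theorem coef_sq_mul (hsq : SqLam k) (x : Cell → Tinf k) (c r : Cell) :
    ∑ q ∈ low (pdeg c.1), sgT k (coef k c.1 q.1) * coef k q.1 r.1 * x r
      = -(dT k (coef k c.1 r.1) * x r) := by
  have h := coef_sq hsq c.2 r.1
  rw [← sum_low _ (fun q => sgT k (coef k c.1 q) * coef k q r.1), add_eq_zero_iff_neg_eq] at h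
  rw [← Finset.sum_mul, ← h, neg_mul]

theorem dT_colD {v : Vtx} {m : ℤ} {x : Cell → Tinf k} (hx : IsCol v m x) (c : Cell) :
    dT k (colD x c) = -∑ r ∈ low (pdeg c.1),
      (dT k (coef k c.1 r.1) * x r + sgT k (coef k c.1 r.1) * dT k (x r)) := by
  rw [colD, map_sub, map_sum, dT_dT, zero_sub]
  refine congrArg Neg.neg (Finset.sum_congr rfl fun r _ => ?_)
  exact dT_mul k (coef_mem (k := k) (q := r.1) c.2) (hx r).1

/-- A coboundary is a cocycle. -/
theorem colD_colDelta (hsq : SqLam k) {v : Vtx} {m : ℤ} {x : Cell → Tinf k} (hx : IsCol v m x)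
    (c : Cell) : colD (colDelta x) c = 0 := by
  rw [colD_colDelta_eq, dT_colD hx, Finset.sum_congr rfl fun q hq => sgT_coef_colD x hq,
    tele (low (pdeg c.1)) _ _ _ fun r => coef_sq_mul hsq x c r, smul_zero]

/-! ### The components of `colD` -/

theorem lam_colD (x : Cell → Tinf k) (c : Cell) :
    Tinf.lam k (colD x c) = dL k (Tinf.lam k (x c))
      - ∑ q ∈ low (pdeg c.1), DL k c.1.1 c.1.2.1 c.1.2.2 q.1 * Tinf.lam k (x q) := by
  simp [colD, map_sum, coef]

theorem cell_colD (x : Cell → Tinf k) (c : Cell) (l' : LC) :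
    Tinf.cell k l' (colD x c) = dL k (Tinf.cell k l' (x c))
      + ∑ m, sgL k (Tinf.cell k m (x c)) * Nm k m l'
      - ∑ q ∈ low (pdeg c.1), (DL k c.1.1 c.1.2.1 c.1.2.2 q.1 * Tinf.cell k l' (x q)
        + ∑ m, (if c.1.1 = m :: q.1.1 ∧ c.1.2 = q.1.2 then phiL k (Tinf.lam k (x q)) m l'
            else 0)) := by
  simp only [colD, map_sub, map_sum, cell_dT, cell_mul, coef, Tinf.lam_mk, Tinf.cell_mk]
  congr 1
  refine Finset.sum_congr rfl fun q _ => ?_
  congr 1
  refine Finset.sum_congr rfl fun m _ => ?_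
  split_ifs <;> simp

theorem cell_off {v : Vtx} {m : ℤ} {x : Cell → Tinf k} (hx : IsCol v m x) (c : Cell) {l : LC}
    (hl : l.rv ≠ v.1) : Tinf.cell k l (x c) = 0 :=
  rowAt_of_supT k (hx c).1 l hl

theorem IsCol.lam {v : Vtx} {m : ℤ} {x : Cell → Tinf k} (hx : IsCol v m x) (c : Cell) :
    Tinf.lam k (x c) ∈ supL k (vA c.1) v.1 (((vert c.1).2.val : ℤ) - v.2.val) ∧
      HomL k ((pdeg c.1 : ℤ) - m) (Tinf.lam k (x c)) :=
  ⟨((mem_supT k).1 (hx c).1).1, ((homT_iff k).1 (hx c).2).1⟩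

theorem IsCol.cell {v : Vtx} {m : ℤ} {x : Cell → Tinf k} (hx : IsCol v m x) (c : Cell) {l : LC}
    (hl : l.rv = v.1) :
    Tinf.cell k l (x c) ∈ supL k (vA c.1) l.lv (((vert c.1).2.val : ℤ) - v.2.val) ∧
      HomL k ((pdeg c.1 : ℤ) - m - 4 - l.deg) (Tinf.cell k l (x c)) := by
  have h := (mem_supRow k).1 ((mem_supT k).1 (hx c).1).2 l
  rw [if_pos hl] at h
  exact ⟨h, ((homT_iff k).1 (hx c).2).2 l⟩

/-- Columns from components. -/
theorem isCol_mk {v : Vtx} {m : ℤ} {a : Cell → Lam k} {b : Cell → LC → Lam k}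
    (ha : ∀ c : Cell, a c ∈ supL k (vA c.1) v.1 (((vert c.1).2.val : ℤ) - v.2.val) ∧
      HomL k ((pdeg c.1 : ℤ) - m) (a c))
    (hb : ∀ (c : Cell) (l : LC), (l.rv = v.1 →
      b c l ∈ supL k (vA c.1) l.lv (((vert c.1).2.val : ℤ) - v.2.val) ∧
        HomL k ((pdeg c.1 : ℤ) - m - 4 - l.deg) (b c l)) ∧ (l.rv ≠ v.1 → b c l = 0)) :
    IsCol v m fun c => Tinf.mk k (a c) (b c) := fun c => by
  refine ⟨(mem_supT k).2 ⟨?_, (mem_supRow k).2 fun l => ?_⟩,
    (homT_iff k).2 ⟨?_, fun l => ?_⟩⟩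
  · rw [Tinf.lam_mk]; exact (ha c).1
  · rw [Tinf.cell_mk]
    split_ifs with hl
    · exact ((hb c l).1 hl).1
    · rw [(hb c l).2 hl]; exact zero_mem _
  · rw [Tinf.lam_mk]; exact (ha c).2
  · rw [Tinf.cell_mk]
    by_cases hl : l.rv = v.1
    · exact ((hb c l).1 hl).2
    · rw [(hb c l).2 hl]; exact HomL.zero k _

end P195.Model
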