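import Vale.Agent.P195.Model.SelfStep

/-!
P195, bridge: the cell complex has no cohomology in positive degrees with values in `T` itself.
-/

namespace P195.Model

open P195.Algebra

variable {k : Type} [Field k]

theorem eq_zero_of_killed {v : Vtx} {E : ℤ} {x : Cell → Tinf k} (hx : IsCol v E x) {N : ℕ}
    (hk : Killed N x) {c : Cell} (hc : pdeg c.1 < N) : x c = 0 := by
  refine ext_cell (by rw [hk.1 c hc, map_zero]) fun l => ?_
  rw [map_zero]
  rcases cell_cases c with ⟨j, b, rfl⟩ | ⟨m, p, h, rfl⟩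
  · exact hk.2.2 j b l
  · refine hk.2.1 m p h ?_ l
    rw [pdeg_cons] at hc
    omega

/-- Exactness on one column. -/
theorem exists_colPrimitive [CharZero k] (hsq : SqLam k) {v : Vtx} {E : ℤ} (hE : 0 < E)
    {x : Cell → Tinf k} (hx : IsCol v E x) (hd : ∀ c, colD x c = 0) :
    ∃ y : Cell → Tinf k, IsCol v (E - 1) y ∧ ∀ c, colDelta y c = x c := by
  classical
  obtain ⟨y0, hy0, hb0⟩ := exists_killBase hsq hE hx hd
  have hcol : ∀ {y : Cell → Tinf k}, IsCol v (E - 1) y → IsCol v E (colDelta y) := fun hy => by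
    simpa using hy.colDelta
  have hstep : ∀ (N : ℕ) (y : Cell → Tinf k), IsCol v (E - 1) y → Killed N (x - colDelta y) →
      ∃ z : Cell → Tinf k, IsCol v (E - 1) (y + z) ∧ Killed (N + 1) (x - colDelta (y + z)) ∧
        ∀ c : Cell, pdeg c.1 < N → z c = 0 := by
    intro N y hy hk
    obtain ⟨z, hz, hz0, hk'⟩ := exists_step hsq (hx.sub (hcol hy))
      (fun c => by rw [colD_sub, hd, colD_colDelta hsq hy, sub_zero]) hk
    exact ⟨z, hy.add hz, by rwa [colDelta_add, ← sub_sub], hz0⟩
  choose z hz1 hz2 hz3 using hstep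
  let P : ∀ N : ℕ, {y : Cell → Tinf k // IsCol v (E - 1) y ∧ Killed N (x - colDelta y)} :=
    fun N => Nat.rec (⟨y0, hy0, ⟨fun c hc => absurd hc (Nat.not_lt_zero _),
        fun m p h hp => absurd hp (Nat.not_lt_zero _), hb0⟩⟩)
      (fun N y => ⟨y.1 + z N y.1 y.2.1 y.2.2, hz1 N y.1 y.2.1 y.2.2, hz2 N y.1 y.2.1 y.2.2⟩) N
  have hstab : ∀ (c : Cell) (N : ℕ), pdeg c.1 < N → (P N).1 c = (P (pdeg c.1 + 1)).1 c := by
    intro c N hN
    induction N, (show pdeg c.1 + 1 ≤ N by omega) using Nat.le_induction with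
    | base => rfl
    | succ N hN' ih =>
      show (P N).1 c + z N (P N).1 (P N).2.1 (P N).2.2 c = _
      rw [hz3 _ _ _ _ c (by omega), add_zero, ih (by omega)]
  let y : Cell → Tinf k := fun c => (P (pdeg c.1 + 1)).1 c
  refine ⟨y, fun c => (P (pdeg c.1 + 1)).2.1 c, fun c => ?_⟩
  have h := eq_zero_of_killed (hx.sub (hcol (P (pdeg c.1 + 1)).2.1)) (P (pdeg c.1 + 1)).2.2
    (Nat.lt_succ_self _)
  rw [Pi.sub_apply, sub_eq_zero] at h
  rw [h]
  exact colDelta_congr c fun q hq => (hstab q _ (Nat.lt_succ_of_le hq)).symm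

/-- The column `v` of a cochain. -/
noncomputable def colOf (v : Vtx) (φ : Cell → T k) (c : Cell) : Tinf k :=
  T.entry k (vert c.1) v (φ c)

/-- Cochains with values in `T`, from their columns. -/
noncomputable def ofCol (y : Vtx → Cell → Tinf k) (c : Cell) : T k :=
  ∑ v : Vtx, toT k (vert c.1) v (y v c)

theorem entry_ofCol (y : Vtx → Cell → Tinf k) (hy : ∀ v c, y v c ∈ supT k (vert c.1) v) (c : Cell)
    (w' w : Vtx) :
    T.entry k w' w (ofCol y c) = if vert c.1 = w' then y w c else 0 := by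
  rw [ofCol, map_sum, Finset.sum_congr rfl fun v _ => toT_entry (hy v c) w' w,
    Finset.sum_eq_single w]
  · by_cases h : vert c.1 = w' <;> simp [h]
  · intro v _ hv
    simp [hv]
  · simp

theorem entry_sum_cellD (φ : Cell → T k) (c : Cell) (w' v : Vtx) :
    T.entry k w' v ((cellD k c).sum fun q a => a * φ q)
      = if vert c.1 = w' then ∑ q ∈ low (pdeg c.1), coef k c.1 q.1 * colOf v φ q else 0 := by
  rw [sum_cellD c _ (by simp), map_sum]
  have h : ∀ q : Cell, T.entry k w' v (cellD k c q * φ q)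
      = if vert c.1 = w' then coef k c.1 q.1 * colOf v φ q else 0 := by
    intro q
    rw [entry_mul, Finset.sum_eq_single (vert q.1)]
    · rw [entry_cellD]
      by_cases hw : vert c.1 = w'
      · rw [if_pos ⟨hw, rfl⟩, if_pos hw]; rfl
      · rw [if_neg (fun e => hw e.1), if_neg hw, zero_mul]
    · intro u _ hu
      rw [entry_cellD, if_neg (fun e => hu e.2.symm), zero_mul]
    · simp
  rw [Finset.sum_congr rfl fun q _ => h q]
  split_ifs <;> simp

theorem entry_d_sub (φ : Cell → T k) (c : Cell)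
    (hrow : ∀ w', vert c.1 ≠ w' → ∀ w, T.entry k w' w (φ c) = 0) (w' v : Vtx) :
    T.entry k w' v ((dga k).d (φ c) - (cellD k c).sum fun q a => a * φ q)
      = if vert c.1 = w' then colD (colOf v φ) c else 0 := by
  rw [map_sub, entry_d, entry_sum_cellD]
  split_ifs with h
  · subst h; rfl
  · rw [hrow w' h, map_zero, sub_zero]

/-- No cohomology with values in `T` in positive degrees. -/
theorem selfExact [CharZero k] (hsq : SqLam k) (E : ℤ) (hE : 0 < E) :
    (cellsOf hsq).ExactAt (Window.Target.self (dga k)) E := by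
  intro φ hφ hc
  have hrow : ∀ (c : Cell) w', vert c.1 ≠ w' → ∀ w, T.entry k w' w (φ c) = 0 := fun c w' hw w =>
    entry_eq_zero_of_idem_mul (hφ c).2 hw w
  have hx : ∀ v, IsCol v E (colOf v φ) := fun v c =>
    ⟨entry_mem _ _ _, (mem_G_iff.1 (hφ c).1) (vert c.1) v⟩
  have hd : ∀ v c, colD (colOf v φ) c = 0 := by
    intro v c
    have h0 : (dga k).d (φ c) - (cellD k c).sum (fun q a => a * φ q) = 0 := sub_eq_zero.2 (hc c)
    have h := entry_d_sub φ c (hrow c) (vert c.1) v
    rw [if_pos rfl, h0, map_zero] at h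
    exact h.symm
  choose y hy hye using fun v => exists_colPrimitive hsq hE (hx v) (hd v)
  have hys : ∀ v c, y v c ∈ supT k (vert c.1) v := fun v c => (hy v c).1
  refine ⟨ofCol y, fun (c : Cell) => ⟨?_, ?_⟩, funext fun (c : Cell) => ext_entry fun w' w => ?_⟩
  · refine mem_G_iff.2 fun w' w => ?_
    rw [entry_ofCol y hys]
    split_ifs
    · exact (hy w c).2
    · exact map_zero _
  · refine ext_entry fun w' w => ?_
    show T.entry k w' w (T.idem k (vert c.1) * ofCol y c) = _
    rw [entry_idem_mul, entry_ofCol y hys, entry_ofCol y hys]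
    split_ifs <;> simp_all
  · have hcolof : colOf w (ofCol y) = y w := funext fun q => by
      rw [colOf, entry_ofCol y hys, if_pos rfl]
    show T.entry k w' w (((-1 : k) ^ pdeg c.1) • ((dga k).d (ofCol y c)
      - (cellD k c).sum fun q a => a * ofCol y q)) = _
    rw [map_smul, entry_d_sub (ofCol y) c
      (fun u hu u' => by rw [entry_ofCol y hys, if_neg hu]) w' w, hcolof]
    split_ifs with h
    · subst h; exact hye w c
    · rw [smul_zero, hrow c w' h]

end P195.Model
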