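import Vale.Agent.P195.Model.SelfBase
import Vale.Agent.P195.Model.ConeL

/-!
P195, bridge: one level of the induction. A cell `p` of degree `N` carries the coefficient at `p`
without link and the rows at the chains `m :: p`; together they form the cone of `Φ` over `p`.
-/

namespace P195.Model

open P195.Algebra

variable {k : Type} [Field k]

/-- The rows over a cell as a matrix. -/
noncomputable def rowB (y : Cell → Tinf k) (p : Cell) : Matrix LC LC (Lam k) :=
  Matrix.of fun c c' => if h : c.rv = vA p.1 then Tinf.cell k c' (y (cons c p h)) else 0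

theorem rowB_of {y : Cell → Tinf k} {p : Cell} {c : LC} (h : c.rv = vA p.1) (c' : LC) :
    rowB y p c c' = Tinf.cell k c' (y (cons c p h)) := by
  simp [rowB, h]

theorem rowB_eq_zero {y : Cell → Tinf k} {p : Cell} {c : LC} (h : ¬c.rv = vA p.1) (c' : LC) :
    rowB y p c c' = 0 := by
  simp [rowB, h]

/-- Nothing is left below the level `N`. -/
def Killed (N : ℕ) (x : Cell → Tinf k) : Prop :=
  (∀ c : Cell, pdeg c.1 < N → Tinf.lam k (x c) = 0) ∧
    (∀ (m : LC) (p : Cell) (h : m.rv = vA p.1), pdeg p.1 < N →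
      ∀ l, Tinf.cell k l (x (cons m p h)) = 0) ∧
    ∀ (j : ℕ) (b : BC) (l : LC), Tinf.cell k l (x (base j b)) = 0

theorem cell_cases (c : Cell) : (∃ j b, c = base j b) ∨
    ∃ m p, ∃ h : m.rv = vA p.1, c = cons m p h := by
  obtain ⟨⟨ls, j, b⟩, hok⟩ := c
  cases ls with
  | nil => exact .inl ⟨j, b, rfl⟩
  | cons m ls => exact .inr ⟨m, ⟨(ls, j, b), hok.2⟩, hok.1, rfl⟩

theorem pdeg_cons (m : LC) (p : Cell) (h : m.rv = vA p.1) :
    pdeg (cons m p h).1 = m.deg + 5 + pdeg p.1 := by
  simp [cons, pdeg]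
  ring

/-- A coefficient of the differential times a row, when the rows below vanish. -/
theorem DL_row {y : Cell → Tinf k} {p : Cell} {m : LC} (h : m.rv = vA p.1)
    (hlow : ∀ (m' : LC) (r : Cell) (h' : m'.rv = vA r.1), pdeg r.1 < pdeg p.1 →
      ∀ l, Tinf.cell k l (y (cons m' r h')) = 0) (q : Cell) (l : LC) :
    DL k (cons m p h).1.1 (cons m p h).1.2.1 (cons m p h).1.2.2 q.1 * Tinf.cell k l (y q)
      = ∑ m' : LC, if q.1 = (m' :: p.1.1, p.1.2) then -Nm k m m' * Tinf.cell k l (y q) else 0 := by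
  rcases cell_cases q with ⟨i, b', rfl⟩ | ⟨m', r, h', rfl⟩
  · rw [show DL k (cons m p h).1.1 (cons m p h).1.2.1 (cons m p h).1.2.2 (base i b').1 = 0 from
      DL_cons_base k _ _ _ _ _ _, zero_mul]
    refine (Finset.sum_eq_zero fun m' _ => if_neg fun e => ?_).symm
    exact List.cons_ne_nil _ _ (congrArg Prod.fst e).symm
  · rw [show DL k (cons m p h).1.1 (cons m p h).1.2.1 (cons m p h).1.2.2 (cons m' r h').1 = _ from
      DL_cons_cons m p.1.1 p.1.2.1 p.1.2.2 m' r.1]
    have hΦ : (LC.sgn k m • sgL k (phiL k (DL k p.1.1 p.1.2.1 p.1.2.2 r.1) m m'))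
        * Tinf.cell k l (y (cons m' r h')) = 0 := by
      by_cases hz : DL k p.1.1 p.1.2.1 p.1.2.2 r.1 = 0
      · simp [hz]
      · have hc : coef k p.1 r.1 ≠ 0 := fun e => hz (by
          simpa [coef] using congrArg (Tinf.lam k) e)
        rw [hlow m' r h' (coef_ne_zero p.2 hc).2.1, mul_zero]
    rw [sub_mul, hΦ, sub_zero]
    by_cases hr : r.1 = p.1
    · rw [if_pos hr, Finset.sum_eq_single m']
      · rw [if_pos (by rw [cons_val, hr])]
      · intro x _ hx
        refine if_neg fun e => hx ?_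
        simp only [cons_val, Prod.mk.injEq, List.cons.injEq] at e
        exact e.1.1.symm
      · simp
    · rw [if_neg hr, neg_zero, zero_mul]
      refine (Finset.sum_eq_zero fun x _ => if_neg fun e => hr ?_).symm
      simp only [cons_val, Prod.mk.injEq, List.cons.injEq] at e
      exact Prod.ext e.1.2 e.2

/-- The part of `colD` in the rows over `p`, when the rows below vanish. -/
theorem cell_colD_cons {y : Cell → Tinf k} {p : Cell} {m : LC} (h : m.rv = vA p.1)
    (hlow : ∀ (m' : LC) (r : Cell) (h' : m'.rv = vA r.1), pdeg r.1 < pdeg p.1 →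
      ∀ l, Tinf.cell k l (y (cons m' r h')) = 0) (l : LC) :
    Tinf.cell k l (colD y (cons m p h))
      = KL k (rowB y p) m l - phiL k (Tinf.lam k (y p)) m l := by
  classical
  have hp : p ∈ low (pdeg (cons m p h).1) := mem_low.2 (by rw [pdeg_cons]; omega)
  have hlink : ∀ q : Cell, (∑ x, if (cons m p h).1.1 = x :: q.1.1 ∧ (cons m p h).1.2 = q.1.2 then
        phiL k (Tinf.lam k (y q)) x l else 0)
      = if q = p then phiL k (Tinf.lam k (y p)) m l else 0 := by
    intro q
    rw [Finset.sum_eq_single m]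
    · by_cases hq : q = p
      · subst hq; simp [cons_val]
      · rw [if_neg hq, if_neg]
        simp only [cons_val, List.cons.injEq]
        exact fun e => hq (Subtype.ext (Prod.ext e.1.2.symm e.2.symm))
    · intro x _ hx
      refine if_neg fun e => hx ?_
      simp only [cons_val, List.cons.injEq] at e
      exact e.1.1.symm
    · simp
  have hN : ∀ m', (∑ q ∈ low (pdeg (cons m p h).1),
      if q.1 = (m' :: p.1.1, p.1.2) then -Nm k m m' * Tinf.cell k l (y q) else 0)
      = -(Nm k m m' * rowB y p m' l) := by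
    intro m'
    by_cases hv : m'.rv = vA p.1
    · rw [rowB_of hv, Finset.sum_eq_single (cons m' p hv)]
      · rw [if_pos (cons_val m' p hv), neg_mul]
      · intro q _ hq
        exact if_neg fun e => hq (Subtype.ext e)
      · intro hn
        rw [if_pos (cons_val m' p hv)]
        suffices Nm k m m' = 0 by rw [this, neg_zero, zero_mul]
        by_contra hne
        refine hn (mem_low.2 ?_)
        rw [pdeg_cons, pdeg_cons]
        cases m <;> cases m' <;> simp [Nm] at hne <;> simp [LC.deg]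
    · rw [rowB_eq_zero hv, mul_zero, neg_zero]
      refine Finset.sum_eq_zero fun q _ => if_neg fun e => hv ?_
      have := q.2
      rw [e] at this
      exact this.1
  rw [cell_colD, Finset.sum_add_distrib, Finset.sum_congr rfl fun q _ => DL_row h hlow q l,
    Finset.sum_comm, Finset.sum_congr rfl fun m' _ => hN m', Finset.sum_neg_distrib,
    Finset.sum_congr rfl fun q _ => hlink q, Finset.sum_ite_eq' _ p, if_pos hp, KL_entry]
  simp only [rowB_of h]
  abel

/-- The part of `colD` in the rows on a base cell, when there are no such rows. -/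
theorem cell_colD_base0 {y : Cell → Tinf k}
    (hb : ∀ (j : ℕ) (b : BC) (l : LC), Tinf.cell k l (y (base j b)) = 0) (j : ℕ) (b : BC)
    (l : LC) : Tinf.cell k l (colD y (base j b)) = 0 := by
  rw [cell_colD, hb, map_zero, zero_add, Finset.sum_eq_zero fun m _ => by
    rw [hb, map_zero, zero_mul], zero_sub, neg_eq_zero]
  refine Finset.sum_eq_zero fun q _ => ?_
  rw [Finset.sum_eq_zero (fun m _ => if_neg (fun e => List.cons_ne_nil _ _ e.1.symm)), add_zero]
  rcases cell_cases q with ⟨i, b', rfl⟩ | ⟨m, r, h, rfl⟩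
  · rw [hb, mul_zero]
  · rw [show DL k (base j b).1.1 (base j b).1.2.1 (base j b).1.2.2 (cons m r h).1 = 0 from
      dTower_chain k j b (by simp [cons_val]), zero_mul]

theorem lam_colD_low {y : Cell → Tinf k} {c : Cell}
    (hlow : ∀ q : Cell, pdeg q.1 < pdeg c.1 → Tinf.lam k (y q) = 0) :
    Tinf.lam k (colD y c) = dL k (Tinf.lam k (y c)) := by
  rw [lam_colD, Finset.sum_eq_zero fun q hq => by rw [hlow q (mem_low.1 hq), mul_zero], sub_zero]

theorem vert_cons (m : LC) (p : Cell) (h : m.rv = vA p.1) :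
    vert (cons m p h).1 = (m.lv, (vert p.1).2) := rfl

theorem inB_rowB {v : Vtx} {E : ℤ} {x : Cell → Tinf k} (hx : IsCol v E x) (p : Cell) :
    InB k (vA p.1) v.1 (((vert p.1).2.val : ℤ) - v.2.val) ((pdeg p.1 : ℤ) - E + 1) (rowB x p) := by
  intro c c'
  constructor
  · intro hb
    rw [rowB_of hb.1]
    obtain ⟨h1, h2⟩ := hx.cell (cons c p hb.1) hb.2
    refine ⟨h1, h2.of_eq k ?_⟩
    rw [pdeg_cons]
    push_cast
    ring
  · intro hb
    by_cases h : c.rv = vA p.1
    · rw [rowB_of h]
      exact cell_off hx _ fun e => hb ⟨h, e⟩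
    · exact rowB_eq_zero h _

theorem KL_off {a' a : Fin 2} {Δ n : ℤ} {B : Matrix LC LC (Lam k)} (hB : InB k a' a Δ n B)
    {c c' : LC} (hb : ¬(c.rv = a' ∧ c'.rv = a)) : KL k B c c' = 0 := by
  rw [KL_entry, (hB c c').2 hb, map_zero, zero_add,
    Finset.sum_eq_zero (fun m _ => ?_), Finset.sum_eq_zero (fun m _ => ?_), add_zero]
  · by_cases hm : c.rv = m.rv
    · rw [(hB m c').2 (hm ▸ hb), mul_zero]
    · rw [Nm_rv k hm, zero_mul]
  · by_cases hm : m.rv = c'.rv
    · rw [(hB c m).2 (hm ▸ hb), map_zero, zero_mul]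
    · rw [Nm_rv k hm, mul_zero]

/-- The cone over a cell of degree `N`. -/
theorem exists_cone {v : Vtx} {E : ℤ} {x : Cell → Tinf k} (hx : IsCol v E x)
    (hd : ∀ c, colD x c = 0) {N : ℕ} (hk : Killed N x) (p : Cell) :
    ∃ (α : Lam k) (B : Matrix LC LC (Lam k)),
      InL k (vA p.1) v.1 (((vert p.1).2.val : ℤ) - v.2.val) ((pdeg p.1 : ℤ) - E + 1) α ∧
      InB k (vA p.1) v.1 (((vert p.1).2.val : ℤ) - v.2.val) ((pdeg p.1 : ℤ) - E + 2) B ∧
      (pdeg p.1 = N → dL k α = Tinf.lam k (x p) ∧ ∀ c c', rowB x p c c'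
        = LC.sgn k c • (phiLB k (vA p.1) v.1 α c c' - KL k B c c')) := by
  by_cases hp : pdeg p.1 = N
  swap
  · exact ⟨0, 0, ⟨zero_mem _, HomL.zero k _⟩,
      fun c c' => ⟨fun _ => ⟨zero_mem _, HomL.zero k _⟩, fun _ => rfl⟩, fun h => absurd h hp⟩
  subst hp
  have hd1 : dL k (Tinf.lam k (x p)) = 0 := by
    rw [← lam_colD_low (y := x) (c := p) fun q hq => hk.1 q hq, hd, map_zero]
  have hK : KL k (rowB x p) = phiLB k (vA p.1) v.1 (Tinf.lam k (x p)) := by
    ext c c' : 1
    by_cases hb : c.rv = vA p.1 ∧ c'.rv = v.1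
    · have h := cell_colD_cons (y := x) hb.1 hk.2.1 c'
      rw [hd, map_zero] at h
      rw [phiLB_apply, if_pos hb]
      exact sub_eq_zero.1 h.symm
    · rw [KL_off (inB_rowB hx p) hb, phiLB_apply, if_neg hb]
  obtain ⟨α, B, hα, hB, h1, h2⟩ := coneL (vA p.1) v.1 _ (dlt_le p v) ((pdeg p.1 : ℤ) - E)
    (hx.lam p) (inB_rowB hx p) hd1 hK
  exact ⟨α, B, hα, hB, fun _ => ⟨h1, h2⟩⟩

/-- One level. -/
theorem exists_step (hsq : SqLam k) {v : Vtx} {E : ℤ} {x : Cell → Tinf k} (hx : IsCol v E x)
    (hd : ∀ c, colD x c = 0) {N : ℕ} (hk : Killed N x) :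
    ∃ y : Cell → Tinf k, IsCol v (E - 1) y ∧ (∀ c : Cell, pdeg c.1 < N → y c = 0) ∧
      Killed (N + 1) (x - colDelta y) := by
  classical
  choose α B hα hB heq using exists_cone hx hd hk
  let s : k := (-1 : k) ^ N
  let bl : Cell → LC → Lam k := fun c l => match c with
    | ⟨(m :: ls, jb), h⟩ => if pdeg (ls, jb) = N then s • B ⟨(ls, jb), h.2⟩ m l else 0
    | ⟨([], _), _⟩ => 0
  have hbl : ∀ m p h l, bl (cons m p h) l = if pdeg p.1 = N then s • B p m l else 0 :=
    fun m p h l => rfl
  have hbb : ∀ j b l, bl (base j b) l = 0 := fun j b l => rfl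
  let y : Cell → Tinf k := fun c =>
    Tinf.mk k (if pdeg c.1 = N then s • α c else 0) (bl c)
  have hyl : ∀ c, Tinf.lam k (y c) = if pdeg c.1 = N then s • α c else 0 := fun c =>
    Tinf.lam_mk k _ _
  have hyc : ∀ c l, Tinf.cell k l (y c) = bl c l := fun c l => Tinf.cell_mk k _ _ _
  have hy : IsCol v (E - 1) y := by
    refine isCol_mk (fun c => ?_) fun c l => ?_
    · split_ifs
      · exact ⟨Submodule.smul_mem _ _ (hα c).1,
          HomL.smul k _ ((hα c).2.of_eq k (by ring))⟩
      · exact ⟨zero_mem _, HomL.zero k _⟩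
    · rcases cell_cases c with ⟨j, b, rfl⟩ | ⟨m, p, h, rfl⟩
      · rw [hbb]
        exact ⟨fun _ => ⟨zero_mem _, HomL.zero k _⟩, fun _ => rfl⟩
      · rw [hbl]
        split_ifs
        · refine ⟨fun hl => ?_, fun hl => by rw [(hB p m l).2 (fun e => hl e.2), smul_zero]⟩
          obtain ⟨h1, h2⟩ := (hB p m l).1 ⟨h, hl⟩
          refine ⟨Submodule.smul_mem _ _ h1, HomL.smul k _ (h2.of_eq k ?_)⟩
          rw [pdeg_cons]
          push_cast
          ring
        · exact ⟨fun _ => ⟨zero_mem _, HomL.zero k _⟩, fun _ => rfl⟩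
  have hy0 : ∀ c : Cell, pdeg c.1 < N → y c = 0 := by
    intro c hc
    refine ext_cell (by rw [hyl, if_neg hc.ne, map_zero]) fun l => ?_
    rw [hyc, map_zero]
    rcases cell_cases c with ⟨j, b, rfl⟩ | ⟨m, p, h, rfl⟩
    · exact hbb j b l
    · rw [pdeg_cons] at hc
      rw [hbl, if_neg (by omega)]
  have hyrow : ∀ (m : LC) (p : Cell) (h : m.rv = vA p.1), pdeg p.1 < N →
      ∀ l, Tinf.cell k l (y (cons m p h)) = 0 := by
    intro m p h hp l
    rw [hyc, hbl, if_neg hp.ne]
  refine ⟨y, hy, hy0, fun c hc => ?_, fun m p h hp l => ?_, fun j b l => ?_⟩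
  · rw [Pi.sub_apply, map_sub, colDelta, map_smul,
      lam_colD_low fun q hq => by rw [hy0 q (by omega), map_zero], hyl]
    rcases Nat.lt_succ_iff_lt_or_eq.1 hc with h | h
    · rw [if_neg h.ne, hk.1 c h, map_zero, smul_zero, sub_zero]
    · rw [if_pos h, map_smul, smul_smul, h, ← mul_pow, neg_mul_neg, one_mul, one_pow, one_smul,
        (heq c h).1, sub_self]
  · rw [Pi.sub_apply, map_sub, colDelta, map_smul,
      cell_colD_cons h (fun m' r h' hr => hyrow m' r h' (by omega)) l, hyl]
    rcases Nat.lt_succ_iff_lt_or_eq.1 hp with hp' | hp'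
    · have e : rowB y p = 0 := by
        ext c c' : 1
        by_cases hc : c.rv = vA p.1
        · rw [rowB_of hc, hyrow c p hc hp']; rfl
        · rw [rowB_eq_zero hc]; rfl
      rw [hk.2.1 m p h hp' l, e, if_neg hp'.ne]
      simp
    · have e : rowB y p = s • B p := by
        ext c c' : 1
        by_cases hc : c.rv = vA p.1
        · rw [rowB_of hc, hyc, hbl, if_pos hp', Matrix.smul_apply]
        · rw [rowB_eq_zero hc, Matrix.smul_apply, (hB p c c').2 (fun e => hc e.1), smul_zero]
      by_cases hl : l.rv = v.1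
      · have hsign : ((-1 : k) ^ pdeg (cons m p h).1) * s = -LC.sgn k m := by
          rw [pdeg_cons, hp', LC.sgn, ← pow_add,
            show m.deg + 5 + N + N = m.deg + 1 + 2 * (N + 2) by ring, pow_add, pow_mul,
            neg_one_sq, one_pow, mul_one, pow_succ, mul_neg, mul_one]
        have h2 := (heq p hp').2 m l
        rw [rowB_of h, phiLB_apply, if_pos ⟨h, hl⟩] at h2
        rw [h2, e, if_pos hp', map_smul, map_smul, Matrix.smul_apply, Matrix.smul_apply,
          ← smul_sub, smul_smul, hsign, neg_smul, ← smul_neg, neg_sub, sub_self]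
      · have h3 := cell_off (show IsCol v E (colDelta y) by simpa using hy.colDelta)
          (cons m p h) hl
        rw [colDelta, map_smul,
          cell_colD_cons h (fun m' r h' hr => hyrow m' r h' (by omega)) l, hyl] at h3
        rw [cell_off hx _ hl, h3, sub_zero]
  · rw [Pi.sub_apply, map_sub, colDelta, map_smul,
      cell_colD_base0 (fun j b l => (hyc _ l).trans (hbb j b l)), smul_zero, sub_zero]
    exact hk.2.2 j b l

end P195.Model
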