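import Vale.Agent.P195.Model.Cells
import Vale.Agent.P195.Algebra.Key

/-!
# P195: supports and square of the coefficients `DL`

`DL_sup`: from a composable cell, every nonzero coefficient goes to a composable cell with the
same number of bimodule cells; `DL_supD`: it is spanned by paths of the right ends, window
degree and homological degree (`u` counting one); `DL_sq`: the differential squares to zero.
-/

namespace P195.Model

open P195.Algebra

variable (k : Type) [Field k]

/-- Monomials along paths from `a` to `a'` of window degree `Δ` and degree `n`. -/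
def setD (a' a : Fin 2) (Δ n : ℤ) : Set M :=
  {m | Path a' a (FreeMonoid.toList m.1) ∧ (mwt m : ℤ) = Δ ∧ (mdeg m : ℤ) = n}

/-- Their span. -/
noncomputable def supD (a' a : Fin 2) (Δ n : ℤ) : Submodule k (F k) :=
  MonoidAlgebra.supported k k (setD a' a Δ n)

/-- Elements of `Λ` of degree `n` with both parts supported. -/
noncomputable def supDL (a' a : Fin 2) (Δ n : ℤ) : Submodule k (Lam k) :=
  (supD k a' a Δ n).comap (Lam.re k) ⊓ (supD k a' a Δ (n - 1)).comap (Lam.im k)

/-- Rows of total degree `n` ending at the vertex `a`. -/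
noncomputable def rowD (a' a : Fin 2) (Δ n : ℤ) : Submodule k (LC → Lam k) :=
  Submodule.pi Set.univ fun c =>
    if LC.rv c = a then supDL k a' (LC.lv c) Δ (n - LC.deg c) else ⊥

theorem mem_supDL {a' a : Fin 2} {Δ n : ℤ} {x : Lam k} : x ∈ supDL k a' a Δ n ↔
    Lam.re k x ∈ supD k a' a Δ n ∧ Lam.im k x ∈ supD k a' a Δ (n - 1) := Iff.rfl

theorem mem_rowD {a' a : Fin 2} {Δ n : ℤ} {l : LC → Lam k} : l ∈ rowD k a' a Δ n ↔
    ∀ c, l c ∈ if LC.rv c = a then supDL k a' (LC.lv c) Δ (n - LC.deg c) else ⊥ := by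
  simp [rowD]

theorem supD_le_supF {a' a : Fin 2} {Δ n : ℤ} : supD k a' a Δ n ≤ supF k a' a Δ :=
  MonoidAlgebra.supported_mono fun _ hm => ⟨hm.1, hm.2.1⟩

theorem supDL_le_supL {a' a : Fin 2} {Δ n : ℤ} : supDL k a' a Δ n ≤ supL k a' a Δ :=
  fun _ hx => ⟨supD_le_supF k hx.1, supD_le_supF k hx.2⟩

open scoped Classical in
theorem supD_single {a' a : Fin 2} {Δ n : ℤ} {m : M} (r : k) (h : m ∈ setD a' a Δ n) :
    MonoidAlgebra.single m r ∈ supD k a' a Δ n := by
  rw [supD, MonoidAlgebra.mem_supported']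
  intro m' hm'
  rw [MonoidAlgebra.coeff_single, Finsupp.single_apply, if_neg]
  rintro rfl
  exact hm' h

theorem supD_one (a : Fin 2) : (1 : F k) ∈ supD k a a 0 0 :=
  supD_single k 1 ⟨rfl, by simp [mwt], by simp [mdeg, wdeg]⟩

theorem supD_gen (g : Gen) : gen k g ∈ supD k g.tgt g.src g.wt g.deg :=
  supD_single k 1 ⟨⟨rfl, by simp [P195.Algebra.Path]⟩, by simp [mwt], by simp [mdeg, wdeg]⟩

theorem supD_tF (a : Fin 2) : tF k ∈ supD k a a 1 0 :=
  supD_single k 1 ⟨by simp [P195.Algebra.Path], by simp [mwt], by simp [mdeg, wdeg]⟩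

theorem supD_mul {a'' a' a : Fin 2} {Δ Δ' n n' : ℤ} {x y : F k} (hx : x ∈ supD k a'' a' Δ n)
    (hy : y ∈ supD k a' a Δ' n') : x * y ∈ supD k a'' a (Δ + Δ') (n + n') := by
  classical
  rw [supD, MonoidAlgebra.mem_supported] at hx hy ⊢
  intro m hm
  obtain ⟨m1, h1, m2, h2, rfl⟩ := Finset.mem_mul.1
    (MonoidAlgebra.support_coeff_mul_subset x y (Finset.mem_coe.1 hm))
  refine ⟨?_, ?_, ?_⟩
  · simpa using Path.append (hx h1).1 (hy h2).1
  · rw [mwt_mul]; push_cast; rw [(hx h1).2.1, (hy h2).2.1]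
  · rw [mdeg_mul]; push_cast; rw [(hx h1).2.2, (hy h2).2.2]

theorem supD_sg {a' a : Fin 2} {Δ n : ℤ} {x : F k} (hx : x ∈ supD k a' a Δ n) :
    sg k x ∈ supD k a' a Δ n := by
  rw [← MonoidAlgebra.sum_coeff_single x, map_finsuppSum]
  refine Submodule.sum_mem _ fun m hm => ?_
  show sg k (MonoidAlgebra.single m (x.coeff m)) ∈ _
  rw [sg_single]
  exact supD_single k _ ((MonoidAlgebra.mem_supported.1 hx) hm)

theorem supD_cast {a' a : Fin 2} {Δ Δ' n n' : ℤ} {x : F k} (hx : x ∈ supD k a' a Δ n)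
    (h1 : Δ = Δ') (h2 : n = n') : x ∈ supD k a' a Δ' n' := h1 ▸ h2 ▸ hx

theorem supDL_of {a' a : Fin 2} {Δ n : ℤ} {x : F k} (hx : x ∈ supD k a' a Δ n) :
    Lam.of k x ∈ supDL k a' a Δ n := ⟨by simpa using hx, by simp⟩

theorem supDL_u (a : Fin 2) : Lam.u k ∈ supDL k a a 0 1 := by
  rw [mem_supDL]; simp [Lam.u, supD_one]

theorem supDL_mul {a'' a' a : Fin 2} {Δ Δ' n n' : ℤ} {x y : Lam k}
    (hx : x ∈ supDL k a'' a' Δ n) (hy : y ∈ supDL k a' a Δ' n') :
    x * y ∈ supDL k a'' a (Δ + Δ') (n + n') := by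
  rw [mem_supDL] at hx hy ⊢
  rw [Lam.re_mul, Lam.im_mul]
  refine ⟨supD_mul k hx.1 hy.1, add_mem ?_ ?_⟩
  · rw [show n + n' - 1 = n + (n' - 1) by ring]; exact supD_mul k hx.1 hy.2
  · rw [show n + n' - 1 = (n - 1) + n' by ring]; exact supD_mul k hx.2 (supD_sg k hy.1)

theorem supDL_sgL {a' a : Fin 2} {Δ n : ℤ} {x : Lam k} (hx : x ∈ supDL k a' a Δ n) :
    sgL k x ∈ supDL k a' a Δ n := by
  rw [mem_supDL] at hx ⊢
  rw [sgL_re, sgL_im]
  exact ⟨supD_sg k hx.1, neg_mem (supD_sg k hx.2)⟩

theorem supDL_mul' {a'' a' a : Fin 2} {Δ Δ' Δ'' n n' n'' : ℤ} {x y : Lam k}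
    (hx : x ∈ supDL k a'' a' Δ n) (hy : y ∈ supDL k a' a Δ' n')
    (hΔ : Δ + Δ' = Δ'') (hn : n + n' = n'') : x * y ∈ supDL k a'' a Δ'' n'' :=
  hΔ ▸ hn ▸ supDL_mul k hx hy

/-- Entries of `Φ` on a generator. -/
theorem phiGen_supD (g : Gen) (c c' : LC) (hc : LC.rv c = g.tgt) :
    phiGen k g c c' ∈ (if LC.rv c' = g.src then
      supDL k (LC.lv c) (LC.lv c') g.wt ((g.deg : ℤ) + LC.deg c - LC.deg c') else ⊥) := by
  have hX := fun i => supDL_of k (supD_gen k (.x i))
  have hP := fun i => supDL_of k (supD_gen k (.p i))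
  have hR := fun i => supDL_of k (supD_gen k (.r i))
  have hQ := fun i => supDL_of k (supD_gen k (.q i))
  have hZ := fun i => supDL_of k (supD_gen k (.z i))
  have ht : ∀ a, Lam.of k (tF k) ∈ supDL k a a 1 0 := fun a => supDL_of k (supD_tF k a)
  have h1 : ∀ a, (1 : Lam k) ∈ supDL k a a 0 0 := fun a => by
    simpa using supDL_of k (supD_one k a)
  have hu : ∀ a, Lam.mk k 0 (tF k * tF k) ∈ supDL k a a 2 1 := fun a => by
    rw [mem_supDL]; simpa using supD_mul k (supD_tF k a) (supD_tF k a)
  rcases g with i | j | j | j | a <;> rcases c with _ | i' | _ <;>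
    rcases c' with _ | i'' | _ <;>
    simp [LC.rv, LC.lv, LC.deg, Gen.src, Gen.tgt, Gen.wt, Gen.deg, phiGen] at hc ⊢
  case x.E.F => split_ifs <;> simp [h1]
  case p.F.E =>
    refine sub_mem ?_ ?_
    · exact supDL_mul' k (hP j) (hX i') (by simp [Gen.wt]) (by simp [Gen.deg])
    · split_ifs
      · exact ht 0
      · exact zero_mem _
  case p.H.E => exact hR j
  case r.E.H => exact hP j
  case q.F.E =>
    refine add_mem (supDL_mul' k (hQ i') (hX j) (by simp [Gen.wt]) (by simp [Gen.deg])) ?_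
    split_ifs
    · exact hu 0
    · exact neg_mem (hu 0)
    · exact zero_mem _
  case q.H.E => exact supDL_mul' k (hZ 1) (hX j) (by simp [Gen.wt]) (by simp [Gen.deg])
  case z.E.E => subst hc; simpa [Gen.wt, Gen.deg, Gen.src, Gen.tgt] using hZ 0
  case z.F.H => subst hc; simpa [Gen.wt, Gen.deg, Gen.src, Gen.tgt] using hQ i'
  case z.H.H => subst hc; simpa [Gen.wt, Gen.deg, Gen.src, Gen.tgt] using hZ 1

theorem vecMul_phiGen_supD {a' : Fin 2} {Δ n : ℤ} (g : Gen) {l : LC → Lam k}
    (hl : l ∈ rowD k a' g.tgt Δ n) :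
    Matrix.vecMul l (phiGen k g) ∈ rowD k a' g.src (Δ + g.wt) (n + g.deg) := by
  rw [mem_rowD] at hl ⊢
  intro c'
  show ∑ c, l c * phiGen k g c c' ∈ _
  refine Submodule.sum_mem _ fun c _ => ?_
  have h1 := hl c
  by_cases hc : LC.rv c = g.tgt
  · rw [if_pos hc] at h1
    have h2 := phiGen_supD k g c c' hc
    split_ifs with h'
    · rw [if_pos h'] at h2
      exact supDL_mul' k h1 h2 rfl (by ring)
    · rw [if_neg h', Submodule.mem_bot] at h2
      simp [h2]
  · rw [if_neg hc, Submodule.mem_bot] at h1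
    simp [h1]

theorem phiF_rowD {a'' a' a : Fin 2} {Δ Δ' n n' : ℤ} {l : LC → Lam k} {x : F k}
    (hl : l ∈ rowD k a'' a' Δ n) (hx : x ∈ supD k a' a Δ' n') :
    Matrix.vecMul l (phiF k x) ∈ rowD k a'' a (Δ + Δ') (n + n') := by
  have hmon : ∀ (w : List Gen) (a' : Fin 2) (Δ n : ℤ) (l : LC → Lam k),
      l ∈ rowD k a'' a' Δ n → Path a' a w → Matrix.vecMul l
        (phiF k (MonoidAlgebra.single ((FreeMonoid.ofList w, 1) : M) 1))
        ∈ rowD k a'' a (Δ + (w.map Gen.wt).sum) (n + (wdeg w : ℕ)) := by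
    intro w
    induction w with
    | nil =>
      intro a' Δ n l hl hp
      obtain rfl : a' = a := hp
      have : MonoidAlgebra.single ((FreeMonoid.ofList [], 1) : M) (1 : k) = 1 := rfl
      rw [this]
      simpa [wdeg] using hl
    | cons g w ih =>
      intro a' Δ n l hl hp
      obtain ⟨hg, hw⟩ := hp
      subst hg
      have : MonoidAlgebra.single ((FreeMonoid.ofList (g :: w), 1) : M) (1 : k)
          = gen k g * MonoidAlgebra.single ((FreeMonoid.ofList w, 1) : M) 1 := by
        simp only [gen, Algebra.X, MonoidAlgebra.single_mul_single]; simp [FreeMonoid.ofList_cons]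
      rw [this, map_mul, phiF_gen, ← Matrix.vecMul_vecMul]
      have h := ih _ _ _ _ (vecMul_phiGen_supD k g hl) hw
      simpa [add_assoc, wdeg] using h
  rw [← MonoidAlgebra.sum_coeff_single x, map_finsuppSum]
  simp only [Finsupp.sum, Matrix.vecMul_sum]
  refine Submodule.sum_mem _ fun m hm => ?_
  obtain ⟨hp, hw, hd⟩ := (MonoidAlgebra.mem_supported.1 hx) hm
  obtain ⟨w, e⟩ := m
  have e' : MonoidAlgebra.single ((w, e) : M) (x.coeff (w, e))
      = x.coeff (w, e) • (MonoidAlgebra.single ((w, 1) : M) 1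
          * tF k ^ (Multiplicative.toAdd e)) := by
    simp only [tF, tt, MonoidAlgebra.single_pow, MonoidAlgebra.single_mul_single,
      MonoidAlgebra.smul_single]
    simp [← ofAdd_nsmul]
  rw [e', map_smul, Matrix.vecMul_smul, map_mul, map_pow, ← Matrix.vecMul_vecMul]
  refine Submodule.smul_mem _ _ ?_
  have h := hmon (FreeMonoid.toList w) a' Δ n l hl hp
  simp only [FreeMonoid.ofList_toList] at h
  rw [← hw, mwt, ← hd, mdeg]
  generalize Matrix.vecMul l (phiF k (MonoidAlgebra.single ((w, 1) : M) 1)) = l' at h ⊢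
  induction Multiplicative.toAdd e with
  | zero => simpa using h
  | succ j ih =>
    rw [phiF_tF] at ih ⊢
    rw [pow_succ, ← Matrix.vecMul_vecMul]
    rw [mem_rowD] at ih ⊢
    intro c
    have h1 := ih c
    simp only [Matrix.scalar_apply, Matrix.vecMul_diagonal] at h1 ⊢
    split_ifs with hc
    · rw [if_pos hc] at h1
      exact supDL_mul' k h1 (supDL_of k (supD_tF k (LC.lv c))) (by push_cast; ring) (by ring)
    · rw [if_neg hc, Submodule.mem_bot] at h1
      simp [h1]

theorem phiL_rowD {a'' a' a : Fin 2} {Δ Δ' n n' : ℤ} {l : LC → Lam k} {x : Lam k}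
    (hl : l ∈ rowD k a'' a' Δ n) (hx : x ∈ supDL k a' a Δ' n') :
    Matrix.vecMul l (phiL k x) ∈ rowD k a'' a (Δ + Δ') (n + n') := by
  rw [phiL_apply, phiFun, Matrix.vecMul_add, ← Matrix.vecMul_vecMul]
  refine add_mem (phiF_rowD k hl hx.1) ?_
  have h := phiF_rowD k hl hx.2
  generalize Matrix.vecMul l (phiF k (Lam.im k x)) = m at h
  rw [mem_rowD] at h ⊢
  intro c
  have h1 := h c
  simp only [phiU, Matrix.vecMul_diagonal, mul_smul_comm]
  split_ifs with hc
  · rw [if_pos hc] at h1
    exact Submodule.smul_mem _ _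
      (supDL_mul' k h1 (supDL_u k (LC.lv c)) (by ring) (by ring))
  · rw [if_neg hc, Submodule.mem_bot] at h1
    simp [h1]

/-- The rows of `Φ` with the right vertex. -/
theorem phiL_entry {a' a : Fin 2} {Δ n : ℤ} {x : Lam k} (hx : x ∈ supDL k a' a Δ n) {l : LC}
    (hl : LC.rv l = a') (l' : LC) :
    phiL k x l l' ∈ if LC.rv l' = a then
      supDL k (LC.lv l) (LC.lv l') Δ (n + LC.deg l - LC.deg l') else ⊥ := by
  have he : (Pi.single l (1 : Lam k) : LC → Lam k) ∈ rowD k (LC.lv l) a' 0 (LC.deg l) := by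
    rw [mem_rowD]
    intro c
    by_cases hc : c = l
    · subst hc; simpa [hl] using supDL_of k (supD_one k (LC.lv c))
    · simp [Pi.single_eq_of_ne hc]
  have h := (mem_rowD k).1 (phiL_rowD k he hx) l'
  rw [Matrix.single_one_vecMul] at h
  simp only [Matrix.row_apply, zero_add, add_comm (LC.deg l : ℤ) n] at h
  exact h

/-- The condition on a coefficient from `c` to `p`. -/
noncomputable def supC (c p : Pre) : Submodule k (Lam k) :=
  open scoped Classical in
  if Ok p.1 p.2.1 p.2.2 ∧ p.1.length = c.1.length then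
    supDL k (vA c) (vA p) ((c.2.2.vtx.2.val : ℤ) - p.2.2.vtx.2.val) ((pdeg c : ℤ) - 1 - pdeg p)
  else ⊥

/-- The admissible rows of coefficients. -/
noncomputable def supRowC (c : Pre) : Submodule k (Pre →₀ Lam k) :=
  ⨅ p, (supC k c p).comap (Finsupp.lapply p)

theorem mem_supRowC {c : Pre} {v : Pre →₀ Lam k} :
    v ∈ supRowC k c ↔ ∀ p, v p ∈ supC k c p := by
  simp [supRowC, Submodule.mem_iInf]

theorem single_mem {c p : Pre} {a : Lam k} (h : a ∈ supC k c p) :
    Finsupp.single p a ∈ supRowC k c := by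
  classical
  rw [mem_supRowC]
  intro q
  rw [Finsupp.single_apply]
  split_ifs with e
  · subst e; exact h
  · exact zero_mem _

theorem mem_supC {c p : Pre} (h1 : Ok p.1 p.2.1 p.2.2) (h2 : p.1.length = c.1.length) {a : Lam k}
    (h : a ∈ supDL k (vA c) (vA p) ((c.2.2.vtx.2.val : ℤ) - p.2.2.vtx.2.val)
      ((pdeg c : ℤ) - 1 - pdeg p)) : a ∈ supC k c p := by
  rw [supC, if_pos ⟨h1, h2⟩]; exact h

theorem dTower_mem (j : ℕ) (b : BC) : dTower k j b ∈ supRowC k ([], j, b) := by
  have hX := fun i => supD_gen k (.x i)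
  have hP := fun i => supD_gen k (.p i)
  have hR := fun i => supD_gen k (.r i)
  have hQ := fun i => supD_gen k (.q i)
  have hZ := fun i => supD_gen k (.z i)
  refine add_mem (add_mem ?_ ?_) ?_
  · rcases b with _ | i | i | _
    · exact zero_mem _
    · refine single_mem k (mem_supC k (by trivial) (by rfl) (supDL_of k ?_))
      exact supD_cast k (hX i) (by simp [BC.vtx, Gen.wt])
          (by simp [pdeg, BC.deg, Gen.deg]; try ring)
    · simp only [dBase]
      refine add_mem (add_mem (sub_mem ?_ ?_) ?_) ?_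
      · refine single_mem k (mem_supC k (by trivial) (by rfl) (supDL_of k ?_))
        exact supD_cast k (hR i) (by simp [BC.vtx, Gen.wt])
          (by simp [pdeg, BC.deg, Gen.deg]; try ring)
      · refine single_mem k (mem_supC k (by trivial) (by rfl) (supDL_of k ?_))
        exact supD_cast k (supD_mul k (hX 0) (hP i)) (by simp [BC.vtx, Gen.wt])
          (by simp [pdeg, BC.deg, Gen.deg]; try ring)
      · refine single_mem k (mem_supC k (by trivial) (by rfl) (supDL_of k ?_))
        exact supD_cast k (supD_mul k (hX 1) (hP i)) (by simp [BC.vtx, Gen.wt])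
          (by simp [pdeg, BC.deg, Gen.deg]; try ring)
      · split_ifs
        · refine neg_mem (single_mem k (mem_supC k (by trivial) (by rfl) (supDL_of k ?_)))
          exact supD_cast k (supD_tF k 1) (by simp [BC.vtx, Gen.wt])
            (by simp [pdeg, BC.deg, Gen.deg]; try ring)
        · refine single_mem k (mem_supC k (by trivial) (by rfl) (supDL_of k ?_))
          exact supD_cast k (supD_tF k 1) (by simp [BC.vtx, Gen.wt])
            (by simp [pdeg, BC.deg, Gen.deg]; try ring)
    · simp only [dBase]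
      refine add_mem (sub_mem (add_mem (sub_mem ?_ ?_) ?_) ?_) ?_
      all_goals refine single_mem k (mem_supC k (by trivial) (by rfl) (supDL_of k ?_))
      · exact supD_cast k (hZ 0) (by simp [BC.vtx, Gen.wt])
          (by simp [pdeg, BC.deg, Gen.deg]; try ring)
      · exact supD_cast k (hP 0) (by simp [BC.vtx, Gen.wt])
          (by simp [pdeg, BC.deg, Gen.deg]; try ring)
      · exact supD_cast k (hP 1) (by simp [BC.vtx, Gen.wt])
          (by simp [pdeg, BC.deg, Gen.deg]; try ring)
      · exact supD_cast k (hQ 0) (by simp [BC.vtx, Gen.wt])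
          (by simp [pdeg, BC.deg, Gen.deg]; try ring)
      · exact supD_cast k (hQ 1) (by simp [BC.vtx, Gen.wt])
          (by simp [pdeg, BC.deg, Gen.deg]; try ring)
  · rcases j with - | j
    · simp
    · refine single_mem k (mem_supC k (by trivial) (by rfl) (Submodule.smul_mem _ _ ?_))
      convert supDL_u k b.vtx.1 using 2 <;> simp [vA, pdeg] <;> ring
  · split_ifs with h
    · subst h
      refine single_mem k (mem_supC k (by trivial) (by rfl) (supDL_of k ?_))
      convert supD_mul k (supD_tF k 0) (supD_tF k 0) using 2 <;>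
        simp [vA, pdeg, BC.deg, BC.vtx] <;> ring
    · exact zero_mem _

theorem DL_mem : ∀ (ls : List LC) (j : ℕ) (b : BC), Ok ls j b →
    DL k ls j b ∈ supRowC k (ls, j, b)
  | [], j, b, _ => dTower_mem k j b
  | l :: ls, j, b, h => by
    obtain ⟨hl, hr⟩ := h
    have ih := (mem_supRowC k).1 (DL_mem ls j b hr)
    rw [DL]
    refine sub_mem (neg_mem (Submodule.sum_mem _ fun l' _ => ?_)) ?_
    · rcases l with _ | i | _ <;> rcases l' with _ | i' | _ <;>
        try (simp [Nm]; done)
      refine single_mem k (mem_supC k (by exact ⟨hl, hr⟩) (by rfl) ?_)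
      have hN : ∀ i, Lam.of k (gX k i) ∈ supDL k 1 0 0 0 := fun i =>
        supDL_of k (by simpa [Gen.tgt, Gen.src, Gen.wt, Gen.deg] using supD_gen k (.x i))
      simp only [Nm]
      convert (show (if i' = 0 then Lam.of k (gX k 1) else -Lam.of k (gX k 0))
        ∈ supDL k 1 0 0 0 by split_ifs; exacts [hN 1, neg_mem (hN 0)]) using 2 <;>
        simp [vA, pdeg, LC.lv, LC.deg] <;> ring
    · refine Submodule.sum_mem _ fun p hp => ?_
      refine Submodule.sum_mem _ fun l' _ => ?_
      have h1 := ih p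
      rw [supC] at h1
      split_ifs at h1 with hok
      · by_cases h' : LC.rv l' = vA p
        · refine single_mem k (mem_supC k (by exact ⟨h', hok.1⟩) (by simp [hok.2]) ?_)
          refine Submodule.smul_mem _ _ (supDL_sgL k ?_)
          have h2 := phiL_entry k h1 hl l'
          rw [if_pos h'] at h2
          convert h2 using 2 <;> first
            | rfl
            | (simp [pdeg]; ring)
        · have h2 := phiL_entry k h1 hl l'
          rw [if_neg h', Submodule.mem_bot] at h2
          simp [h2]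
      · rw [Submodule.mem_bot] at h1
        exact absurd h1 (Finsupp.mem_support_iff.1 hp)

/-- Coefficients go to composable cells with as many bimodule cells. -/
theorem DL_sup {c : Pre} (hc : Ok c.1 c.2.1 c.2.2) {p : Pre}
    (h : DL k c.1 c.2.1 c.2.2 p ≠ 0) : Ok p.1 p.2.1 p.2.2 ∧ p.1.length = c.1.length := by
  have h1 := (mem_supRowC k).1 (DL_mem k c.1 c.2.1 c.2.2 hc) p
  rw [supC] at h1
  split_ifs at h1 with hok
  · exact hok
  · exact absurd ((Submodule.mem_bot k).1 h1) h

/-- Coefficients are homogeneous and supported on the right paths. -/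
theorem DL_supD {c : Pre} (hc : Ok c.1 c.2.1 c.2.2) (p : Pre) :
    DL k c.1 c.2.1 c.2.2 p ∈ supDL k (vA c) (vA p)
      ((c.2.2.vtx.2.val : ℤ) - p.2.2.vtx.2.val) ((pdeg c : ℤ) - 1 - pdeg p) := by
  have h1 := (mem_supRowC k).1 (DL_mem k c.1 c.2.1 c.2.2 hc) p
  rw [supC] at h1
  split_ifs at h1 with hok
  · exact h1
  · rw [(Submodule.mem_bot k).1 h1]; exact zero_mem _

/-! ## The square -/

/-- A row of a matrix placed on the cells `l' :: r`. -/
noncomputable def push (l : LC) (r : Pre) : Matrix LC LC (Lam k) →ₗ[k] (Pre →₀ Lam k) where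
  toFun X := ∑ l', Finsupp.single (l' :: r.1, r.2) (X l l')
  map_add' X Y := by simp [Finset.sum_add_distrib]
  map_smul' c X := by simp [Finset.smul_sum]

theorem push_apply (l : LC) (r : Pre) (X : Matrix LC LC (Lam k)) :
    push k l r X = ∑ l', Finsupp.single (l' :: r.1, r.2) (X l l') := rfl

/-- The matrix that a coefficient contributes one bimodule cell further out. -/
noncomputable def kick : Lam k →ₗ[k] Matrix LC LC (Lam k) :=
  LinearMap.mulLeft k (Jm k) ∘ₗ (sgMx k).toLinearMap ∘ₗ (phiL k).toLinearMap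

theorem kick_apply (a : Lam k) : kick k a = Jm k * sgMx k (phiL k a) := rfl

theorem DL_cons (l : LC) (ls : List LC) (j : ℕ) (b : BC) : DL k (l :: ls) j b
    = -push k l (ls, j, b) (Nm k)
      - (DL k ls j b).sum fun p a => push k l p (kick k a) := by
  rw [DL]
  refine congrArg₂ _ rfl (Finsupp.sum_congr fun p _ => ?_)
  simp [push_apply, kick_apply, Jm, Matrix.diagonal_mul]

/-- The sum over the first step, weighted by the sign. -/
noncomputable def comp2 : (Pre →₀ Lam k) →ₗ[k] (Pre →₀ Lam k) :=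
  Finsupp.lsum k fun q : Pre =>
    { toFun := fun a => (DL k q.1 q.2.1 q.2.2).mapRange (sgL k a * ·) (mul_zero _)
      map_add' := fun a b => Finsupp.ext fun p => by simp [add_mul]
      map_smul' := fun c a => Finsupp.ext fun p => by simp }

theorem comp2_apply (v : Pre →₀ Lam k) : comp2 k v
    = v.sum fun q a => (DL k q.1 q.2.1 q.2.2).mapRange (sgL k a * ·) (mul_zero _) := rfl

@[simp] theorem comp2_single (q : Pre) (a : Lam k) : comp2 k (Finsupp.single q a)
    = (DL k q.1 q.2.1 q.2.2).mapRange (sgL k a * ·) (mul_zero _) := by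
  rw [comp2, Finsupp.lsum_single]
  rfl

/-- The square of the differential on a row of coefficients. -/
noncomputable def square : (Pre →₀ Lam k) →ₗ[k] (Pre →₀ Lam k) :=
  Finsupp.mapRange.linearMap (dL k) + comp2 k

theorem square_apply (v : Pre →₀ Lam k) :
    square k v = v.mapRange (dL k) (map_zero _) + comp2 k v := rfl

theorem mapRange_mul_push (x : Lam k) (l : LC) (r : Pre) (X : Matrix LC LC (Lam k)) :
    (push k l r X).mapRange (x * ·) (mul_zero _)
      = ∑ l', Finsupp.single (l' :: r.1, r.2) (x * X l l') := by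
  rw [push_apply]
  rw [show (∑ l', Finsupp.single (l' :: r.1, r.2) (X l l')).mapRange (x * ·) (mul_zero _)
      = Finsupp.mapRange.addMonoidHom (AddMonoidHom.mulLeft x)
          (∑ l', Finsupp.single (l' :: r.1, r.2) (X l l')) from rfl, map_sum]
  exact Finset.sum_congr rfl fun l' _ => Finsupp.mapRange_single (hf := mul_zero x)

theorem sum_mul_push (C X : Matrix LC LC (Lam k)) (l : LC) (r : Pre) :
    ∑ l', (push k l' r X).mapRange (C l l' * ·) (mul_zero _) = push k l r (C * X) := by
  simp only [mapRange_mul_push]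
  simp only [push_apply, Matrix.mul_apply, Finsupp.single_finsetSum]
  rw [Finset.sum_comm]

theorem comp2_push (l : LC) (p : Pre) (X : Matrix LC LC (Lam k)) :
    comp2 k (push k l p X) = -push k l p (sgMx k X * Nm k)
      - (DL k p.1 p.2.1 p.2.2).sum fun q b => push k l q (sgMx k X * kick k b) := by
  rw [push_apply k l p X, map_sum]
  simp only [comp2_single, DL_cons, Prod.mk.eta]
  have hlin : ∀ (x : Lam k) (u v : Pre →₀ Lam k), (-u - v).mapRange (x * ·) (mul_zero _)
      = -u.mapRange (x * ·) (mul_zero _) - v.mapRange (x * ·) (mul_zero _) := fun x u v =>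
    Finsupp.ext fun q => by simp [mul_sub]
  simp only [hlin, Finset.sum_sub_distrib, Finset.sum_neg_distrib, ← sgMx_apply k X,
    sum_mul_push]
  congr 1
  simp only [Finsupp.sum]
  have hsum : ∀ (x : Lam k) (s : Finset Pre) (f : Pre → Pre →₀ Lam k),
      (∑ q ∈ s, f q).mapRange (x * ·) (mul_zero _)
        = ∑ q ∈ s, (f q).mapRange (x * ·) (mul_zero _) := fun x s f =>
    map_sum (Finsupp.mapRange.addMonoidHom (AddMonoidHom.mulLeft x)) f s
  simp only [hsum]
  rw [Finset.sum_comm]
  exact Finset.sum_congr rfl fun q _ => sum_mul_push k (sgMx k X) _ l q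

theorem dL_push (l : LC) (p : Pre) (X : Matrix LC LC (Lam k)) :
    (push k l p X).mapRange (dL k) (map_zero _) = push k l p (dMx k X) := by
  rw [show (push k l p X).mapRange (dL k) (map_zero _)
      = Finsupp.mapRange.linearMap (dL k) (push k l p X) from rfl, push_apply, map_sum]
  simp [push_apply]

theorem square_push (l : LC) (p : Pre) (X : Matrix LC LC (Lam k)) :
    square k (push k l p X) = push k l p (dMx k X - sgMx k X * Nm k)
      - (DL k p.1 p.2.1 p.2.2).sum fun q b => push k l q (sgMx k X * kick k b) := by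
  rw [square_apply, dL_push, comp2_push, map_sub]
  abel

theorem Jm_Nm : Jm k * Nm k = -Nm k := by
  ext c c' : 1
  cases c <;> cases c' <;> simp [Jm, Nm, LC.sgn, LC.deg] <;> split_ifs <;> simp

theorem Nm_mul_Jm : Nm k * Jm k = Nm k := by
  ext c c' : 1
  cases c <;> cases c' <;> simp [Jm, Nm, LC.sgn, LC.deg]

theorem sgMx_Jm_sq : sgMx k (Jm k) = Jm k := by
  ext c c' : 1
  simp [Jm, Matrix.diagonal_apply]
  split_ifs <;> simp

theorem dMx_Jm_sq : dMx k (Jm k) = 0 := by
  have h1 : dL k (1 : Lam k) = 0 := Lam.ext (by simp) (by simp)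
  ext c c' : 1
  simp [Jm, Matrix.diagonal_apply]
  split_ifs <;> simp [h1]

theorem sgMx_sgMx (A : Matrix LC LC (Lam k)) : sgMx k (sgMx k A) = A := by
  ext c c' : 1; simp

theorem dMx_sgMx (A : Matrix LC LC (Lam k)) : dMx k (sgMx k A) = -sgMx k (dMx k A) := by
  ext c c' : 1; simp [dL_sgL]

theorem kick_mul (a b : Lam k) :
    sgMx k (kick k a) * kick k b = sgMx k (phiL k (sgL k a * b)) := by
  have hb : Jm k * sgMx k (phiL k b) = phiL k (sgL k b) * Jm k := by
    calc Jm k * sgMx k (phiL k b)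
        = Jm k * (sgMx k (phiL k b) * (Jm k * Jm k)) := by rw [Jm_sq, mul_one]
      _ = Jm k * Jm k * phiL k (sgL k b) * Jm k := by
        rw [← mul_assoc (sgMx k (phiL k b)), sgMx_phiL]; noncomm_ring
      _ = _ := by rw [Jm_sq, one_mul]
  rw [kick_apply, kick_apply, map_mul, sgMx_Jm_sq, sgMx_sgMx, hb, ← mul_assoc, mul_assoc (Jm k),
    ← map_mul]
  have h := sgMx_phiL k (sgL k a * b)
  rw [sgL_mul, sgL_sgL] at h
  rw [← h, mul_assoc, Jm_sq, mul_one]

/-- The defect which one more bimodule cell adds. -/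
theorem kick_err (a : Lam k) :
    Nm k * kick k a - dMx k (kick k a) + sgMx k (kick k a) * Nm k - sgMx k (phiL k (dL k a))
      = Jm k * sgMx k (err k a) := by
  rw [err, map_sub, map_sub, map_add, map_mul, map_mul, map_mul, sgMx_sgMx, sgMx_Jm_sq]
  rw [show sgMx k (Nm k) = Nm k from Matrix.ext fun c c' => Nm_sg k c c']
  rw [kick_apply, map_mul (sgMx k), sgMx_Jm_sq, sgMx_sgMx, dMx_mul, dMx_Jm_sq, zero_mul, zero_add,
    sgMx_Jm_sq, dMx_sgMx]
  rw [mul_sub, mul_sub, mul_add, ← mul_assoc (Jm k) (Nm k), Jm_Nm, ← mul_assoc (Nm k), Nm_mul_Jm,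
    ← mul_assoc (Jm k) (Jm k), Jm_sq, one_mul]
  noncomm_ring

/-- Left multiplication of every coefficient. -/
noncomputable def mulR (x : Lam k) : (Pre →₀ Lam k) →ₗ[k] (Pre →₀ Lam k) :=
  Finsupp.mapRange.linearMap (LinearMap.mulLeft k x)

@[simp] theorem mulR_single (x : Lam k) (p : Pre) (a : Lam k) :
    mulR k x (Finsupp.single p a) = Finsupp.single p (x * a) := by
  simp [mulR]

theorem square_single (q : Pre) (a : Lam k) : square k (Finsupp.single q a)
    = Finsupp.single q (dL k a) + mulR k (sgL k a) (DL k q.1 q.2.1 q.2.2) := by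
  rw [square_apply, Finsupp.mapRange_single, comp2_single]
  rfl

theorem of_t_comm (a : Lam k) : a * Lam.of k (tF k) = Lam.of k (tF k) * a :=
  ((Lam.tF_comm k a).eq).symm

theorem of_t_left (g : Gen) (a : Lam k) : Lam.of k (gen k g) * (Lam.of k (tF k) * a)
    = Lam.of k (tF k) * (Lam.of k (gen k g) * a) := by
  rw [← mul_assoc, of_t_comm, mul_assoc]

theorem u_gen (g : Gen) : Lam.u k * Lam.of k (gen k g)
    = ((-1 : k) ^ g.deg) • (Lam.of k (gen k g) * Lam.u k) :=
  Lam.ext (by simp [Lam.u]) (by simp [Lam.u, sg_gen])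

theorem u_gen_left (g : Gen) (a : Lam k) : Lam.u k * (Lam.of k (gen k g) * a)
    = ((-1 : k) ^ g.deg) • (Lam.of k (gen k g) * (Lam.u k * a)) := by
  rw [← mul_assoc, u_gen, smul_mul_assoc, mul_assoc]

theorem u_t_left (a : Lam k) :
    Lam.u k * (Lam.of k (tF k) * a) = Lam.of k (tF k) * (Lam.u k * a) := by
  rw [← mul_assoc, of_t_comm, mul_assoc]

theorem u_u : Lam.u k * Lam.u k = 0 := Lam.ext (by simp [Lam.u]) (by simp [Lam.u])

theorem u_u_left (a : Lam k) : Lam.u k * (Lam.u k * a) = 0 := by rw [← mul_assoc, u_u, zero_mul]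

theorem sgL_gen (g : Gen) :
    sgL k (Lam.of k (gen k g)) = ((-1 : k) ^ g.deg) • Lam.of k (gen k g) := by
  rw [sgL_of, sg_gen, map_smul]

theorem sgL_t : sgL k (Lam.of k (tF k)) = Lam.of k (tF k) := by rw [sgL_of, sg_tF]

theorem dL_x (i : Fin 2) : dL k (Lam.of k (gen k (.x i))) = 0 := by
  simp [dL_of_gen, dX, DX]

theorem dL_p (i : Fin 2) : dL k (Lam.of k (gen k (.p i))) = 0 := by
  simp [dL_of_gen, dX, DX]

theorem square_base (j : ℕ) (b : BC) : square k (dTower k j b) = 0 := by
  have hX : ∀ g : Gen, (Algebra.X g : F k) = gen k g := fun _ => rfl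
  have ht : (tt : F k) = tF k := rfl
  rcases b with _ | i | i | _ <;> rcases j with - | j <;> (try fin_cases i) <;>
    simp only [dTower, dBase, map_add, map_sub, map_neg, map_zero, square_single, DL, reduceCtorEq,
      if_true, if_false, one_ne_zero, zero_ne_one, mulR_single, Nat.add_sub_cancel, Nat.cast_zero,
      zero_smul, Finsupp.single_zero, add_zero, zero_add, Nat.zero_sub, Fin.zero_eta, Fin.mk_one,
      Fin.isValue, map_smul, map_mul, dL_mul, dL_u, sgL_u, sgL_gen, sgL_t, sgL_mul, dL_of_tF, dL_x,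
      dL_p, dL_of_gen, dX, DX, hX, ht, gX, gP, gR, gQ, gZ, Gen.deg, pow_zero, pow_one, one_smul,
      neg_smul, neg_sub, mul_zero, zero_mul, mul_neg, neg_mul, neg_neg, neg_zero, sub_zero,
      smul_zero, smul_neg, mul_add, add_mul, mul_sub, sub_mul, smul_mul_assoc, mul_smul_comm,
      mul_assoc, of_t_comm, of_t_left, u_gen, u_gen_left, u_t_left, u_u, u_u_left, neg_one_sq,
      Finsupp.single_add, Finsupp.single_sub, Finsupp.single_neg, smul_add, smul_sub,
      ← Finsupp.smul_single, Nat.cast_add, Nat.cast_one, add_smul, sg_tF, Nat.sub_self] <;>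
    module

/-- The differential squares to zero. -/
theorem DL_sq {c : Pre} (hc : Ok c.1 c.2.1 c.2.2) :
    (DL k c.1 c.2.1 c.2.2).mapRange (dL k) (map_zero _)
      + ((DL k c.1 c.2.1 c.2.2).sum fun q a =>
          (DL k q.1 q.2.1 q.2.2).mapRange (sgL k a * ·) (mul_zero _)) = 0 := by
  suffices h : ∀ (ls : List LC) (j : ℕ) (b : BC), Ok ls j b → square k (DL k ls j b) = 0 from
    h c.1 c.2.1 c.2.2 hc
  intro ls
  induction ls with
  | nil => exact fun j b _ => square_base k j b
  | cons l ls ih =>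
    intro j b ⟨hl, hr⟩
    set D := DL k ls j b with hD
    have h0 : square k D = 0 := ih j b hr
    -- carry the identity of the shorter chain one cell out
    let lift : (Pre →₀ Lam k) →ₗ[k] (Pre →₀ Lam k) :=
      Finsupp.lsum k fun q => push k l q ∘ₗ (sgMx k).toLinearMap ∘ₗ (phiL k).toLinearMap
    have h1 := congrArg lift h0
    rw [square_apply, map_add, map_zero] at h1
    have e1 : lift (D.mapRange (dL k) (map_zero _))
        = D.sum fun p a => push k l p (sgMx k (phiL k (dL k a))) := by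
      simp only [lift, Finsupp.lsum_apply]
      rw [Finsupp.sum_mapRange_index (fun _ => by simp)]
      rfl
    have e2 : lift (comp2 k D) = D.sum fun p a =>
        (DL k p.1 p.2.1 p.2.2).sum fun q b => push k l q (sgMx k (kick k a) * kick k b) := by
      rw [comp2_apply, map_finsuppSum]
      refine Finsupp.sum_congr fun p _ => ?_
      simp only [lift, Finsupp.lsum_apply]
      rw [Finsupp.sum_mapRange_index (fun _ => by simp)]
      refine Finsupp.sum_congr fun q _ => ?_
      simp [kick_mul]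
    rw [e1, e2] at h1
    rw [DL_cons, map_sub, map_neg, map_finsuppSum, square_push,
      show dMx k (Nm k) = 0 from Matrix.ext fun c c' => dL_Nm k c c',
      show sgMx k (Nm k) = Nm k from Matrix.ext fun c c' => Nm_sg k c c', Nm_sq, sub_zero,
      map_zero, zero_sub, neg_neg, ← hD]
    simp only [square_push, map_sub, Finsupp.sum_sub]
    have hz : (D.sum fun p a => push k l p (Jm k * sgMx k (err k a))) = 0 := by
      refine Finset.sum_eq_zero fun p _ => ?_
      have he : RowAt k (vA (ls, j, b)) (Pi.single l (1 : Lam k)) := fun c hc => by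
        refine Pi.single_eq_of_ne ?_ _
        rintro rfl
        exact hc hl
      have hrow := err_supL k (supDL_le_supL k (DL_supD k (c := (ls, j, b)) hr p)) he
      rw [Matrix.single_one_vecMul] at hrow
      show push k l p _ = 0
      rw [push_apply]
      refine Finset.sum_eq_zero fun l' _ => ?_
      have hz : err k (D p) l l' = 0 := congrFun hrow l'
      simp [Jm, Matrix.diagonal_mul, hz]
    simp only [← kick_err, map_sub, map_add, Finsupp.sum_sub, Finsupp.sum_add] at hz
    linear_combination (norm := abel1) hz + h1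

end P195.Model
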