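import Vale.Agent.P195.Model.Complex
import Vale.Agent.P195.Model.Square

/-!
P195: the part in `Λ` of the square of the differential vanishes.
-/

namespace P195.Model

open P195.Algebra

variable {k : Type} [Field k]

theorem sqLam : SqLam k := fun p r hp => by
  have h := DFunLike.congr_fun (DL_sq k (c := p) hp) r
  simpa [Finsupp.sum, Finsupp.finsetSum_apply] using h

end P195.Model
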