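import Vale.Agent.P195.Model.Cells
import Vale.Agent.P195.Orth.Defs
import Vale.Agent.P195.Algebra.Dga

/-!
P195, acyclicity: the standard resolution of `Y` over `F`. A path leaving the vertex `0` is either
a power of `t` or ends (on the right) in one of `x_i`, `r_i`, `z₀`, in exactly one way.
-/

namespace P195.Model

open P195.Algebra MonoidAlgebra
open P195.Orth (augF)

variable (k : Type) [Field k]

/-- Right multiplication of monomials by a letter. -/
def rmul (g : Gen) (m : M) : M := m * (FreeMonoid.of g, 1)

theorem toList_rmul (g : Gen) (m : M) :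
    FreeMonoid.toList (rmul g m).1 = FreeMonoid.toList m.1 ++ [g] := by
  simp [rmul]

theorem rmul_injective (g : Gen) : Function.Injective (rmul g) := by
  rintro ⟨w, e⟩ ⟨w', e'⟩ h
  have h1 : FreeMonoid.toList w ++ [g] = FreeMonoid.toList w' ++ [g] := by
    rw [← toList_rmul g (w, e), ← toList_rmul g (w', e'), h]
  have h2 : e = e' := by simpa [rmul] using congrArg Prod.snd h
  rw [List.append_left_inj] at h1
  rw [FreeMonoid.toList.injective h1, h2]

/-- The right quotient by a letter. -/
noncomputable def quot (g : Gen) : F k →ₗ[k] F k where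
  toFun := comapDomain (rmul g) (rmul_injective g)
  map_add' _ _ := comapDomain_add _ _ _ _
  map_smul' c x := by
    refine coeff_injective (Finsupp.ext fun m => ?_)
    simp

theorem quot_coeff (g : Gen) (x : F k) (m : M) : (quot k g x).coeff m = x.coeff (rmul g m) := by
  simp [quot]

theorem quot_mul_gen (g h : Gen) (b : F k) :
    quot k g (b * gen k h) = if g = h then b else 0 := by
  induction b using MonoidAlgebra.induction_linear with
  | zero => simp
  | add u v hu hv => rw [add_mul, map_add, hu, hv]; split_ifs <;> simp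
  | single m r =>
    have e : (single m r : F k) * gen k h = single (rmul h m) r := by
      simp [rmul, gen, Algebra.X, single_mul_single]
    rw [e]
    split_ifs with hgh
    · subst hgh
      exact comapDomain_single_map _ (rmul_injective g) m r
    · refine comapDomain_single_of_not_mem_range ?_ (rmul_injective g)
      rintro ⟨m', hm'⟩
      apply hgh
      have h1 : FreeMonoid.toList (rmul g m').1 = FreeMonoid.toList (rmul h m).1 := by rw [hm']
      rw [toList_rmul, toList_rmul] at h1
      exact List.singleton_inj.1 (List.append_inj_right' h1 rfl)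

theorem path_snoc {a' a : Fin 2} {g : Gen} : ∀ {w : List Gen},
    Algebra.Path a' a (w ++ [g]) ↔ Algebra.Path a' g.tgt w ∧ g.src = a
  | [] => by simp [Algebra.Path, eq_comm]
  | h :: w => by simp [Algebra.Path, path_snoc (w := w), and_assoc]

theorem quot_supF {a' a : Fin 2} {Δ : ℤ} {x : F k} (g : Gen)
    (hx : x ∈ supF k a' a Δ) : quot k g x ∈ supF k a' g.tgt (Δ - g.wt) := by
  classical
  rw [supF, mem_supported'] at hx ⊢
  intro m hm
  rw [quot_coeff]
  refine hx _ fun h => hm ⟨?_, ?_⟩
  · have h1 := h.1
    rw [toList_rmul, path_snoc] at h1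
    exact h1.1
  · have h2 := h.2
    rw [rmul, mwt_mul] at h2
    have : mwt ((FreeMonoid.of g, 1) : M) = g.wt := by simp [mwt]
    rw [this] at h2
    push_cast at h2
    linarith

theorem quot_part (g : Gen) {n : ℤ} {x : F k} (hx : HomF k n x) :
    HomF k (n - g.deg) (quot k g x) := by
  change part degHom _ _ = _ at *
  refine coeff_injective (Finsupp.ext fun m => ?_)
  rw [part_apply, quot_coeff]
  split_ifs with h
  · rfl
  · rw [← hx, part_apply, if_neg]
    intro h'
    apply h
    rw [rmul, degOf_mul, degOf_of] at h'
    have : (g.dg : ℤ) = g.deg := by cases g <;> rfl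
    omega

/-! ### The augmentation on monomials -/

theorem augF_single (m : M) (r : k) :
    augF k (single m r) = if FreeMonoid.toList m.1 = [] then r else 0 := by
  obtain ⟨w, e⟩ := m
  induction w using FreeMonoid.inductionOn' with
  | one => simp [augF, Algebra.ext]
  | of_mul g w _ => simp [augF, Algebra.ext]

theorem augF_gen (g : Gen) : augF k (gen k g) = 0 := by simp [augF, ext_gen]

theorem augF_tF : augF k (tF k) = 1 := by simp [augF, ext_tF]

theorem augF_supF_ne {a' a : Fin 2} {Δ : ℤ} (h : a' ≠ a) {x : F k} (hx : x ∈ supF k a' a Δ) :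
    augF k x = 0 := by
  rw [← sum_coeff_single x, map_finsuppSum]
  refine Finset.sum_eq_zero fun m hm => ?_
  show augF k (single m _) = 0
  rw [augF_single, if_neg]
  intro h'
  have := ((mem_supported.1 hx) hm).1
  rw [h'] at this
  exact h this

theorem augF_part {n : ℤ} (hn : n ≠ 0) {x : F k} (hx : HomF k n x) : augF k x = 0 := by
  change part degHom _ _ = _ at hx
  rw [← hx, ← sum_coeff_single x, map_finsuppSum, map_finsuppSum]
  refine Finset.sum_eq_zero fun m _ => ?_
  show augF k (part degHom n (single m _)) = 0
  rw [part_single]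
  split_ifs with h
  · rw [augF_single, if_neg]
    intro h'
    apply hn
    rw [← h, degOf_eq, mdeg, h']
    simp [wdeg]
  · simp

theorem augF_sg (x : F k) : augF k (sg k x) = augF k x := by
  induction x using F.induction with
  | one => simp
  | t => simp
  | gen g => simp [augF_gen]
  | mul a b ha hb => simp [ha, hb]
  | add a b ha hb => simp [ha, hb]
  | smul c a ha => simp [ha]

theorem augF_dF (x : F k) : augF k (dF k x) = 0 := by
  induction x using F.induction with
  | one => simp
  | t => simp [d_tt]
  | gen g =>
    rw [d_X]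
    cases g <;> simp only [dX, map_zero] <;> split_ifs <;> simp [augF_gen]
  | mul a b ha hb => simp [d_mul, ha, hb]
  | add a b ha hb => simp [ha, hb]
  | smul c a ha => simp [ha]

theorem part_neg {n : ℤ} (hn : n < 0) {x : F k} (hx : HomF k n x) : x = 0 := by
  change part degHom _ _ = _ at hx
  rw [← hx]
  refine coeff_injective (Finsupp.ext fun m => ?_)
  rw [part_apply, if_neg]
  · rfl
  · rw [degOf_eq]; omega

/-! ### The last letter -/

open scoped Classical in
theorem decomp {a' : Fin 2} {Δ : ℤ} {x : F k} (hx : x ∈ supF k a' 0 Δ) (hε : augF k x = 0) :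
    quot k (.x 0) x * gX k 0 + quot k (.x 1) x * gX k 1 + quot k (.r 0) x * gR k 0
      + quot k (.r 1) x * gR k 1 + quot k (.z 0) x * gZ k 0 = x := by
  let δ : F k →ₗ[k] F k :=
    LinearMap.mulRight k (gX k 0) ∘ₗ quot k (.x 0) + LinearMap.mulRight k (gX k 1) ∘ₗ quot k (.x 1)
      + LinearMap.mulRight k (gR k 0) ∘ₗ quot k (.r 0)
      + LinearMap.mulRight k (gR k 1) ∘ₗ quot k (.r 1)
      + LinearMap.mulRight k (gZ k 0) ∘ₗ quot k (.z 0) - LinearMap.id
  suffices h : δ x = 0 by simpa [δ, sub_eq_zero] using h
  let P : Submodule k (F k) :=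
    MonoidAlgebra.supported k k {m | m ∈ supSet a' 0 Δ ∧ FreeMonoid.toList m.1 = []}
  have hP : δ x ∈ P := by
    rw [← sum_coeff_single x, map_finsuppSum]
    refine Submodule.sum_mem _ fun m hm => ?_
    have hms := (mem_supported.1 hx) hm
    show δ (single m (x.coeff m)) ∈ P
    generalize x.coeff m = r
    rcases List.eq_nil_or_concat (FreeMonoid.toList m.1) with h0 | ⟨w, g, hwg⟩
    · have hq : ∀ g, quot k g (single m r) = 0 := fun g => by
        refine comapDomain_single_of_not_mem_range ?_ (rmul_injective g)
        rintro ⟨m', rfl⟩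
        simp [toList_rmul] at h0
      have e : δ (single m r) = -single m r := by simp [δ, hq]
      rw [e]
      refine neg_mem ?_
      simp only [P]
      rw [mem_supported']
      intro m' hm'
      rw [coeff_single, Finsupp.single_apply, if_neg]
      rintro rfl
      exact hm' ⟨hms, h0⟩
    · rw [List.concat_eq_append] at hwg
      have e : (single m r : F k) = single ((FreeMonoid.ofList w, m.2) : M) r * gen k g := by
        rw [show gen k g = single ((FreeMonoid.of g, 1) : M) 1 from rfl, single_mul_single,
          mul_one, Prod.mk_mul_mk, mul_one]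
        congr 2
        exact Prod.ext (FreeMonoid.toList.injective (by simp [hwg])) rfl
      have hsrc : g.src = 0 := by
        have := hms.1
        rw [hwg, path_snoc] at this
        exact this.2
      have e' : δ (single m r) = 0 := by
        simp only [δ, LinearMap.sub_apply, LinearMap.add_apply, LinearMap.comp_apply,
          LinearMap.mulRight_apply, LinearMap.id_apply, e, quot_mul_gen]
        rcases g with i | i | i | i | i <;> fin_cases i <;> simp [Gen.src] at hsrc ⊢
      rw [e']
      exact zero_mem _
  have haug : augF k (δ x) = 0 := by simp [δ, augF_gen, hε]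
  rw [mem_supported] at hP
  generalize δ x = y at hP haug ⊢
  have hsub : ∀ m ∈ y.coeff.support, m = ((1, Multiplicative.ofAdd Δ.toNat) : M) := by
    intro m hm
    obtain ⟨⟨-, hw⟩, h0⟩ := hP hm
    obtain ⟨w, e⟩ := m
    have : w = 1 := FreeMonoid.toList.injective (by simpa using h0)
    subst this
    simp [mwt] at hw
    simp [← hw]
  have hy : y = single ((1, Multiplicative.ofAdd Δ.toNat) : M)
      (y.coeff ((1, Multiplicative.ofAdd Δ.toNat) : M)) := by
    refine coeff_injective (Finsupp.ext fun m => ?_)
    rw [coeff_single, Finsupp.single_apply]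
    split_ifs with h
    · subst h; rfl
    · by_contra hne
      exact h (hsub m (Finsupp.mem_support_iff.2 hne)).symm
  rw [hy, augF_single] at haug
  simp only [FreeMonoid.toList_one, if_true] at haug
  rw [hy, haug, single_zero]

/-- The coefficient of the standard resolution from the cell `b'` to the cell `b`. -/
noncomputable def bas : BC → BC → F k
  | .cx i, .c0 => gX k i
  | .cr i, .c0 => gR k i
  | .cr i, .cx l => if l = 1 then -(gX k 0 * gP k i) - (if i = 0 then tF k else 0)
      else gX k 1 * gP k i + (if i = 0 then 0 else tF k)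
  | .cz, .c0 => gZ k 0
  | .cz, .cr l => if l = 1 then -gP k 0 else gP k 1
  | .cz, .cx l => if l = 1 then -gQ k 0 else gQ k 1
  | _, _ => 0

theorem sum_BC {A : Type} [AddCommMonoid A] (f : BC → A) :
    ∑ b, f b = f .c0 + f (.cx 0) + f (.cx 1) + f (.cr 0) + f (.cr 1) + f .cz := by
  have h : (Finset.univ : Finset BC) = {.c0, .cx 0, .cx 1, .cr 0, .cr 1, .cz} := by decide
  rw [h, Finset.sum_insert (by simp), Finset.sum_insert (by simp), Finset.sum_insert (by simp),
    Finset.sum_insert (by simp), Finset.sum_insert (by simp), Finset.sum_singleton]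
  abel

/-- The differential of the standard resolution on a row. -/
noncomputable def stdD (a : BC → F k) (b : BC) : F k :=
  dF k (a b) + ∑ b', sg k (a b') * bas k b' b

/-- The contracting choice. -/
noncomputable def lift0 (x : F k) : BC → F k
  | .c0 => 0
  | .cx i => sg k (quot k (.x i) x)
  | .cr i => sg k (quot k (.r i) x)
  | .cz => sg k (quot k (.z 0) x)

theorem stdD_lift0 {a' : Fin 2} {Δ : ℤ} {x : F k} (hx : x ∈ supF k a' 0 Δ) (hε : augF k x = 0) :
    stdD k (lift0 k x) .c0 = x := by
  conv_rhs => rw [← decomp k hx hε]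
  simp [stdD, lift0, sum_BC, bas, sg_sg]

theorem std_unique {a : BC → F k} (h0 : a .c0 = 0) (h : stdD k a .c0 = 0) : ∀ b, a b = 0 := by
  have e : sg k (a (.cx 0)) * gX k 0 + sg k (a (.cx 1)) * gX k 1 + sg k (a (.cr 0)) * gR k 0
      + sg k (a (.cr 1)) * gR k 1 + sg k (a .cz) * gZ k 0 = 0 := by
    simpa [stdD, sum_BC, bas, h0] using h
  have inj : ∀ y, sg k y = 0 → y = 0 := fun y hy => by rw [← sg_sg k y, hy, map_zero]
  intro b
  rcases b with _ | i | i | _
  · exact h0
  · refine inj _ ?_
    have := congrArg (quot k (.x i)) e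
    fin_cases i <;> simpa [quot_mul_gen] using this
  · refine inj _ ?_
    have := congrArg (quot k (.r i)) e
    fin_cases i <;> simpa [quot_mul_gen] using this
  · refine inj _ ?_
    have := congrArg (quot k (.z 0)) e
    simpa [quot_mul_gen] using this

theorem lift0_supF {a' : Fin 2} {Δ : ℤ} {x : F k} (hx : x ∈ supF k a' 0 Δ) (b : BC) :
    lift0 k x b ∈ supF k a' b.vtx.1 (Δ - b.vtx.2.val) := by
  cases b with
  | c0 => exact zero_mem _
  | cx i => simpa [lift0, BC.vtx, Gen.tgt, Gen.wt] using supF_sg k (quot_supF k (.x i) hx)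
  | cr i => simpa [lift0, BC.vtx, Gen.tgt, Gen.wt] using supF_sg k (quot_supF k (.r i) hx)
  | cz => simpa [lift0, BC.vtx, Gen.tgt, Gen.wt] using supF_sg k (quot_supF k (.z 0) hx)

theorem lift0_part {n : ℤ} {x : F k} (hx : HomF k n x) (b : BC) :
    HomF k (n + 1 - b.deg) (lift0 k x b) := by
  cases b with
  | c0 => exact HomF.zero k _
  | cx i =>
    refine HomF.sg_mem k ?_
    simpa [BC.deg, Gen.deg] using quot_part k (.x i) hx
  | cr i =>
    refine HomF.sg_mem k ?_
    have := quot_part k (.r i) hx
    exact this.of_eq k (by simp [BC.deg, Gen.deg]; omega)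
  | cz =>
    refine HomF.sg_mem k ?_
    have := quot_part k (.z 0) hx
    exact this.of_eq k (by simp [BC.deg, Gen.deg]; omega)

end P195.Model
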