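import Vale.Agent.P195.Model.Target
import Vale.Agent.P195.Model.Complex

/-!
P195: the simple module at the vertex `(0, 0)` as a target, and a class of degree `2` in it.
-/

namespace P195.Model

open P195.Algebra
open P195.Orth (augF)

variable (k : Type) [Field k]

theorem eps_supT_lt {v' v : Vtx} (h : v'.2.val < v.2.val) {x : Tinf k} (hx : x ∈ supT k v' v) :
    eps k x = 0 := by
  have h1 := ((mem_supT k).1 hx).1.1
  rw [eps_apply]
  have h0 : Lam.re k (Tinf.lam k x) = 0 := by
    refine MonoidAlgebra.coeff_injective (Finsupp.ext fun m => ?_)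
    by_contra hm
    have := ((MonoidAlgebra.mem_supported.1 h1) (Finsupp.mem_support_iff.2 hm)).2
    omega
  rw [h0, map_zero]

/-- The character at `(0, 0)`. -/
noncomputable def chi : T k →ₐ[k] k :=
  AlgHom.ofLinearMap (eps k ∘ₗ T.entry k ((0 : Fin 2), (0 : Fin 3)) (0, 0))
    (by
      show eps k ((1 : Matrix Vtx Vtx (Tinf k)) (0, 0) (0, 0)) = 1
      rw [Matrix.one_apply_eq, eps_one])
    (fun x y => by
      show eps k (T.entry k ((0 : Fin 2), (0 : Fin 3)) (0, 0) (x * y)) = _
      rw [entry_mul, map_sum, Finset.sum_eq_single ((0 : Fin 2), (0 : Fin 3))]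
      · exact eps_mul k _ _
      · rintro ⟨a, b⟩ _ hne
        rw [eps_mul]
        by_cases ha : a = 0
        · subst ha
          have hb : b ≠ 0 := fun e => hne (by rw [e])
          have h0 : eps k (T.entry k ((0 : Fin 2), (0 : Fin 3)) (0, b) x) = 0 :=
            eps_supT_lt k (Fin.pos_iff_ne_zero.2 hb) (x.2 (0, 0) (0, b))
          rw [h0, zero_mul]
        · have h0 : eps k (T.entry k ((0 : Fin 2), (0 : Fin 3)) (a, b) x) = 0 :=
            eps_supT k (Ne.symm ha) (x.2 (0, 0) (a, b))
          rw [h0, zero_mul]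
      · simp)

theorem chi_apply (x : T k) :
    chi k x = eps k (T.entry k ((0 : Fin 2), (0 : Fin 3)) (0, 0) x) := rfl

/-- The simple module at `(0, 0)`. -/
def V : Type := k

noncomputable instance : AddCommGroup (V k) := inferInstanceAs (AddCommGroup k)
noncomputable instance : Module k (V k) := inferInstanceAs (Module k k)
instance : FiniteDimensional k (V k) := inferInstanceAs (FiniteDimensional k k)

/-- A scalar as an element of `V`. -/
def V.mk (c : k) : V k := c

/-- An element of `V` as a scalar. -/
def V.val {k : Type} (u : V k) : k := u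

noncomputable instance : Module (T k) (V k) where
  smul x u := V.mk k (chi k x * V.val u)
  one_smul u := show chi k 1 * V.val u = V.val u by rw [map_one, one_mul]
  mul_smul x y u := show chi k (x * y) * V.val u = chi k x * (chi k y * V.val u) by
    rw [map_mul, mul_assoc]
  smul_zero x := show chi k x * 0 = 0 from mul_zero _
  smul_add x u u' := show chi k x * (V.val u + V.val u') = _ from mul_add _ _ _
  add_smul x y u := show chi k (x + y) * V.val u = chi k x * V.val u + chi k y * V.val u by
    rw [map_add, add_mul]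
  zero_smul u := show chi k 0 * V.val u = 0 by rw [map_zero, zero_mul]

theorem V.val_smul (x : T k) (u : V k) : V.val (x • u) = chi k x * V.val u := rfl

omit [Field k] in
theorem V.ext {u u' : V k} (h : V.val u = V.val u') : u = u' := h

instance : IsScalarTower k (T k) (V k) :=
  ⟨fun c x u => show chi k (c • x) * V.val u = c * (chi k x * V.val u) by
    rw [map_smul, smul_eq_mul, mul_assoc]⟩

theorem chi_deg {n : ℤ} (hn : n ≠ 0) {x : T k} (hx : x ∈ (dga k).G n) : chi k x = 0 := by
  rw [chi_apply, eps_hom k hn (mem_G_iff.1 hx _ _)]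

open scoped Classical in
/-- The simple module in degree `0`. -/
noncomputable def SV : Window.Target (dga k) (V k) where
  G n := if n = 0 then ⊤ else ⊥
  smul_mem m n a u ha hu := by
    by_cases h : m + n = 0
    · rw [if_pos h]; trivial
    · rw [if_neg h, Submodule.mem_bot]
      by_cases hn : n = 0
      · subst hn
        refine V.ext k ?_
        rw [V.val_smul, chi_deg k (by omega) ha, zero_mul]
        rfl
      · rw [if_neg hn, Submodule.mem_bot] at hu
        rw [hu, smul_zero]
  d := 0
  d_mem _ _ _ := zero_mem _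
  d_smul a u := by
    refine V.ext k ?_
    simp only [LinearMap.zero_apply, smul_zero, add_zero, V.val_smul, chi_apply, entry_d, eps_dT,
      zero_mul]
    rfl

theorem SV_concentrated (n : ℤ) (hn : n ≠ 0) : (SV k).G n = ⊥ := by simp [SV, hn]

theorem SV_top : (SV k).G 0 = ⊤ := by simp [SV]

variable {k}

open scoped Classical in
/-- The class: one on the bottom cell of the layer one. -/
noncomputable def cls (c : Cell) : V k := if c = base 1 .c0 then V.mk k 1 else 0

theorem cls_mem (c : Cell) :
    cls (k := k) c ∈ (SV k).G ((pdeg c.1 : ℤ) - 2) ∧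
      T.idem k (vert c.1) • cls (k := k) c = cls c := by
  by_cases hc : c = base 1 .c0
  · subst hc
    refine ⟨?_, V.ext k ?_⟩
    · rw [show ((pdeg (base 1 BC.c0).1 : ℤ) - 2) = 0 by simp [base, pdeg, BC.deg], SV_top]
      trivial
    · rw [V.val_smul, chi_apply, entry_idem]
      have hv : vert (base 1 BC.c0).1 = ((0 : Fin 2), (0 : Fin 3)) := rfl
      rw [if_pos ⟨hv, hv⟩, eps_one, one_mul]
  · rw [cls, if_neg hc]
    exact ⟨zero_mem _, smul_zero _⟩

theorem chi_cellD (c : Cell) : chi k (cellD k c (base 1 .c0)) = 0 := by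
  rw [chi_apply, entry_cellD, apply_ite (eps k), map_zero]
  split_ifs with h
  swap; · rfl
  rw [eps_apply, lam_coef]
  obtain ⟨⟨ls, j, b⟩, hok⟩ := c
  cases ls with
  | cons l ls =>
    show augF k (Lam.re k (DL k (l :: ls) j b ([], 1, .c0))) = 0
    rw [DL_cons_base, map_zero, map_zero]
  | nil =>
    have hb : (b.vtx.2 : Fin 3) = 0 := (congrArg Prod.snd h.1)
    show augF k (Lam.re k (DL k [] j b ([], 1, .c0))) = 0
    rw [dTower_apply]
    clear h hok
    rcases b with _ | i | i | _ <;>
      simp [BC.vtx] at hb <;> split_ifs <;> simp [bas, augF_gen, Lam.u] <;> tauto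

theorem cls_cocycle (c : Cell) :
    ((cellD k c).sum fun c' t => t • cls (k := k) c') = 0 := by
  classical
  refine (Finsupp.sum_of_support_subset (cellD k c)
    (Finset.subset_union_left (s₂ := {base 1 .c0})) _
    fun c _ => zero_smul (T k) (cls c)).trans ?_
  refine Finset.sum_eq_zero fun c' _ => ?_
  by_cases hc : c' = base 1 .c0
  · subst hc
    refine V.ext k ?_
    rw [V.val_smul, chi_cellD, zero_mul]
    rfl
  · rw [cls, if_neg hc, smul_zero]

theorem deg_one {c : Cell} (h : pdeg c.1 = 1) : (vert c.1).1 = 1 := by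
  obtain ⟨⟨ls, j, b⟩, hok⟩ := c
  cases ls with
  | cons l ls => simp [pdeg] at h; omega
  | nil => rcases b with _ | i | i | _ <;> simp [pdeg, BC.deg, vert, vA, BC.vtx] at h ⊢

theorem cochain_one_eq_zero (hsq : SqLam k) {ψ : Cell → V k}
    (hψ : (cellsOf hsq).IsCochain (SV k) 1 ψ) (c : Cell) : ψ c = 0 := by
  obtain ⟨h1, h2⟩ := hψ c
  by_cases hc : pdeg c.1 = 1
  · have h3 : T.idem k (vert c.1) • ψ c = ψ c := h2
    rw [← h3]
    refine V.ext k ?_
    rw [V.val_smul, chi_apply, entry_idem, if_neg, map_zero, zero_mul]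
    · rfl
    · rintro ⟨e, -⟩
      have := deg_one hc
      rw [e] at this
      exact absurd this (by simp)
  · have h3 : ψ c ∈ (SV k).G ((pdeg c.1 : ℤ) - 1) := h1
    rw [SV_concentrated k _ (by omega), Submodule.mem_bot] at h3
    exact h3

/-- The cells are not exact with values in the simple module at `(0, 0)`. -/
theorem v_not_exact (hsq : SqLam k) : ¬ (cellsOf hsq).ExactAt (SV k) 2 := by
  intro hE
  obtain ⟨ψ, hψ, he⟩ := hE cls cls_mem fun c => (cls_cocycle c).symm
  have h0 : ψ = fun _ => 0 := funext fun c =>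
    cochain_one_eq_zero hsq (show (cellsOf hsq).IsCochain (SV k) 1 ψ by simpa using hψ) c
  have h := congrFun he (base 1 .c0)
  rw [h0] at h
  have h1 : V.val (cls (k := k) (base 1 .c0)) = 1 := by rw [cls, if_pos rfl]; rfl
  rw [← h] at h1
  simp [Window.Cells.delta] at h1
  exact one_ne_zero (α := k) h1.symm

end P195.Model
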