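import Vale.Agent.P195.Model.Complex
import Vale.Agent.P195.Model.Target
import Vale.Agent.P195.Orth.Exact

/-!
P195: `Hom(cells, Y)` is exact in positive degrees, from the scalar complex.
-/

namespace P195.Model

open P195.Algebra
open P195.Orth (augF scd IsScalar)

variable {k : Type} [Field k]

/-- A cell with values in `Y` as a scalar cochain. -/
noncomputable def scal (φ : Cell → Y k) (p : Pre) : k :=
  open scoped Classical in
  if h : Ok p.1 p.2.1 p.2.2 then (if vA p = 0 then Y.val (φ ⟨p, h⟩) p.2.2.vtx.2 else 0) else 0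

theorem lam_coef' (c p : Pre) : Tinf.lam k (coef k c p) = DL k c.1 c.2.1 c.2.2 p := by
  simp [coef]

variable (hsq : SqLam k)

/-- The coboundary, on vertices. -/
theorem val_sum_cellD (φ : Cell → Y k) (c : Cell) (b' : Fin 3) :
    Y.val ((cellD k c).sum fun q a => a • φ q) b'
      = if vert c.1 = (0, b') then scd k (scal φ) c.1 else 0 := by
  have hs : (cellD k c).sum (fun q a => a • φ q)
      = ∑ q ∈ low (pdeg c.1), cellD k c q • φ q :=
    sum_cellD c (fun q a => a • φ q) fun q => zero_smul (T k) (φ q)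
  rw [hs]
  have hval : ∀ s : Finset Cell, Y.val (∑ q ∈ s, cellD k c q • φ q) b'
      = ∑ q ∈ s, Y.val (cellD k c q • φ q) b' := fun s =>
    map_sum (({ toFun := fun u => Y.val u b'
                map_zero' := rfl
                map_add' := fun _ _ => rfl } : Y k →+ k)) _ s
  rw [hval]
  have hterm : ∀ q ∈ low (pdeg c.1), Y.val (cellD k c q • φ q) b'
      = if vert c.1 = (0, b') then
          augF k (Lam.re k (DL k c.1.1 c.1.2.1 c.1.2.2 q.1)) * scal φ q.1 else 0 := by
    intro q _
    rw [Y.smul_apply]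
    by_cases hc : vert c.1 = (0, b')
    · rw [if_pos hc, Finset.sum_eq_single q.1.2.2.vtx.2]
      · rw [entry_cellD, scal, dif_pos (show Ok q.1.1 q.1.2.1 q.1.2.2 from q.2)]
        by_cases hq : vA q.1 = 0
        · rw [if_pos hq, if_pos ⟨hc, Prod.ext hq rfl⟩, eps_apply, lam_coef']
          rfl
        · rw [if_neg hq, if_neg fun h => hq (congrArg Prod.fst h.2), map_zero, zero_mul, mul_zero]
      · intro b _ hb
        rw [entry_cellD, if_neg fun h => hb (congrArg Prod.snd h.2).symm, map_zero, zero_mul]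
      · simp
    · rw [if_neg hc]
      refine Finset.sum_eq_zero fun b _ => ?_
      rw [entry_cellD, if_neg fun h => hc h.1, map_zero, zero_mul]
  rw [Finset.sum_congr rfl hterm]
  by_cases hc : vert c.1 = (0, b')
  · simp only [if_pos hc]
    rw [sum_low (pdeg c.1) fun p =>
      augF k (Lam.re k (DL k c.1.1 c.1.2.1 c.1.2.2 p)) * scal φ p]
    exact sum_lowP_DL c.2 (fun p a => augF k (Lam.re k a) * scal φ p) (by simp)
  · simp [if_neg hc]

theorem val_idem_smul (v : Vtx) (u : Y k) (b' : Fin 3) :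
    Y.val (T.idem k v • u) b' = if v = (0, b') then Y.val u b' else 0 := by
  rw [Y.smul_apply, Finset.sum_eq_single b']
  · rw [entry_idem, apply_ite (eps k), eps_one, map_zero]
    split_ifs <;> simp_all
  · intro b _ hb
    rw [entry_idem, if_neg, map_zero, zero_mul]
    rintro ⟨h1, h2⟩
    exact hb (congrArg Prod.snd (h2.symm.trans h1))
  · simp

theorem SY_bot {n : ℤ} (hn : n ≠ 0) {u : Y k} (hu : u ∈ (SY k).G n) : u = 0 := by
  rw [SY_concentrated k n hn] at hu
  exact (Submodule.mem_bot k).1 hu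

/-- `Hom(cells, Y)` is exact in positive degrees. -/
theorem yExact [CharZero k] (hsq : SqLam k) (E : ℤ) (hE : 0 < E) :
    (cellsOf hsq).ExactAt (SY k) E := by
  intro φ hφ hco
  -- a cochain is the scalar at its own vertex
  have hidem : ∀ (c : Cell) (b' : Fin 3), Y.val (φ c) b'
      = if vert c.1 = (0, b') then Y.val (φ c) b' else 0 := fun c b' => by
    conv_lhs => rw [← (hφ c).2]
    exact val_idem_smul _ _ _
  have hdeg : ∀ c : Cell, φ c ≠ 0 → (pdeg c.1 : ℤ) = E := fun c hc => by
    by_contra h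
    exact hc (SY_bot (show (pdeg c.1 : ℤ) - E ≠ 0 by omega) (hφ c).1)
  have hf : IsScalar k E (scal φ) := by
    intro p hp
    unfold scal at hp
    split_ifs at hp with h h'
    · exact ⟨h, h', hdeg ⟨p, h⟩ fun h0 => hp (by rw [h0]; rfl)⟩
    · exact absurd rfl hp
    · exact absurd rfl hp
  have hfco : ∀ c, Ok c.1 c.2.1 c.2.2 → vA c = 0 → scd k (scal φ) c = 0 := by
    intro p hp hv
    have h := hco ⟨p, hp⟩
    have h' := congrArg (fun u => Y.val u p.2.2.vtx.2) h
    rw [show (SY k).d = 0 from rfl, LinearMap.zero_apply] at h'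
    change Y.val (0 : Y k) _ = Y.val ((cellD k ⟨p, hp⟩).sum fun q a => a • φ q) _ at h'
    have h'' := h'.trans (val_sum_cellD φ (⟨p, hp⟩ : Cell) p.2.2.vtx.2)
    exact (h''.trans (if_pos (show vert p = ((0 : Fin 2), p.2.2.vtx.2) from Prod.ext hv rfl))).symm
  obtain ⟨g, hg, hgf⟩ := Orth.scalarExact k E hE (scal φ) hf hfco
  set s : k := -((-1 : k) ^ E.toNat) with hs
  let ψ : Cell → Y k := fun q => Y.mk k (Pi.single q.1.2.2.vtx.2 (s * g q.1))
  have hψv : ∀ (q : Cell) (b : Fin 3),
      Y.val (ψ q) b = if b = q.1.2.2.vtx.2 then s * g q.1 else 0 := fun q b => by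
    show (Pi.single q.1.2.2.vtx.2 (s * g q.1) : Fin 3 → k) b = _
    rw [Pi.single_apply]
  have hscal : ∀ p, Ok p.1 p.2.1 p.2.2 → scal ψ p = s * g p := fun p hp => by
    rw [scal, dif_pos hp]
    split_ifs with hv
    · exact (hψv _ _).trans (if_pos rfl)
    · by_cases h0 : g p = 0
      · rw [h0, mul_zero]
      · exact absurd (hg p h0).2.1 hv
  refine ⟨ψ, fun q => ⟨?_, ?_⟩, funext fun (c : Cell) => Y.ext (funext fun b' => ?_)⟩
  · by_cases h0 : g q.1 = 0
    · have : ψ q = 0 := Y.ext (funext fun b =>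
        (hψv q b).trans (by rw [h0, mul_zero, ite_self]; rfl))
      rw [this]; exact zero_mem _
    · have := (hg q.1 h0).2.2
      change ψ q ∈ (SY k).G ((pdeg q.1 : ℤ) - (E - 1))
      rw [this, sub_self, SY_top]
      trivial
  · refine Y.ext (funext fun b' => ?_)
    change Y.val (T.idem k (vert q.1) • ψ q) b' = _
    rw [val_idem_smul]
    split_ifs with h
    · rfl
    · refine Eq.trans ?_ (hψv q b').symm
      split_ifs with hb
      · by_cases h0 : g q.1 = 0
        · rw [h0, mul_zero]
        · exact absurd (Prod.ext (hg q.1 h0).2.1 hb.symm) h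
      · rfl
  · change ((-1 : k) ^ pdeg c.1) * (0 - Y.val ((cellD k c).sum fun q a => a • ψ q) b')
      = Y.val (φ c) b'
    refine (congrArg (fun z => (-1 : k) ^ pdeg c.1 * (0 - z)) (val_sum_cellD ψ c b')).trans ?_
    refine Eq.trans ?_ (hidem c b').symm
    split_ifs with hc
    · have hv : vA c.1 = 0 := congrArg Prod.fst hc
      have hb : c.1.2.2.vtx.2 = b' := congrArg Prod.snd hc
      have hsg : scd k (scal ψ) c.1 = s * scd k g c.1 := by
        rw [scd, scd, Finsupp.mul_sum]
        refine Finsupp.sum_congr fun p hp => ?_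
        rw [hscal p (DL_sup k c.2 (Finsupp.mem_support_iff.1 hp)).1]
        ring
      have hsc : scal φ c.1 = Y.val (φ c) b' := by
        unfold scal
        rw [dif_pos (show Ok c.1.1 c.1.2.1 c.1.2.2 from c.2), if_pos hv, hb]
        rfl
      rw [hsg, hgf c.1 c.2 hv, zero_sub, hsc]
      by_cases h0 : φ c = 0
      · change (-1 : k) ^ pdeg c.1 * -(s * Y.val (φ c) b') = Y.val (φ c) b'
        rw [h0]
        show (-1 : k) ^ pdeg c.1 * -(s * 0) = 0
        ring
      · have hd := hdeg c h0
        have hE' : E.toNat = pdeg c.1 := by omega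
        rw [hs, hE']
        change (-1 : k) ^ pdeg c.1 * -(-(-1 : k) ^ pdeg c.1 * Y.val (φ c) b') = Y.val (φ c) b'
        rw [neg_mul, neg_neg, ← mul_assoc, ← pow_add, ← two_mul, pow_mul]
        simp
    · simp

end P195.Model
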